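import Vale.Agent.P318N.D

/-! The smoothed absolute value. Termwise inequalities under the two averages (expect_le_expect, expect_comm for the symmetry j <-> j'). th1_conv: |a|-|b| ≤ sign a * (a-b) termwise. th1_nonneg: th1_conv with a = 0 and ph1 η 0 = 0 (symmetry). le_th1: |δ + D| + |δ - D| ≥ 2|δ|, symmetry, |j - j'| ≤ η. -/

open Finset
open scoped BigOperators

noncomputable section

namespace Vale.Agent.P318.N

variable {m S N τ η J B Q ρ : ℕ} {ε K : ℝ} {u : Dir S N m} {th : Fin S → Fin N → Fin τ}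

theorem h1_mono {f g : Fin η → Fin η → ℝ} (h : ∀ j j', f j j' ≤ g j j') :
    𝔼 j, 𝔼 j', f j j' ≤ 𝔼 j, 𝔼 j', g j j' :=
  expect_le_expect fun j _ => expect_le_expect fun j' _ => h j j'

theorem h1_le {f : Fin η → Fin η → ℝ} {c : ℝ} (hc : 0 ≤ c) (h : ∀ j j', f j j' ≤ c) :
    𝔼 j, 𝔼 j', f j j' ≤ c := by
  rcases (univ : Finset (Fin η)).eq_empty_or_nonempty with e | e
  · rw [e, expect_empty]
    exact hc
  · exact expect_le e fun j _ => expect_le e fun j' _ => h j j'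

theorem h1_ge {f : Fin η → Fin η → ℝ} {c : ℝ} (hc : c ≤ 0 ∨ 0 < η) (h : ∀ j j', c ≤ f j j') :
    c ≤ 𝔼 j, 𝔼 j', f j j' := by
  rcases (univ : Finset (Fin η)).eq_empty_or_nonempty with e | e
  · rw [e, expect_empty]
    exact hc.resolve_right fun k => (e ▸ mem_univ (⟨0, k⟩ : Fin η) : _ ∈ (∅ : Finset _)) |>
      notMem_empty _
  · exact le_expect e fun j _ => le_expect e fun j' _ => h j j'

theorem th1_zero : th1 η 0 = 0 := by
  simp [th1]

theorem th1_neg (δ : ℤ) : th1 η (-δ) = th1 η δ := by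
  rw [th1, th1, expect_comm]
  refine expect_congr rfl fun j _ => expect_congr rfl fun j' _ => ?_
  rw [abs_sub_comm ((j' : ℕ) : ℝ), ← abs_neg]
  congr 2
  push_cast
  ring

theorem th1_le (δ : ℤ) : th1 η δ ≤ |(δ : ℝ)| :=
  h1_le (abs_nonneg _) fun j j' => by
    rw [add_sub_assoc]
    linarith [abs_add_le (δ : ℝ) (((j : ℕ) : ℝ) - (j' : ℕ))]

theorem h1_two (δ : ℤ) : th1 η δ + th1 η δ = 𝔼 j : Fin η, 𝔼 j' : Fin η,
    ((|(δ : ℝ) + (((j : ℕ) : ℝ) - (j' : ℕ))| - |((j : ℕ) : ℝ) - (j' : ℕ)|) +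
      (|-(δ : ℝ) + (((j : ℕ) : ℝ) - (j' : ℕ))| - |((j : ℕ) : ℝ) - (j' : ℕ)|)) := by
  nth_rewrite 2 [← th1_neg]
  simp only [th1, expect_add_distrib, Int.cast_neg, add_sub_assoc]

theorem le_th1 (hη : 0 < η) (δ : ℤ) : |(δ : ℝ)| - η ≤ th1 η δ := by
  have h : 2 * (|(δ : ℝ)| - η) ≤ th1 η δ + th1 η δ := by
    rw [h1_two]
    refine h1_ge (Or.inr hη) fun j j' => ?_
    have h1 : ((j : ℕ) : ℝ) ≤ η := by exact_mod_cast j.2.le
    have h2 : ((j' : ℕ) : ℝ) ≤ η := by exact_mod_cast j'.2.le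
    have h3 : |((j : ℕ) : ℝ) - (j' : ℕ)| ≤ η :=
      abs_le.2 ⟨by linarith [Nat.cast_nonneg (α := ℝ) j], by linarith [Nat.cast_nonneg (α := ℝ) j']⟩
    generalize ((j : ℕ) : ℝ) - (j' : ℕ) = D at h3 ⊢
    have h4 := abs_sub ((δ : ℝ) + D) (-δ + D)
    rw [show (δ : ℝ) + D - (-δ + D) = 2 * δ by ring, abs_mul, abs_two] at h4
    linarith
  linarith

theorem h1_sign (x y : ℤ) : |x| - |y| ≤ x.sign * (x - y) := by
  have h1 := le_abs_self y
  have h2 := neg_abs_le y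
  rcases lt_trichotomy x 0 with h | rfl | h
  · rw [Int.sign_eq_neg_one_of_neg h, abs_of_neg h]
    linarith
  · simp
  · rw [Int.sign_eq_one_of_pos h, abs_of_pos h]
    linarith

theorem th1_conv (a b : ℤ) : th1 η a - th1 η b ≤ ph1 η a * ((a : ℝ) - b) := by
  simp only [th1, ph1, ← expect_sub_distrib, expect_mul]
  refine h1_mono fun j j' => ?_
  have h : ((|a + (j : ℕ) - (j' : ℕ)| - |b + (j : ℕ) - (j' : ℕ)| : ℤ) : ℝ) ≤ _ :=
    Int.cast_le.2 (h1_sign _ _)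
  rw [show a + (j : ℕ) - (j' : ℕ) - (b + (j : ℕ) - (j' : ℕ)) = a - b by ring, Int.cast_mul] at h
  generalize ((Int.sign (a + (j : ℕ) - (j' : ℕ)) : ℤ) : ℝ) = s at h ⊢
  push_cast at h
  linarith

theorem th1_nonneg (δ : ℤ) : 0 ≤ th1 η δ := by
  have h : 0 ≤ th1 η δ + th1 η δ := by
    rw [h1_two]
    refine h1_ge (Or.inl le_rfl) fun j j' => ?_
    generalize ((j : ℕ) : ℝ) - (j' : ℕ) = D
    have h4 := abs_add_le ((δ : ℝ) + D) (-δ + D)
    rw [show (δ : ℝ) + D + (-δ + D) = 2 * D by ring, abs_mul, abs_two] at h4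
    linarith
  linarith

theorem ph1_abs (δ : ℤ) : |ph1 η δ| ≤ 1 := by
  have h : ∀ x : ℤ, -1 ≤ ((x.sign : ℤ) : ℝ) ∧ ((x.sign : ℤ) : ℝ) ≤ 1 := fun x => by
    rcases lt_trichotomy x 0 with h | rfl | h
    · simp [Int.sign_eq_neg_one_of_neg h]
    · simp
    · simp [Int.sign_eq_one_of_pos h]
  exact abs_le.2 ⟨h1_ge (Or.inl (by norm_num)) fun _ _ => (h _).1,
    h1_le zero_le_one fun _ _ => (h _).2⟩

end Vale.Agent.P318.N
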