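import Vale.Agent.P318N.D

/-! Second order bounds. First: for integers c and L ≥ 0, 𝔼 j, 𝔼 j', (if |c + j - j'| ≤ L then 1 else 0) ≤ (2 L + 1) / η (for fixed j the j' lie in an interval of 2L+1 integers). ph1_lip: sign (a + D) ≠ sign (b + D) forces |a + D| ≤ |a - b|, and the difference of signs is at most 2. th1_mix: |D+α+β| - |D+α| - |D+β| + |D| ≤ 2 min |α| |β|, and it is ≤ 0 unless |D| ≤ |α| + |β|; if α, β ≠ 0 then 2 (|α|+|β|) + 1 ≤ 5 max |α| |β|. -/

open Finset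
open scoped BigOperators

noncomputable section

namespace Vale.Agent.P318.N

variable {m S N τ η J B Q ρ : ℕ} {ε K : ℝ} {u : Dir S N m} {th : Fin S → Fin N → Fin τ}

theorem h2_key (hη : 0 < η) (c L : ℤ) (hL : 0 ≤ L) {M : ℝ} (hM : 0 ≤ M) (g : Fin η → Fin η → ℝ)
    (h1 : ∀ j j', g j j' ≤ M) (h2 : ∀ j j' : Fin η, L < |c + (j : ℕ) - (j' : ℕ)| → g j j' ≤ 0) :
    𝔼 j, 𝔼 j', g j j' ≤ M * (2 * L + 1) / η := by
  have : Nonempty (Fin η) := ⟨⟨0, hη⟩⟩
  refine expect_le univ_nonempty fun j _ => ?_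
  rw [expect_eq_sum_div_card, card_univ, Fintype.card_fin]
  refine div_le_div_of_nonneg_right ?_ (Nat.cast_nonneg _)
  have k1 : ∑ j', g j j' ≤ ∑ j' : Fin η, if |c + (j : ℕ) - (j' : ℕ)| ≤ L then M else 0 :=
    sum_le_sum fun j' _ => by
      split_ifs with h
      · exact h1 j j'
      · exact h2 j j' (not_le.1 h)
  have k2 : #(univ.filter fun j' : Fin η => |c + (j : ℕ) - (j' : ℕ)| ≤ L) ≤
      #(Icc (c + (j : ℕ) - L) (c + (j : ℕ) + L)) :=
    card_le_card_of_injOn (fun j' : Fin η => ((j' : ℕ) : ℤ)) (fun j' hj => by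
      have h := abs_le.1 (mem_filter.1 (mem_coe.1 hj)).2
      exact mem_coe.2 (mem_Icc.2 ⟨by linarith [h.2], by linarith [h.1]⟩))
      fun x _ y _ h => Fin.ext (Int.natCast_inj.1 h)
  have k3 : ((#(Icc (c + (j : ℕ) - L) (c + (j : ℕ) + L)) : ℕ) : ℤ) = 2 * L + 1 := by
    rw [Int.card_Icc, Int.toNat_of_nonneg (by linarith)]
    ring
  have k4 : ((#(univ.filter fun j' : Fin η => |c + (j : ℕ) - (j' : ℕ)| ≤ L) : ℕ) : ℝ) ≤
      2 * L + 1 := by
    have k5 : ((#(univ.filter fun j' : Fin η => |c + (j : ℕ) - (j' : ℕ)| ≤ L) : ℕ) : ℤ) ≤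
        2 * L + 1 := k3 ▸ Int.ofNat_le.2 k2
    exact_mod_cast k5
  rw [← sum_filter, sum_const, nsmul_eq_mul, mul_comm] at k1
  exact k1.trans (mul_le_mul_of_nonneg_left k4 hM)

theorem h2_sgn (x : ℤ) : -1 ≤ ((Int.sign x : ℤ) : ℝ) ∧ ((Int.sign x : ℤ) : ℝ) ≤ 1 := by
  rcases lt_trichotomy x 0 with h | h | h
  · simp [Int.sign_eq_neg_one_of_neg h]
  · simp [h]
  · simp [Int.sign_eq_one_of_pos h]

theorem h2_one (hη : 0 < η) (a b : ℤ) :
    ph1 η a - ph1 η b ≤ 2 * (2 * |(a : ℝ) - b| + 1) / η := by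
  have k := h2_key hη a |a - b| (abs_nonneg _) (M := 2) (by norm_num)
    (fun j j' => ((Int.sign (a + (j : ℕ) - (j' : ℕ)) : ℤ) : ℝ) -
      ((Int.sign (b + (j : ℕ) - (j' : ℕ)) : ℤ) : ℝ))
    (fun j j' => by linarith [(h2_sgn (a + (j : ℕ) - (j' : ℕ))).2,
      (h2_sgn (b + (j : ℕ) - (j' : ℕ))).1]) fun j j' h => by
      have h1 := le_abs_self (a - b)
      have h2 := neg_abs_le (a - b)
      have h3 := abs_nonneg (a - b)
      rcases lt_abs.1 h with h | h
      · rw [Int.sign_eq_one_of_pos (by linarith), Int.sign_eq_one_of_pos (by linarith), sub_self]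
      · rw [Int.sign_eq_neg_one_of_neg (by linarith), Int.sign_eq_neg_one_of_neg (by linarith),
          sub_self]
  simp only [expect_sub_distrib, Int.cast_abs, Int.cast_sub] at k
  exact k

theorem ph1_lip (hη : 0 < η) (a b : ℤ) :
    |ph1 η a - ph1 η b| ≤ 2 * (2 * |(a : ℝ) - b| + 1) / η := by
  refine abs_sub_le_iff.2 ⟨h2_one hη a b, ?_⟩
  rw [abs_sub_comm]
  exact h2_one hη b a

theorem h2_two (D x y : ℝ) : |x + y + D| - |x + D| - |y + D| + |D| ≤ 2 * |y| := by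
  have h1 := abs_add_le (x + D) y
  have h2 := abs_sub (y + D) y
  rw [add_right_comm] at h1
  rw [add_sub_cancel_left] at h2
  linarith

theorem th1_mix (hη : 0 < η) (α β : ℤ) :
    th1 η (α + β) - th1 η α - th1 η β ≤ 10 * (|(α : ℝ)| * |(β : ℝ)|) / η := by
  have k := h2_key hη 0 (|α| + |β|) (by positivity) (M := 2 * min |(α : ℝ)| |(β : ℝ)|)
    (by positivity) (fun j j' =>
      (|((α + β : ℤ) : ℝ) + (j : ℕ) - (j' : ℕ)| - |((j : ℕ) : ℝ) - (j' : ℕ)|) -
      (|(α : ℝ) + (j : ℕ) - (j' : ℕ)| - |((j : ℕ) : ℝ) - (j' : ℕ)|) -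
      (|(β : ℝ) + (j : ℕ) - (j' : ℕ)| - |((j : ℕ) : ℝ) - (j' : ℕ)|))
    (fun j j' => by
      have h1 := h2_two (((j : ℕ) : ℝ) - (j' : ℕ)) α β
      have h2 := h2_two (((j : ℕ) : ℝ) - (j' : ℕ)) β α
      rw [add_comm (β : ℝ) α] at h2
      simp only [Int.cast_add, add_sub_assoc]
      rcases min_cases |(α : ℝ)| |(β : ℝ)| with h | h <;> rw [h.1] <;> linarith)
    fun j j' h => by
      have h0 : |(α : ℝ)| + |(β : ℝ)| < |((j : ℕ) : ℝ) - (j' : ℕ)| := by
        rw [zero_add] at h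
        exact_mod_cast h
      have a1 := le_abs_self (α : ℝ)
      have a2 := neg_abs_le (α : ℝ)
      have a3 := abs_nonneg (α : ℝ)
      have b1 := le_abs_self (β : ℝ)
      have b2 := neg_abs_le (β : ℝ)
      have b3 := abs_nonneg (β : ℝ)
      simp only [Int.cast_add, add_sub_assoc]
      generalize ((j : ℕ) : ℝ) - (j' : ℕ) = D at h0 ⊢
      rcases lt_abs.1 h0 with h | h
      · rw [abs_of_pos (a := D) (by linarith), abs_of_pos (a := α + β + D) (by linarith),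
          abs_of_pos (a := α + D) (by linarith), abs_of_pos (a := β + D) (by linarith)]
        linarith
      · rw [abs_of_neg (a := D) (by linarith), abs_of_neg (a := α + β + D) (by linarith),
          abs_of_neg (a := α + D) (by linarith), abs_of_neg (a := β + D) (by linarith)]
        linarith
  rw [show th1 η (α + β) - th1 η α - th1 η β = _ by
    simp only [th1, ← expect_sub_distrib]; rfl]
  refine k.trans (div_le_div_of_nonneg_right ?_ (Nat.cast_nonneg _))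
  have e : ∀ x y : ℤ, 0 ≤ x → x ≤ y → 2 * x * (2 * (x + y) + 1) ≤ 10 * (x * y) := fun x y h1 h2 => by
    rcases h1.eq_or_lt with h | h
    · simp [← h]
    · nlinarith [mul_nonneg h1 (sub_nonneg.2 h2), mul_nonneg h1 (show 0 ≤ y - 1 by linarith)]
  rcases le_total |α| |β| with h | h
  · rw [min_eq_left (by exact_mod_cast h)]
    exact_mod_cast e _ _ (abs_nonneg α) h
  · rw [min_eq_right (by exact_mod_cast h), add_comm |α|, mul_comm |(α : ℝ)|]
    exact_mod_cast e _ _ (abs_nonneg β) h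

end Vale.Agent.P318.N
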