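import Vale.Agent.P318N.D

/-! A real inequality: choice of the scale. WLOG t1 ≤ t2. If η ≤ t1 take j = 0. If t1 < η / 2^J take j = J. Else take the least j with η / 2^j ≤ t1 (Nat.find; 1 ≤ j ≤ J, t1 < 2 * (η / 2^j)). -/

open Finset
open scoped BigOperators

noncomputable section

namespace Vale.Agent.P318.N

variable {m S N τ η J B Q ρ : ℕ} {ε K : ℝ} {u : Dir S N m} {th : Fin S → Fin N → Fin τ}

theorem rl_big {l t1 t2 D : ℝ} (hl : 0 < l) (h1 : l ≤ t1) (h2 : l ≤ t2) (hD : D ≤ 4 * l) :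
    D ≤ 4 * l * (min (t1 / l) 1 * min (t2 / l) 1) := by
  rw [min_eq_right ((one_le_div hl).2 h1), min_eq_right ((one_le_div hl).2 h2), mul_one, mul_one]
  exact hD

theorem rl_pick {e t1 t2 D M : ℝ} (he : 0 < e) (h1 : 0 ≤ t1) (h12 : t1 ≤ t2) (hM : M ≤ 2 ^ J)
    (a1 : D ≤ 2 * t1) (a3 : D ≤ 2 * e) (a4 : D ≤ M * (t1 * t2) / e) :
    ∃ j ≤ J, D ≤ 4 * (e / 2 ^ j) * (min (t1 / (e / 2 ^ j)) 1 * min (t2 / (e / 2 ^ j)) 1) := by
  have hp : ∀ j : ℕ, 0 < e / 2 ^ j := fun j => by positivity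
  by_cases hJ : e / 2 ^ J ≤ t1
  · have hex : ∃ j : ℕ, e / 2 ^ j ≤ t1 := ⟨J, hJ⟩
    have hs := Nat.find_spec hex
    refine ⟨Nat.find hex, Nat.find_min' hex hJ, rl_big (hp _) hs (hs.trans h12) ?_⟩
    rcases Nat.eq_zero_or_eq_succ_pred (Nat.find hex) with h0 | h0
    · rw [h0, pow_zero, div_one]
      linarith
    · have h3 := not_le.1 (Nat.find_min hex (m := (Nat.find hex).pred) (by omega))
      have h5 : ∀ k : ℕ, e / 2 ^ k = 2 * (e / 2 ^ k.succ) := fun k => by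
        rw [Nat.succ_eq_add_one, pow_succ]
        field_simp
      have h4 := h5 (Nat.find hex).pred
      rw [← h0] at h4
      linarith
  · have hl := hp J
    have hJ' := (not_le.1 hJ).le
    refine ⟨J, le_rfl, ?_⟩
    rw [min_eq_left ((div_le_one hl).2 hJ')]
    rcases le_total t2 (e / 2 ^ J) with h3 | h3
    · rw [min_eq_left ((div_le_one hl).2 h3)]
      have h4 : 4 * (e / 2 ^ J) * (t1 / (e / 2 ^ J) * (t2 / (e / 2 ^ J))) =
          4 * (2 ^ J * (t1 * t2) / e) := by field_simp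
      have h5 : 0 ≤ t1 * t2 := mul_nonneg h1 (h1.trans h12)
      have h6 : M * (t1 * t2) / e ≤ 2 ^ J * (t1 * t2) / e :=
        div_le_div_of_nonneg_right (mul_le_mul_of_nonneg_right hM h5) he.le
      have h7 : 0 ≤ 2 ^ J * (t1 * t2) / e := by positivity
      rw [h4]
      linarith
    · rw [min_eq_right ((one_le_div hl).2 h3)]
      have h4 : 4 * (e / 2 ^ J) * (t1 / (e / 2 ^ J) * 1) = 4 * t1 := by field_simp
      rw [h4]
      linarith

theorem scale_pick {e t1 t2 D M : ℝ} (he : 0 < e) (h1 : 0 ≤ t1) (h2 : 0 ≤ t2) (hM : M ≤ 2 ^ J)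
    (a1 : D ≤ 2 * t1) (a2 : D ≤ 2 * t2) (a3 : D ≤ 2 * e) (a4 : D ≤ M * (t1 * t2) / e) :
    ∃ j ≤ J, D ≤ 4 * (e / 2 ^ j) * (min (t1 / (e / 2 ^ j)) 1 * min (t2 / (e / 2 ^ j)) 1) := by
  rcases le_total t1 t2 with h | h
  · exact rl_pick he h1 h hM a1 a3 a4
  · obtain ⟨j, hj, h3⟩ := rl_pick he h2 h hM a2 a3 (by rwa [mul_comm t2 t1])
    exact ⟨j, hj, by rwa [mul_comm (min (t1 / (e / 2 ^ j)) 1)]⟩

theorem min_le_exp {t : ℝ} (ht : 0 ≤ t) : min t 1 / 2 ≤ 1 - Real.exp (-t) := by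
  have h1 : 0 < 1 + t := by linarith
  have h2 : Real.exp (-t) ≤ 1 / (1 + t) := by
    rw [Real.exp_neg, ← one_div]
    exact one_div_le_one_div_of_le h1 (by linarith [Real.add_one_le_exp t])
  have h3 : 1 - 1 / (1 + t) = t / (1 + t) := by
    field_simp
    ring
  have h4 : min t 1 / 2 ≤ t / (1 + t) := by
    rw [div_le_div_iff₀ two_pos h1]
    rcases le_total t 1 with h | h
    · rw [min_eq_left h]
      nlinarith
    · rw [min_eq_right h]
      linarith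
  linarith

end Vale.Agent.P318.N
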