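import Vale.Agent.P318N.H1
import Vale.Agent.P318N.H2

/-! The common part is Lipschitz for the metric of a chart. res = dt + th - τ * lab (Int.emod_def), 0 ≤ res < τ. With a = yy p - yy r and δ = yy p - yy q at (s', i): δ = dt u (x - x') - [s' = s] S dt u (x - x') + [s' = s] S τ (lab x - lab x'). By th1_conv, sm p r - sm q r ≤ 𝔼 s' i, ph1 a * δ = ∑ k, (x k - x' k) * (𝔼 s' i, ph1 a * u s' i k - 𝔼 i, ph1 (a s i) * u s i k) + τ * 𝔼 i, ph1 (a s i) * (lab x - lab x'). Replace ph1 a by ph1 (dt u (x - r.2)) using yy_close (|a - dt u w| ≤ 2 S τ) and ph1_lip: each of the two averages moves by ≤ 2 (4 S τ + 1) / η ≤ ε / 4; then UC with w = x - r.2. -/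

open Finset
open scoped BigOperators

noncomputable section

namespace Vale.Agent.P318.N

variable {m S N τ η J B Q ρ : ℕ} {ε K : ℝ} {u : Dir S N m} {th : Fin S → Fin N → Fin τ}

theorem yy_close (hτ : 0 < τ) (p : Vx S m) (s : Fin S) (i : Fin N) :
    |(yy u th p s i : ℝ) - dt (u s i) p.2| ≤ S * τ := by
  have h0 : (0 : ℤ) < τ := by exact_mod_cast hτ
  have h1 : (0 : ℝ) ≤ res u th s i p.2 := by exact_mod_cast Int.emod_nonneg _ h0.ne'
  have h2 : (res u th s i p.2 : ℝ) ≤ τ := by exact_mod_cast (Int.emod_lt_of_pos _ h0).le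
  have h3 : (0 : ℝ) ≤ S := Nat.cast_nonneg S
  unfold yy
  split_ifs
  · push_cast
    rw [sub_sub_cancel_left, abs_neg, abs_of_nonneg (mul_nonneg h3 h1)]
    exact mul_le_mul_of_nonneg_left h2 h3
  · rw [sub_zero, sub_self, abs_zero]
    positivity

theorem dt_sub_le (hu : Sgn u) (s : Fin S) (i : Fin N) (x x' : Pt m) :
    |(dt (u s i) x : ℝ) - dt (u s i) x'| ≤ ∑ k, |(x k : ℝ) - x' k| := by
  unfold dt
  push_cast
  rw [← Finset.sum_sub_distrib]
  refine (Finset.abs_sum_le_sum_abs _ _).trans (Finset.sum_le_sum fun k _ => ?_)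
  rw [← mul_sub, abs_mul]
  rcases hu s i k with h | h <;> simp [h]

theorem lip_dt (v x x' : Pt m) : dt v (x - x') = dt v x - dt v x' := by
  simp only [dt, Pi.sub_apply, mul_sub, Finset.sum_sub_distrib]

theorem lip_ite (s : Fin S) (g : ℝ) : (𝔼 s' : Fin S, if s' = s then S * g else 0) = g := by
  have h : (S : ℝ) ≠ 0 := Nat.cast_ne_zero.2 s.pos.ne'
  rw [Fintype.expect_eq_sum_div_card, Finset.sum_ite_eq', if_pos (mem_univ _), Fintype.card_fin]
  field_simp

theorem yy_sub (s s' : Fin S) (i : Fin N) (x x' : Pt m) :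
    yy u th (s, x) s' i - yy u th (s, x') s' i = dt (u s' i) (x - x') +
      if s' = s then S * (τ * (lab u th s i x - lab u th s i x') - dt (u s i) (x - x')) else 0 := by
  simp only [yy, lip_dt, res, lab, Int.emod_def]
  split_ifs with h
  · subst h
    ring
  · ring

theorem sm_lip (hu : Sgn u) (hτ : 0 < τ) (hη : 0 < η) (hN : 0 < N) (hU : UC u η B ε)
    (h : 40 * S * τ ≤ ε * η) (s : Fin S) {x x' : Pt m} {r : Vx S m} (hx : (s, x) ∈ Box S m B)
    (hr : r ∈ Box S m B) : sm u th η (s, x) r - sm u th η (s, x') r ≤ ds u th ε s x x' := by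
  have : Nonempty (Fin N) := ⟨⟨0, hN⟩⟩
  have : Nonempty (Fin S) := ⟨s⟩
  have hη' : (0 : ℝ) < η := by exact_mod_cast hη
  have hτ' : (1 : ℝ) ≤ τ := by exact_mod_cast hτ
  have hS : (1 : ℝ) ≤ S := by exact_mod_cast s.pos
  obtain ⟨L, hL⟩ : ∃ L : ℝ, L = ∑ k, |(x k : ℝ) - x' k| := ⟨_, rfl⟩
  obtain ⟨ψ, hψ⟩ : ∃ ψ : Fin S → Fin N → ℝ, ∀ s' i, ψ s' i = ph1 η (dt (u s' i) (x - r.2)) :=
    ⟨_, fun _ _ => rfl⟩
  obtain ⟨φ, hφ⟩ : ∃ φ : Fin S → Fin N → ℝ,
      ∀ s' i, φ s' i = ph1 η (yy u th (s, x) s' i - yy u th r s' i) := ⟨_, fun _ _ => rfl⟩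
  obtain ⟨D, hD⟩ : ∃ D : Fin S → Fin N → ℝ, ∀ s' i, D s' i = dt (u s' i) (x - x') :=
    ⟨_, fun _ _ => rfl⟩
  obtain ⟨Δ, hΔ⟩ : ∃ Δ : Fin N → ℝ, ∀ i, Δ i = (lab u th s i x : ℝ) - lab u th s i x' :=
    ⟨_, fun _ => rfl⟩
  have c1 : ∀ s' i, |φ s' i - ψ s' i| ≤ ε / 4 := fun s' i => by
    rw [hφ, hψ]
    refine (ph1_lip hη _ _).trans ?_
    have a1 := abs_le.1 (yy_close (u := u) (th := th) hτ (s, x) s' i)
    have a2 := abs_le.1 (yy_close (u := u) (th := th) hτ r s' i)
    have a3 : |((yy u th (s, x) s' i - yy u th r s' i : ℤ) : ℝ) - dt (u s' i) (x - r.2)| ≤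
        2 * (S * τ) := by
      rw [lip_dt, abs_le]
      push_cast
      constructor <;> linarith [a1.1, a1.2, a2.1, a2.2]
    have a4 : (1 : ℝ) ≤ S * τ := one_le_mul_of_one_le_of_one_le hS hτ'
    rw [div_le_iff₀ hη']
    linarith
  have c2 : ∀ s' i, |D s' i| ≤ L := fun s' i => by
    rw [hD, hL, lip_dt, Int.cast_sub]
    exact dt_sub_le hu s' i x x'
  have c3 : ∀ s' i, |φ s' i * D s' i - ψ s' i * D s' i| ≤ ε / 4 * L := fun s' i => by
    rw [← sub_mul, abs_mul]
    exact mul_le_mul (c1 s' i) (c2 s' i) (abs_nonneg _) ((abs_nonneg _).trans (c1 s' i))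
  have c4 : ∀ i, φ s i * Δ i ≤ |Δ i| := fun i => by
    refine (le_abs_self _).trans ?_
    rw [abs_mul, hφ]
    exact mul_le_of_le_one_left (abs_nonneg _) (ph1_abs _)
  have c5 : ∀ s' i, th1 η (yy u th (s, x) s' i - yy u th r s' i) -
      th1 η (yy u th (s, x') s' i - yy u th r s' i) ≤ ψ s' i * D s' i + ε / 4 * L +
        if s' = s then S * (τ * |Δ i| - ψ s i * D s i + ε / 4 * L) else 0 := fun s' i => by
    refine (th1_conv _ _).trans ?_
    have e := congrArg (Int.cast : ℤ → ℝ) (yy_sub (u := u) (th := th) s s' i x x')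
    rw [← hφ, Int.cast_sub, Int.cast_sub, sub_sub_sub_cancel_right]
    have a1 := abs_le.1 (c3 s' i)
    split_ifs at e ⊢ with h1
    · subst h1
      push_cast at e
      rw [e, ← hD, ← hΔ]
      have a2 := mul_le_mul_of_nonneg_left (c4 i) (zero_le_one.trans hτ')
      have a3 : τ * (φ s' i * Δ i) - φ s' i * D s' i ≤
          τ * |Δ i| - ψ s' i * D s' i + ε / 4 * L := by linarith [a1.1]
      have a4 := mul_le_mul_of_nonneg_left a3 (zero_le_one.trans hS)
      linarith [a1.2]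
    · push_cast at e
      rw [e, ← hD]
      linarith [a1.2]
  have c6 : ∀ s', (𝔼 i, ψ s' i * D s' i) =
      ∑ k, ((x k : ℝ) - x' k) * 𝔼 i, ψ s' i * u s' i k := fun s' => by
    simp only [Finset.mul_expect]
    rw [← Finset.expect_sum_comm]
    refine Finset.expect_congr rfl fun i _ => ?_
    rw [hD, dt]
    push_cast
    rw [Finset.mul_sum]
    refine Finset.sum_congr rfl fun k _ => ?_
    simp only [Pi.sub_apply, Int.cast_sub]
    ring
  have c7 : (𝔼 s', 𝔼 i, ψ s' i * D s' i) - 𝔼 i, ψ s i * D s i ≤ ε / 2 * L := by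
    simp only [c6]
    rw [Finset.expect_sum_comm, ← Finset.sum_sub_distrib, hL, Finset.mul_sum]
    refine Finset.sum_le_sum fun k _ => (le_abs_self _).trans ?_
    rw [← Finset.mul_expect, ← mul_sub, abs_mul, mul_comm, abs_sub_comm]
    refine mul_le_mul_of_nonneg_right ?_ (abs_nonneg _)
    simp only [hψ]
    refine hU s (x - r.2) k fun l => abs_le.2 ?_
    have a1 := hx l
    have a2 := hr l
    simp only [Pi.sub_apply] at a1 ⊢
    constructor <;> linarith [a1.1, a1.2, a2.1, a2.2]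
  have c8 : ∀ s', (𝔼 i, th1 η (yy u th (s, x) s' i - yy u th r s' i)) -
      (𝔼 i, th1 η (yy u th (s, x') s' i - yy u th r s' i)) ≤ (𝔼 i, ψ s' i * D s' i) + ε / 4 * L +
        if s' = s then S * (τ * (𝔼 i, |Δ i|) - (𝔼 i, ψ s i * D s i) + ε / 4 * L) else 0 :=
    fun s' => by
    rw [← Finset.expect_sub_distrib]
    refine (Finset.expect_le_expect fun i _ => c5 s' i).trans_eq ?_
    split_ifs
    · simp only [Finset.expect_add_distrib, Finset.expect_sub_distrib, ← Finset.mul_expect,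
        Fintype.expect_const]
    · simp only [Finset.expect_add_distrib, Fintype.expect_const]
  unfold sm ds
  rw [← Finset.expect_sub_distrib]
  refine (Finset.expect_le_expect fun s' _ => c8 s').trans ?_
  rw [Finset.expect_add_distrib, Finset.expect_add_distrib, lip_ite, Fintype.expect_const, ← hL]
  simp only [← hΔ]
  linarith

end Vale.Agent.P318.N
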