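import Vale.Agent.P318N.NT1
import Vale.Agent.P318N.H1

/-! The distance is of negative type. ds is CND (cnd_abs, comp, sums). For kk: ∑ i j, c i c j kk (x i) (x j) = ∑ s, ∑ i j, c_s i * c_s j * exp (-(1/lam * ds s ..)) with c_s i = if (x i).1 = s then c i else 0; so 1 - kk is CND because ∑ c = 0. -/

open Finset
open scoped BigOperators

noncomputable section

namespace Vale.Agent.P318.N

variable {m S N τ η J B Q ρ : ℕ} {ε K : ℝ} {u : Dir S N m} {th : Fin S → Fin N → Fin τ}

theorem ds_nonneg (hε : 0 ≤ ε) (s : Fin S) (x x' : Pt m) : 0 ≤ ds u th ε s x x' := by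
  exact add_nonneg (mul_nonneg (Nat.cast_nonneg _) (expect_nonneg fun _ _ => abs_nonneg _))
    (mul_nonneg hε (sum_nonneg fun _ _ => abs_nonneg _))

theorem ds_comm (s : Fin S) (x x' : Pt m) : ds u th ε s x x' = ds u th ε s x' x := by
  unfold ds
  congr 2
  · exact expect_congr rfl fun _ _ => abs_sub_comm _ _
  · exact sum_congr rfl fun _ _ => abs_sub_comm _ _

theorem ds_self (s : Fin S) (x : Pt m) : ds u th ε s x x = 0 := by
  simp [ds]

theorem ds_tri (hε : 0 ≤ ε) (s : Fin S) (x y z : Pt m) :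
    ds u th ε s x z ≤ ds u th ε s x y + ds u th ε s y z := by
  have h1 : 𝔼 i, |(lab u th s i x : ℝ) - lab u th s i z| ≤
      (𝔼 i, |(lab u th s i x : ℝ) - lab u th s i y|) +
        𝔼 i, |(lab u th s i y : ℝ) - lab u th s i z| := by
    rw [← expect_add_distrib]
    exact expect_le_expect fun _ _ => abs_sub_le _ _ _
  have h2 : ∑ k, |(x k : ℝ) - z k| ≤ ∑ k, |(x k : ℝ) - y k| + ∑ k, |(y k : ℝ) - z k| := by
    rw [← sum_add_distrib]
    exact sum_le_sum fun _ _ => abs_sub_le _ _ _
  have h3 := mul_le_mul_of_nonneg_left h1 (Nat.cast_nonneg (α := ℝ) τ)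
  have h4 := mul_le_mul_of_nonneg_left h2 hε
  unfold ds
  linarith

theorem sm_comm (p q : Vx S m) : sm u th η p q = sm u th η q p := by
  refine expect_congr rfl fun s _ => expect_congr rfl fun i _ => ?_
  rw [← th1_neg, neg_sub]

theorem sm_self (p : Vx S m) : sm u th η p p = 0 := by
  simp [sm, th1_zero]

theorem sm_nonneg (p q : Vx S m) : 0 ≤ sm u th η p q := by
  exact expect_nonneg fun _ _ => expect_nonneg fun _ _ => th1_nonneg _

theorem nt2_comm (lam : ℝ) (p q : Vx S m) : kk u th ε lam p q = kk u th ε lam q p := by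
  unfold kk
  by_cases h : p.1 = q.1
  · rw [if_pos h, if_pos h.symm, ds_comm, h]
  · rw [if_neg h, if_neg (Ne.symm h)]

theorem nt2_nonneg (lam : ℝ) (p q : Vx S m) : 0 ≤ kk u th ε lam p q := by
  unfold kk
  split_ifs
  · exact (Real.exp_pos _).le
  · exact le_rfl

theorem nt2_le (hε : 0 ≤ ε) {lam : ℝ} (hl : 0 ≤ lam) (p q : Vx S m) : kk u th ε lam p q ≤ 1 := by
  unfold kk
  split_ifs
  · exact Real.exp_le_one_iff.2 (neg_nonpos.2 (div_nonneg (ds_nonneg hε _ _ _) hl))
  · exact zero_le_one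

theorem dd_comm (p q : Vx S m) : dd u th ε η J p q = dd u th ε η J q p := by
  unfold dd pv
  rw [sm_comm]
  congr 2
  exact sum_congr rfl fun j _ => by rw [nt2_comm]

theorem dd_self (p : Vx S m) : dd u th ε η J p p = 0 := by
  simp [dd, pv, kk, sm_self, ds_self]

theorem pv_nonneg (hε : 0 ≤ ε) (p q : Vx S m) : 0 ≤ pv u th ε η J p q := by
  exact sum_nonneg fun j _ =>
    mul_nonneg (by positivity) (sub_nonneg.2 (nt2_le hε (by positivity) p q))

theorem pv_le (p q : Vx S m) : pv u th ε η J p q ≤ 2 * η := by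
  have h1 : pv u th ε η J p q ≤ ∑ j ∈ range (J + 1), (η : ℝ) * (1 / 2) ^ j := by
    refine sum_le_sum fun j _ => ?_
    have h := nt2_nonneg (u := u) (th := th) (ε := ε) (η / 2 ^ j) p q
    rw [one_div_pow, mul_one_div]
    exact mul_le_of_le_one_right (by positivity) (by linarith)
  rw [← mul_sum] at h1
  have h2 := mul_le_mul_of_nonneg_left (sum_geometric_two_le (J + 1)) (Nat.cast_nonneg (α := ℝ) η)
  linarith

theorem pv_le_ds (hη : 0 < η) (s : Fin S) (x x' : Pt m) :
    pv u th ε η J (s, x) (s, x') ≤ (J + 1) * ds u th ε s x x' := by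
  have h1 : pv u th ε η J (s, x) (s, x') ≤ ∑ _j ∈ range (J + 1), ds u th ε s x x' := by
    refine sum_le_sum fun j _ => ?_
    have hl : (0 : ℝ) < η / 2 ^ j := by positivity
    have h := Real.add_one_le_exp (-(ds u th ε s x x' / (η / 2 ^ j)))
    have h2 : 1 - kk u th ε (η / 2 ^ j) (s, x) (s, x') ≤ ds u th ε s x x' / (η / 2 ^ j) := by
      rw [kk, if_pos rfl]
      linarith
    exact (mul_le_mul_of_nonneg_left h2 hl.le).trans_eq (mul_div_cancel₀ _ hl.ne')
  simpa using h1

theorem nt2_ds (hε : 0 ≤ ε) (s : Fin S) : CND (ds u th ε s) :=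
  ((cnd_expect fun i => cnd_abs.comp fun x : Pt m => (lab u th s i x : ℝ)).smul
    (Nat.cast_nonneg τ)).add
    ((cnd_sum univ fun k _ => cnd_abs.comp fun x : Pt m => (x k : ℝ)).smul hε)

theorem nt2_kk (hε : 0 ≤ ε) {lam : ℝ} (hl : 0 ≤ lam) :
    CND fun p q : Vx S m => 1 - kk u th ε lam p q := by
  intro n x c hc
  have e : ∀ i j, c i * c j * kk u th ε lam (x i) (x j) =
      ∑ s, (if (x i).1 = s then c i else 0) * (if (x j).1 = s then c j else 0) *
        Real.exp (-(lam⁻¹ * ds u th ε s (x i).2 (x j).2)) := fun i j => by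
    rw [sum_eq_single (x i).1 (fun s _ hs => by rw [if_neg (Ne.symm hs), zero_mul, zero_mul])
      (fun h => absurd (mem_univ _) h), if_pos rfl, kk]
    by_cases h : (x i).1 = (x j).1
    · rw [if_pos h, if_pos h.symm, div_eq_inv_mul]
    · rw [if_neg h, if_neg (Ne.symm h), mul_zero, mul_zero, zero_mul]
  have h1 : 0 ≤ ∑ i, ∑ j, c i * c j * kk u th ε lam (x i) (x j) := by
    simp only [e]
    rw [sum_congr rfl fun i _ => sum_comm, sum_comm]
    exact sum_nonneg fun s _ => cnd_exp (nt2_ds hε s) (ds_comm s) (ds_self s) (inv_nonneg.2 hl) n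
      (fun i => (x i).2) fun i => if (x i).1 = s then c i else 0
  have h2 : ∑ i, ∑ j, c i * c j = 0 := by
    rw [← sum_mul_sum, hc, zero_mul]
  simp only [mul_sub, mul_one, sum_sub_distrib]
  linarith

theorem cnd_dd (hε : 0 ≤ ε) : CND (dd u th ε η J) := by
  exact (cnd_expect fun s => cnd_expect fun i =>
    cnd_th1.comp fun p : Vx S m => yy u th p s i).add
    ((cnd_sum (range (J + 1)) fun j _ =>
      (nt2_kk hε (lam := η / 2 ^ j) (by positivity)).smul (by positivity)).smul (by norm_num))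

end Vale.Agent.P318.N
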