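import Vale.Agent.P318N.D

open Finset
open scoped BigOperators

noncomputable section

namespace Vale.Agent.P318.N

section pos
variable {V : Type} {R : Set V}

theorem pos_ev {p q : V} (hp : p ∈ R) (hq : q ∈ R) : Pos R fun κ => κ p q :=
  ⟨fun _ _ => rfl, fun _ _ => rfl, fun _ _ h => h p hp q hq⟩

theorem pos_zero : Pos R fun _ => 0 :=
  ⟨fun _ _ => by simp, fun _ _ => by simp, fun _ _ _ => le_rfl⟩

theorem Pos.add' {C C' : (V → V → ℝ) → ℝ} (h : Pos R C) (h' : Pos R C') :
    Pos R fun κ => C κ + C' κ :=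
  ⟨fun k k' => by rw [h.add, h'.add]; ring, fun c k => by rw [h.smul, h'.smul]; ring,
    fun k k' e => add_le_add (h.mono k k' e) (h'.mono k k' e)⟩

theorem Pos.div' {C : (V → V → ℝ) → ℝ} (h : Pos R C) {t : ℝ} (ht : 0 ≤ t) :
    Pos R fun κ => C κ / t :=
  ⟨fun k k' => by rw [h.add]; ring, fun c k => by rw [h.smul]; ring,
    fun k k' e => div_le_div_of_nonneg_right (h.mono k k' e) ht⟩

theorem pos_sum {I : Type} (T : Finset I) {C : I → (V → V → ℝ) → ℝ} (h : ∀ i ∈ T, Pos R (C i)) :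
    Pos R fun κ => ∑ i ∈ T, C i κ :=
  ⟨fun k k' => by rw [← sum_add_distrib]; exact sum_congr rfl fun i hi => (h i hi).add k k',
    fun c k => by rw [mul_sum]; exact sum_congr rfl fun i hi => (h i hi).smul c k,
    fun k k' e => sum_le_sum fun i hi => (h i hi).mono k k' e⟩

theorem pos_expect {I : Type} [Fintype I] {C : I → (V → V → ℝ) → ℝ} (h : ∀ i, Pos R (C i)) :
    Pos R fun κ => 𝔼 i, C i κ := by
  simp only [expect_eq_sum_div_card]
  exact (pos_sum univ fun i _ => h i).div' (Nat.cast_nonneg _)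

theorem Pos.ite' {C : (V → V → ℝ) → ℝ} (h : Pos R C) (P : Prop) [Decidable P] :
    Pos R fun κ => if P then C κ else 0 := by
  by_cases hP : P
  · simpa only [if_pos hP] using h
  · simpa only [if_neg hP] using pos_zero

end pos

variable {m S N τ Q ρ : ℕ} {u : Dir S N m} {th : Fin S → Fin N → Fin τ}

theorem av_mem (o : Om S m Q ρ) : av o ∈ Box S m (Q + ρ) := fun k => by
  have h1 := (o.2.1 k).2
  have h2 := (o.2.2 k).2
  simp only [av, opos]
  push_cast
  omega

theorem box_range (hQ : 0 < Q) {p : Vx S m} (hp : p ∈ Box S m (Q + ρ)) :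
    ∃ o : Om S m Q ρ, av o = p := by
  obtain ⟨s, x⟩ := p
  have h : ∀ k, 0 ≤ x k ∧ x k ≤ (Q : ℤ) + ρ := fun k => by simpa using hp k
  refine ⟨(s, fun k => ⟨min (x k).toNat (Q - 1), by omega⟩,
    fun k => ⟨(x k).toNat - min (x k).toNat (Q - 1), by have := h k; omega⟩), ?_⟩
  refine Prod.ext rfl (funext fun k => ?_)
  have := h k
  simp only [av, opos]
  omega

theorem card_om : Fintype.card (Om S m Q ρ) = S * (Q ^ m * (ρ + 2) ^ m) := by
  simp

theorem pos_mem (s : Fin S) (z : Fin m → Fin Q) (ξ : Fin m → Fin ρ) :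
    (s, pos z ξ) ∈ Box S m (Q + ρ) := fun k => by
  have h1 := (z k).2
  have h2 := (ξ k).2
  simp only [pos]
  push_cast
  omega

theorem face_mem (s : Fin S) (z : Fin m → Fin Q) (ξ : Fin m → Fin ρ) (k : Fin m) {b : ℕ}
    (hb : b ≤ ρ + 1) : (s, face z ξ k b) ∈ Box S m (Q + ρ) := fun l => by
  by_cases h : l = k
  · subst h
    have h1 := (z l).2
    simp only [face, Function.update_self]
    push_cast
    omega
  · simp only [face, Function.update_of_ne h]
    exact pos_mem s z ξ l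

theorem st_mem (s : Fin S) (z : Fin m → Fin Q) (ξ : Fin m → Fin ρ) (k : Fin m) {σ : ℤ}
    (hσ : σ = 1 ∨ σ = -1) : (s, st (pos z ξ) k σ) ∈ Box S m (Q + ρ) := fun l => by
  have h1 := (z l).2
  have h2 := (ξ l).2
  by_cases h : l = k
  · subst h
    simp only [st, pos, Pi.add_apply, Pi.single_eq_same]
    push_cast
    omega
  · simp only [st, pos, Pi.add_apply, Pi.single_eq_of_ne h]
    push_cast
    omega

theorem pos_fac (s : Fin S) (z : Fin m → Fin Q) :
    Pos (Box S m (Q + ρ)) fun κ => fac ρ κ s z :=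
  pos_sum univ fun k _ => pos_expect fun s' => pos_expect fun ξ =>
    (((pos_ev (face_mem s' z ξ k le_rfl) (face_mem s z ξ k le_rfl)).add'
      (pos_ev (face_mem s' z ξ k le_rfl) (face_mem s z ξ k (by omega)))).add'
      (pos_ev (face_mem s' z ξ k (by omega)) (face_mem s z ξ k (by omega)))).add'
      (pos_ev (face_mem s' z ξ k (by omega)) (face_mem s z ξ k (by omega)))

theorem pos_win : Pos (Box S m (Q + ρ)) (win Q ρ) :=
  pos_expect fun o => pos_expect fun s' => pos_expect fun ξ =>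
    pos_ev (av_mem o) (pos_mem s' o.2.1 ξ)

open Classical in
theorem pos_err [NeZero m] (s : Fin S) (z : Fin m → Fin Q) (ξ : Fin m → Fin ρ) :
    Pos (Box S m (Q + ρ)) fun κ => err u th κ s (pos z ξ) :=
  pos_sum univ fun k _ => pos_sum _ fun σ hσ => pos_sum _ fun σ' hσ' =>
    (pos_ev (st_mem s z ξ k (by simpa using hσ)) (st_mem s z ξ 0 (by simpa using hσ'))).ite' _

theorem pos_cost [NeZero m] : Pos (Box S m (Q + ρ)) (cost u th Q ρ) :=
  (pos_win.div' (Nat.cast_nonneg _)).add' (pos_expect fun s => pos_expect fun z =>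
    ((pos_fac s z).div' (Nat.cast_nonneg _)).add' (pos_expect fun ξ =>
      (pos_ev (st_mem s z ξ 0 (Or.inl rfl)) (st_mem s z ξ 0 (Or.inr rfl))).add'
        (pos_err s z ξ)))

end Vale.Agent.P318.N
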