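import Vale.Agent.P318N.EN1
import Vale.Agent.P318N.NT2
import Vale.Agent.P318N.Lip
import Vale.Agent.P318N.PS

/-! The energy. -/

open Finset
open scoped BigOperators

noncomputable section

namespace Vale.Agent.P318.N

variable {m S N τ η J B Q ρ : ℕ} {ε K : ℝ} {u : Dir S N m} {th : Fin S → Fin N → Fin τ}

theorem en2_exp_le {ι : Type} [Fintype ι] {f : ι → ℝ} {c : ℝ} (hc : 0 ≤ c) (h : ∀ i, f i ≤ c) :
    𝔼 i, f i ≤ c := by
  rcases isEmpty_or_nonempty ι with hι | hι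
  · simpa using hc
  · exact expect_le univ_nonempty fun i _ => h i

theorem dd_le (hu : Sgn u) (hτ : 0 < τ) (p q : Vx S m) :
    dd u th ε η J p q ≤ ∑ k, |(p.2 k : ℝ) - q.2 k| + 2 * S * τ + 32 * η := by
  have h0 : 0 ≤ ∑ k, |(p.2 k : ℝ) - q.2 k| + 2 * S * τ := by positivity
  have h1 : sm u th η p q ≤ ∑ k, |(p.2 k : ℝ) - q.2 k| + 2 * S * τ := by
    refine en2_exp_le h0 fun s => en2_exp_le h0 fun i => (th1_le _).trans ?_
    have a := abs_le.1 (yy_close (u := u) (th := th) hτ p s i)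
    have b := abs_le.1 (yy_close (u := u) (th := th) hτ q s i)
    have c := abs_le.1 (dt_sub_le hu s i p.2 q.2)
    push_cast
    rw [abs_le]
    constructor <;> linarith [a.1, a.2, b.1, b.2, c.1, c.2]
  have h2 := pv_le (u := u) (th := th) (ε := ε) (η := η) (J := J) p q
  unfold dd
  linarith

theorem dd_le_ds (hu : Sgn u) (hτ : 0 < τ) (hη : 0 < η) (hN : 0 < N) (hU : UC u η B ε)
    (h : 40 * S * τ ≤ ε * η) (s : Fin S) {x x' : Pt m} (hx : (s, x) ∈ Box S m B)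
    (hx' : (s, x') ∈ Box S m B) :
    dd u th ε η J (s, x) (s, x') ≤ (16 * J + 17) * ds u th ε s x x' := by
  have h1 := sm_lip (th := th) (x' := x') hu hτ hη hN hU h s hx hx'
  rw [sm_self] at h1
  have h2 := pv_le_ds (u := u) (th := th) (ε := ε) (J := J) hη s x x'
  unfold dd
  linarith

theorem en2_st (x : Pt m) (k k' : Fin m) {σ σ' : ℤ} (hσ : σ = 1 ∨ σ = -1) (hσ' : σ' = 1 ∨ σ' = -1) :
    ∑ l, |(st x k σ l : ℝ) - st x k' σ' l| ≤ 2 := by
  have e : ∀ (k : Fin m) (σ : ℤ), (σ = 1 ∨ σ = -1) →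
      ∑ l, |(((Pi.single k σ : Pt m) l : ℤ) : ℝ)| = 1 := by
    intro k σ hσ
    rw [Finset.sum_eq_single k]
    · rcases hσ with rfl | rfl <;> simp
    · intro b _ hb
      simp [hb]
    · simp
  calc ∑ l, |(st x k σ l : ℝ) - st x k' σ' l|
      ≤ ∑ l, (|(((Pi.single k σ : Pt m) l : ℤ) : ℝ)| + |(((Pi.single k' σ' : Pt m) l : ℤ) : ℝ)|) := by
        refine sum_le_sum fun l _ => ?_
        simp only [st, Pi.add_apply, Int.cast_add, add_sub_add_left_eq_sub]
        exact abs_sub _ _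
    _ = 2 := by rw [sum_add_distrib, e k σ hσ, e k' σ' hσ']; norm_num

theorem en2_div (hτ : 0 < τ) {a b : ℤ} (h : a ≤ b + 2) : a / (τ : ℤ) ≤ b / (τ : ℤ) + 2 := by
  have hτ' : (0 : ℤ) < τ := by exact_mod_cast hτ
  have h1 : a ≤ b + 2 * (τ : ℤ) := by omega
  have h2 := Int.ediv_le_ediv hτ' h1
  rwa [Int.add_mul_ediv_right _ _ hτ'.ne'] at h2

theorem en2_lab (hu : Sgn u) (hτ : 0 < τ) (s : Fin S) (i : Fin N) {x x' : Pt m}
    (h : ∑ l, |(x l : ℝ) - x' l| ≤ 2) : |(lab u th s i x : ℝ) - lab u th s i x'| ≤ 2 := by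
  have c := abs_le.1 ((dt_sub_le hu s i x x').trans h)
  have c1 : dt (u s i) x ≤ dt (u s i) x' + 2 := by
    have : (dt (u s i) x : ℝ) ≤ dt (u s i) x' + 2 := by linarith [c.2]
    exact_mod_cast this
  have c2 : dt (u s i) x' ≤ dt (u s i) x + 2 := by
    have : (dt (u s i) x' : ℝ) ≤ dt (u s i) x + 2 := by linarith [c.1]
    exact_mod_cast this
  have d1 : lab u th s i x ≤ lab u th s i x' + 2 := en2_div hτ (by omega)
  have d2 : lab u th s i x' ≤ lab u th s i x + 2 := en2_div hτ (by omega)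
  have d1' : (lab u th s i x : ℝ) ≤ lab u th s i x' + 2 := by exact_mod_cast d1
  have d2' : (lab u th s i x' : ℝ) ≤ lab u th s i x + 2 := by exact_mod_cast d2
  rw [abs_le]
  constructor <;> linarith

theorem en2_avg_ds (hu : Sgn u) (hτ : 0 < τ) (hε : 0 ≤ ε) (s : Fin S) {x x' : Pt m}
    (h : ∑ l, |(x l : ℝ) - x' l| ≤ 2) :
    𝔼 th : Fin S → Fin N → Fin τ, ds u th ε s x x' ≤ 2 + 2 * ε := by
  have : Nonempty (Fin τ) := ⟨⟨0, hτ⟩⟩
  unfold ds
  rw [expect_add_distrib, expect_const univ_nonempty]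
  have h1 : 𝔼 th : Fin S → Fin N → Fin τ,
      (τ : ℝ) * (𝔼 i, |(lab u th s i x : ℝ) - lab u th s i x'|) ≤ 2 := by
    simp only [mul_expect]
    rw [expect_comm]
    refine en2_exp_le (by norm_num) fun i => ?_
    rw [avg_lab hτ]
    exact (dt_sub_le hu s i x x').trans h
  nlinarith

theorem en2_err [NeZero m] (hu : Sgn u) (hτ : 0 < τ) (hη : 0 < η) (hN : 0 < N) (hε : 0 < ε)
    (hU : UC u η (Q + ρ) ε) (h : 40 * S * τ ≤ ε * η) (s : Fin S) (z : Fin m → Fin Q)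
    (ξ : Fin m → Fin ρ) :
    err u th (dd u th ε η J) s (pos z ξ) ≤ (16 * J + 17) * (4 * m *
      (2 * ε + 2 * τ * if 2 ≤ #(adj u th s (pos z ξ)) then (1 : ℝ) else 0)) := by
  set c : ℝ := (16 * J + 17) * (2 * ε + 2 * τ * if 2 ≤ #(adj u th s (pos z ξ)) then (1 : ℝ) else 0)
    with hc
  have hi : (0 : ℝ) ≤ if 2 ≤ #(adj u th s (pos z ξ)) then (1 : ℝ) else 0 := by
    split_ifs <;> norm_num
  have hc0 : 0 ≤ c := by positivity
  have hcard : #({1, -1} : Finset ℤ) = 2 := by decide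
  unfold err
  refine le_trans (sum_le_card_nsmul _ _ (2 • 2 • c) fun k _ => ?_) (le_of_eq ?_)
  · rw [← hcard]
    refine sum_le_card_nsmul _ _ _ fun σ hσ => sum_le_card_nsmul _ _ _ fun σ' hσ' => ?_
    have hσ1 : σ = 1 ∨ σ = -1 := by simpa using hσ
    have hσ2 : σ' = 1 ∨ σ' = -1 := by simpa using hσ'
    have hl := en2_st (pos z ξ) k 0 hσ1 hσ2
    split_ifs with hcond
    · refine (dd_le_ds hu hτ hη hN hU h s (st_mem s z ξ k hσ1) (st_mem s z ξ 0 hσ2)).trans ?_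
      refine mul_le_mul_of_nonneg_left ?_ (by positivity)
      unfold ds
      have h2 := mul_le_mul_of_nonneg_left hl hε.le
      have hτ' : (0 : ℝ) ≤ τ := by positivity
      rcases hcond with hcond | hcond
      · simp only [hcond, sub_self, abs_zero, expect_const_zero, mul_zero]
        have := mul_nonneg hτ' hi
        linarith
      · rw [hcard] at hcond
        rw [if_pos hcond]
        have h3 := mul_le_mul_of_nonneg_left (en2_exp_le (by norm_num) fun i =>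
          en2_lab (th := th) hu hτ s i hl) hτ'
        linarith
    · exact hc0
  · simp only [card_univ, Fintype.card_fin, nsmul_eq_mul, hc]
    push_cast
    ring

theorem en2_win (hu : Sgn u) (hτ : 0 < τ) (h3 : m * (ρ + 1) + 2 * S * τ + 32 * η ≤ Q) :
    win Q ρ (dd u th ε η J) ≤ Q := by
  have h3' : (m : ℝ) * (ρ + 1) + 2 * S * τ + 32 * η ≤ Q := by exact_mod_cast h3
  refine en2_exp_le (by positivity) fun o => en2_exp_le (by positivity) fun s' =>
    en2_exp_le (by positivity) fun ξ => (dd_le hu hτ _ _).trans (le_trans ?_ h3')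
  have : ∑ k, |(((av o).2 k : ℤ) : ℝ) - (pos o.2.1 ξ k : ℤ)| ≤ (m : ℝ) * (ρ + 1) := by
    refine le_trans (sum_le_card_nsmul _ _ ((ρ : ℝ) + 1) fun k _ => ?_) (by simp [mul_add])
    have a : (((o.2.2 k : ℕ) : ℝ)) < (ρ + 2 : ℕ) := by exact_mod_cast (o.2.2 k).2
    have a' : (((o.2.2 k : ℕ) : ℝ)) + 1 ≤ (ρ + 2 : ℕ) := by exact_mod_cast (o.2.2 k).2
    have b : (((ξ k : ℕ) : ℝ)) < ρ := by exact_mod_cast (ξ k).2
    have a0 : (0 : ℝ) ≤ (o.2.2 k : ℕ) := by positivity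
    have b0 : (0 : ℝ) ≤ (ξ k : ℕ) := by positivity
    simp only [av, opos, pos]
    push_cast at a a' ⊢
    rw [abs_le]
    constructor <;> linarith
  simpa using this

theorem en2_face (hu : Sgn u) (hτ : 0 < τ) (s s' : Fin S) (z : Fin m → Fin Q) (ξ : Fin m → Fin ρ)
    (k : Fin m) {b b' : ℕ} (hb : b ≤ b' + 1) (hb' : b' ≤ b + 1) :
    dd u th ε η J (s', face z ξ k b) (s, face z ξ k b') ≤ 1 + 2 * S * τ + 32 * η := by
  refine (dd_le hu hτ _ _).trans ?_
  have : ∑ l, |((face z ξ k b l : ℤ) : ℝ) - (face z ξ k b' l : ℤ)| ≤ 1 := by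
    rw [Finset.sum_eq_single k]
    · have c : (b : ℝ) ≤ b' + 1 := by exact_mod_cast hb
      have c' : (b' : ℝ) ≤ b + 1 := by exact_mod_cast hb'
      simp only [face, Function.update_self]
      push_cast
      rw [abs_le]
      constructor <;> linarith
    · intro l _ hl
      simp [face, Function.update_of_ne hl]
    · simp
  simpa using this

theorem en2_fac (hu : Sgn u) (hτ : 0 < τ) (h4 : 4 * m * (1 + 2 * S * τ + 32 * η) ≤ ρ) (s : Fin S)
    (z : Fin m → Fin Q) : fac ρ (dd u th ε η J) s z ≤ ρ := by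
  have h4' : 4 * (m : ℝ) * (1 + 2 * S * τ + 32 * η) ≤ ρ := by exact_mod_cast h4
  refine le_trans (sum_le_card_nsmul _ _ (4 * (1 + 2 * S * τ + 32 * η : ℝ)) fun k _ => ?_) ?_
  · refine en2_exp_le (by positivity) fun s' => en2_exp_le (by positivity) fun ξ => ?_
    have a := en2_face (th := th) (ε := ε) (η := η) (J := J) hu hτ s s' z ξ k
      (b := ρ + 1) (b' := ρ + 1) (by omega) (by omega)
    have b := en2_face (th := th) (ε := ε) (η := η) (J := J) hu hτ s s' z ξ k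
      (b := ρ + 1) (b' := ρ) (by omega) (by omega)
    have c := en2_face (th := th) (ε := ε) (η := η) (J := J) hu hτ s s' z ξ k
      (b := 1) (b' := 1) (by omega) (by omega)
    have d := en2_face (th := th) (ε := ε) (η := η) (J := J) hu hτ s s' z ξ k
      (b := 1) (b' := 0) (by omega) (by omega)
    linarith
  · simp only [card_univ, Fintype.card_fin, nsmul_eq_mul]
    linarith

theorem energy [NeZero m] (hu : Sgn u) (hτ : 0 < τ) (hη : 0 < η) (hN : 0 < N) (hε : 0 < ε)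
    (hU : UC u η (Q + ρ) ε) (h : 40 * S * τ ≤ ε * η) (h1 : 8 * m * ε ≤ 1) (h2 : 64 * m * N ^ 2 ≤ τ)
    (h3 : m * (ρ + 1) + 2 * S * τ + 32 * η ≤ Q) (h4 : 4 * m * (1 + 2 * S * τ + 32 * η) ≤ ρ) :
    ∃ th : Fin S → Fin N → Fin τ, cost u th Q ρ (dd u th ε η J) ≤ 8 * (16 * J + 17) := by
  have : Nonempty (Fin τ) := ⟨⟨0, hτ⟩⟩
  have hm : (1 : ℝ) ≤ m := by exact_mod_cast Nat.pos_of_ne_zero (NeZero.ne m)
  have hτ' : (0 : ℝ) < τ := by exact_mod_cast hτ
  have h2' : 64 * (m : ℝ) * N ^ 2 ≤ τ := by exact_mod_cast h2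
  have hL : (17 : ℝ) ≤ 16 * J + 17 := by
    have : (0 : ℝ) ≤ J := by positivity
    linarith
  let G : (Fin S → Fin N → Fin τ) → Fin S → Pt m → ℝ := fun th s x =>
    (16 * J + 17) * (ds u th ε s (st x 0 1) (st x 0 (-1)) + 4 * m *
      (2 * ε + 2 * τ * if 2 ≤ #(adj u th s x) then (1 : ℝ) else 0))
  have hG : ∀ s x, 𝔼 th, G th s x ≤ 4 * (16 * J + 17) := by
    intro s x
    have a := en2_avg_ds (N := N) hu hτ hε.le s (en2_st x 0 0 (Or.inl rfl) (Or.inr rfl))
    have b := avg_adj hτ u s x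
    simp only [G, ← mul_expect, expect_add_distrib, expect_const univ_nonempty]
    rw [mul_comm (4 : ℝ) (16 * J + 17)]
    refine mul_le_mul_of_nonneg_left ?_ (by linarith)
    have c : 8 * (m : ℝ) * τ * (4 * N ^ 2 / τ ^ 2) ≤ 1 / 2 := by
      have : 8 * (m : ℝ) * τ * (4 * N ^ 2 / τ ^ 2) = 32 * m * N ^ 2 / τ := by
        field_simp
        ring
      rw [this, div_le_iff₀ hτ']
      linarith
    have d := mul_le_mul_of_nonneg_left b (show (0 : ℝ) ≤ 8 * m * τ by positivity)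
    have e : 8 * ε ≤ 1 := by nlinarith
    nlinarith
  have hF : 𝔼 th, 𝔼 s, 𝔼 z : Fin m → Fin Q, 𝔼 ξ : Fin m → Fin ρ, G th s (pos z ξ) ≤
      4 * (16 * J + 17) := by
    rw [expect_comm]
    refine en2_exp_le (by linarith) fun s => ?_
    rw [expect_comm]
    refine en2_exp_le (by linarith) fun z => ?_
    rw [expect_comm]
    exact en2_exp_le (by linarith) fun ξ => hG s _
  obtain ⟨th, -, hth⟩ := exists_le_of_expect_le univ_nonempty hF
  refine ⟨th, ?_⟩
  have w : win Q ρ (dd u th ε η J) / Q ≤ 1 :=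
    div_le_one_of_le₀ (en2_win hu hτ h3) (by positivity)
  have f : 𝔼 s, 𝔼 z : Fin m → Fin Q, fac ρ (dd u th ε η J) s z / ρ ≤ 1 :=
    en2_exp_le zero_le_one fun s => en2_exp_le zero_le_one fun z =>
      div_le_one_of_le₀ (en2_fac hu hτ h4 s z) (by positivity)
  have g : 𝔼 s, 𝔼 z : Fin m → Fin Q, 𝔼 ξ : Fin m → Fin ρ,
      (dd u th ε η J (s, st (pos z ξ) 0 1) (s, st (pos z ξ) 0 (-1)) +
        err u th (dd u th ε η J) s (pos z ξ)) ≤
      𝔼 s, 𝔼 z : Fin m → Fin Q, 𝔼 ξ : Fin m → Fin ρ, G th s (pos z ξ) := by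
    refine expect_le_expect fun s _ => expect_le_expect fun z _ => expect_le_expect fun ξ _ => ?_
    have a := dd_le_ds (th := th) (J := J) hu hτ hη hN hU h s (st_mem s z ξ 0 (Or.inl rfl))
      (st_mem s z ξ 0 (Or.inr rfl))
    have b := en2_err (th := th) (J := J) hu hτ hη hN hε hU h s z ξ
    simp only [G]
    linarith
  unfold cost
  have e : 𝔼 s, 𝔼 z : Fin m → Fin Q, (fac ρ (dd u th ε η J) s z / ρ + 𝔼 ξ : Fin m → Fin ρ,
      (dd u th ε η J (s, st (pos z ξ) 0 1) (s, st (pos z ξ) 0 (-1)) +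
        err u th (dd u th ε η J) s (pos z ξ))) =
      𝔼 s, 𝔼 z : Fin m → Fin Q, fac ρ (dd u th ε η J) s z / ρ +
      𝔼 s, 𝔼 z : Fin m → Fin Q, 𝔼 ξ : Fin m → Fin ρ,
      (dd u th ε η J (s, st (pos z ξ) 0 1) (s, st (pos z ξ) 0 (-1)) +
        err u th (dd u th ε η J) s (pos z ξ)) := by
    rw [← expect_add_distrib]
    exact expect_congr rfl fun s _ => expect_add_distrib _ _ _
  rw [e]
  linarith

end Vale.Agent.P318.N
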