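import Vale.Agent.P318N.AV1
import Vale.Agent.P318N.NT2
import Vale.Agent.P318N.Lip

/-! The average distance. -/

open Finset
open scoped BigOperators

noncomputable section

namespace Vale.Agent.P318.N

variable {m S N τ η J B Q ρ : ℕ} {ε K : ℝ} {u : Dir S N m} {th : Fin S → Fin N → Fin τ}

theorem av2_marg (hS : 0 < S) (f : (Fin m → Fin Q) → ℝ) :
    𝔼 o : Om S m Q ρ, f o.2.1 = 𝔼 z, f z := by
  have : Nonempty (Fin S) := ⟨⟨0, hS⟩⟩
  rw [← univ_product_univ, expect_product]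
  simp only [Fintype.expect_const]
  rw [← univ_product_univ, expect_product]
  simp only [Fintype.expect_const]

theorem av2_pt (hu : Sgn u) (hτ : 0 < τ) (hη : 0 < η) (o o' : Om S m Q ρ) (s : Fin S)
    (i : Fin N) : |∑ k, (u s i k : ℝ) * (((o.2.1 k : ℕ) : ℝ) - (o'.2.1 k : ℕ))| -
      (m * (ρ + 1) + 2 * S * τ + η) ≤ th1 η (yy u th (av o) s i - yy u th (av o') s i) := by
  have h1 := le_th1 hη (yy u th (av o) s i - yy u th (av o') s i)
  have h2 := abs_le.1 (yy_close (u := u) (th := th) hτ (av o) s i)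
  have h3 := abs_le.1 (yy_close (u := u) (th := th) hτ (av o') s i)
  have e : (dt (u s i) (av o).2 : ℝ) - dt (u s i) (av o').2 =
      ∑ k, (u s i k : ℝ) * (((o.2.1 k : ℕ) : ℝ) - (o'.2.1 k : ℕ)) +
        ∑ k, (u s i k : ℝ) * (((o.2.2 k : ℕ) : ℝ) - (o'.2.2 k : ℕ)) := by
    simp only [dt, av, opos, ← sum_add_distrib]
    push_cast
    rw [← sum_sub_distrib]
    exact sum_congr rfl fun k _ => by ring
  have h4 : |∑ k, (u s i k : ℝ) * (((o.2.2 k : ℕ) : ℝ) - (o'.2.2 k : ℕ))| ≤ m * (ρ + 1) := by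
    refine (abs_sum_le_sum_abs _ _).trans ((sum_le_card_nsmul _ _ (ρ + 1 : ℝ) fun k _ => ?_).trans
      (by rw [card_univ, Fintype.card_fin, nsmul_eq_mul]))
    have a1 : ((o.2.2 k : ℕ) : ℝ) ≤ ρ + 1 := by exact_mod_cast Nat.lt_succ_iff.1 (o.2.2 k).2
    have a2 : ((o'.2.2 k : ℕ) : ℝ) ≤ ρ + 1 := by exact_mod_cast Nat.lt_succ_iff.1 (o'.2.2 k).2
    have a3 : (0 : ℝ) ≤ (o.2.2 k : ℕ) := Nat.cast_nonneg _
    have a4 : (0 : ℝ) ≤ (o'.2.2 k : ℕ) := Nat.cast_nonneg _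
    rcases hu s i k with h | h <;> rw [h, abs_le] <;> constructor <;> push_cast <;> linarith
  have h5 := abs_le.1 h4
  push_cast at h1
  have h6 := le_abs_self ((yy u th (av o) s i : ℝ) - yy u th (av o') s i)
  have h7 := neg_abs_le ((yy u th (av o) s i : ℝ) - yy u th (av o') s i)
  rw [sub_le_iff_le_add, abs_le]
  constructor <;> linarith

theorem avg_dd (hu : Sgn u) (hτ : 0 < τ) (hη : 0 < η) (hN : 0 < N) (hS : 0 < S) (hε : 0 ≤ ε)
    (hQ : 2 ≤ Q) : Q * √m / 10 - (m * (ρ + 1) + 2 * S * τ + η) ≤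
      𝔼 o : Om S m Q ρ, 𝔼 o' : Om S m Q ρ, dd u th ε η J (av o) (av o') := by
  have : Nonempty (Fin S) := ⟨⟨0, hS⟩⟩
  have : Nonempty (Fin N) := ⟨⟨0, hN⟩⟩
  have : Nonempty (Fin Q) := ⟨⟨0, by omega⟩⟩
  have h1 : 𝔼 o : Om S m Q ρ, 𝔼 o' : Om S m Q ρ, 𝔼 x : Fin S × Fin N,
      (|∑ k, (u x.1 x.2 k : ℝ) * (((o.2.1 k : ℕ) : ℝ) - (o'.2.1 k : ℕ))| -
        (m * (ρ + 1) + 2 * S * τ + η)) ≤
      𝔼 o : Om S m Q ρ, 𝔼 o' : Om S m Q ρ, dd u th ε η J (av o) (av o') := by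
    refine expect_le_expect fun o _ => expect_le_expect fun o' _ => ?_
    have h2 := pv_nonneg (u := u) (th := th) (η := η) (J := J) hε (av o) (av o')
    refine le_trans ?_ (le_add_of_nonneg_right (by linarith))
    rw [← univ_product_univ, expect_product]
    exact expect_le_expect fun s _ => expect_le_expect fun i _ => av2_pt hu hτ hη o o' s i
  refine le_trans ?_ h1
  simp only [expect_comm (univ : Finset (Om S m Q ρ)) (univ : Finset (Fin S × Fin N))]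
  refine le_expect univ_nonempty fun x _ => ?_
  simp only [expect_sub_distrib, Fintype.expect_const]
  refine sub_le_sub_right ((anti hQ (u x.1 x.2) (hu x.1 x.2)).trans_eq ?_) _
  rw [← av2_marg (ρ := ρ) hS]
  exact expect_congr rfl fun o _ => (av2_marg (ρ := ρ) hS _).symm

end Vale.Agent.P318.N
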