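import Vale.Agent.P318N.LP2

/-! Dimension free L1 Poincare inequality. gg f H 0 = 𝔼 f H, gg f H 1 = 𝔼 f * 𝔼 H. h t = gg f H (t²) has derivative 2 t * gg' (t²), of absolute value ≤ 2 Q 𝔼 √(∑ dk²) on [0, 1] (Cauchy-Schwarz, aa_bessel; 0 at t = 0); norm_image_sub_le_of_norm_deriv_le_segment_01' . Take H = sign (f - 𝔼 f) (if 𝔼 f ≤ f y then 1 else -1): 𝔼 |f - 𝔼 f| = gg 0 - gg 1. -/

open Finset
open scoped BigOperators

noncomputable section

namespace Vale.Agent.P318.N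

variable {m S N τ η J B Q ρ : ℕ} {ε K : ℝ} {u : Dir S N m} {th : Fin S → Fin N → Fin τ}

theorem lp3_zero (f H : (Fin m → Fin Q) → ℝ) : gg f H 0 = 𝔼 z, f z * H z := by
  refine expect_congr rfl fun z _ => ?_
  simp only [kap, sub_zero, zero_div, add_zero, Fintype.prod_boole, ← funext_iff, ite_mul, one_mul,
    zero_mul, sum_ite_eq, mem_univ, if_true]

theorem lp3_one (f H : (Fin m → Fin Q) → ℝ) : gg f H 1 = (𝔼 z, f z) * 𝔼 z, H z := by
  rw [expect_mul]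
  refine expect_congr rfl fun z _ => ?_
  rw [Fintype.expect_eq_sum_div_card, sum_div]
  congr 1
  refine sum_congr rfl fun y _ => ?_
  simp [kap, div_eq_inv_mul]

theorem lp3_bd {t : ℝ} (h0 : 0 ≤ t) (h1 : t ≤ 1) (f : (Fin m → Fin Q) → ℝ)
    {H : (Fin m → Fin Q) → ℝ} (hH : ∀ y, |H y| ≤ 1) (z : Fin m → Fin Q) :
    |(∑ k, dk f z k * aa (t ^ 2) H z k) * (2 * t)| ≤ 2 * Q * √(∑ k, dk f z k ^ 2) := by
  rcases h0.eq_or_lt with rfl | h
  · rw [mul_zero, mul_zero, abs_zero]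
    positivity
  have h2 := aa_bessel (pow_pos h 2) (pow_le_one₀ h0 h1) hH z
  have h3 := sum_mul_sq_le_sq_mul_sq univ (fun k => dk f z k) fun k => aa (t ^ 2) H z k
  have h4 : 0 ≤ ∑ k, dk f z k ^ 2 := sum_nonneg fun k _ => sq_nonneg _
  refine abs_le_of_sq_le_sq ?_ (by positivity)
  rw [mul_pow, mul_pow, mul_pow, Real.sq_sqrt h4]
  have h5 := mul_le_mul_of_nonneg_left ((le_div_iff₀ (pow_pos h 2)).1 h2) h4
  have h6 := mul_le_mul_of_nonneg_right h3 (sq_nonneg t)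
  nlinarith

theorem lp3_main (f : (Fin m → Fin Q) → ℝ) {H : (Fin m → Fin Q) → ℝ} (hH : ∀ y, |H y| ≤ 1) :
    |gg f H 1 - gg f H 0| ≤ 2 * Q * 𝔼 z, √(∑ k, dk f z k ^ 2) := by
  have h := norm_image_sub_le_of_norm_deriv_le_segment_01' (f := fun t : ℝ => gg f H (t ^ 2))
    (f' := fun t => (𝔼 z, ∑ k, dk f z k * aa (t ^ 2) H z k) * (2 * t))
    (C := 2 * Q * 𝔼 z, √(∑ k, dk f z k ^ 2)) (fun t _ => by
      have h1 : HasDerivAt (fun t : ℝ => t ^ 2) (2 * t) t := by simpa using hasDerivAt_pow 2 t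
      exact (HasDerivAt.comp t (h₂ := gg f H) (gg_deriv f H (t ^ 2)) h1).hasDerivWithinAt)
    (fun t ht => by
      rw [Real.norm_eq_abs, expect_mul, mul_expect]
      exact (abs_expect_le _ _).trans (expect_le_expect fun z _ => lp3_bd ht.1 ht.2.le f hH z))
  simpa only [one_pow, ne_eq, OfNat.ofNat_ne_zero, not_false_eq_true, zero_pow, Real.norm_eq_abs]
    using h

theorem l1_poincare (hQ : 0 < Q) (f : (Fin m → Fin Q) → ℝ) :
    𝔼 z, 𝔼 z', |f z - f z'| ≤ 4 * Q * 𝔼 z, √(∑ k, dk f z k ^ 2) := by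
  have : NeZero Q := ⟨hQ.ne'⟩
  obtain ⟨μ, hμ⟩ : ∃ μ, μ = 𝔼 z, f z := ⟨_, rfl⟩
  have h1 := lp3_main f (H := fun y => if μ ≤ f y then 1 else -1) fun y => by
    split_ifs <;> simp
  rw [lp3_zero, lp3_one, ← hμ, abs_sub_comm, mul_expect, ← expect_sub_distrib] at h1
  have h2 : 𝔼 z, |f z - μ| ≤ 2 * Q * 𝔼 z, √(∑ k, dk f z k ^ 2) := by
    refine le_trans (le_of_eq (expect_congr rfl fun z _ => ?_)) ((le_abs_self _).trans h1)
    split_ifs with h
    · rw [abs_of_nonneg (sub_nonneg.2 h), mul_one, mul_one]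
    · rw [abs_of_neg (sub_neg.2 (not_le.1 h))]
      ring
  have h3 : 𝔼 z, 𝔼 z', |f z - f z'| ≤ 𝔼 z, 𝔼 z', (|f z - μ| + |f z' - μ|) :=
    expect_le_expect fun z _ => expect_le_expect fun z' _ => by
      rw [abs_sub_comm (f z') μ]
      exact abs_sub_le _ _ _
  simp only [expect_add_distrib, Fintype.expect_const] at h3
  linarith

end Vale.Agent.P318.N
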