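import Vale.Agent.P318N.CU2
import Vale.Agent.P318N.LP3

/-! The cut inequality. X = √(∑ dk²), v k = dk / X (if X = 0 trivial), ∑ v k * dk = X. By GC at least half of the charts satisfy grad_good, all the bounds are ≥ 0, so X ≤ K * 𝔼 s, (..). |F (av o) - Wb o.2.1| ≤ 𝔼 s', 𝔼 ξ, ck F (av o) (s', pos o.2.1 ξ), so the left side is ≤ 2 win + 𝔼 z z', |Wb z - Wb z'|; l1_poincare; expect_comm. -/

open Finset
open scoped BigOperators

noncomputable section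

namespace Vale.Agent.P318.N

variable {m S N τ η J B Q ρ : ℕ} {ε K : ℝ} {u : Dir S N m} {th : Fin S → Fin N → Fin τ}

/-- The local cost. -/
def cu3_T [NeZero m] (u : Dir S N m) (th : Fin S → Fin N → Fin τ) (ρ : ℕ) (F : Vx S m → ℝ)
    (s : Fin S) (z : Fin m → Fin Q) : ℝ :=
  fac ρ (ck F) s z / ρ + 𝔼 ξ : Fin m → Fin ρ,
    (ck F (s, st (pos z ξ) 0 1) (s, st (pos z ξ) 0 (-1)) + err u th (ck F) s (pos z ξ))

theorem cu3_ck {V : Type} (F : V → ℝ) (p q : V) : 0 ≤ ck F p q := abs_nonneg _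

theorem cu3_T0 [NeZero m] (F : Vx S m → ℝ) (s : Fin S) (z : Fin m → Fin Q) :
    0 ≤ cu3_T u th ρ F s z := by
  refine add_nonneg (div_nonneg (sum_nonneg fun k _ => expect_nonneg fun s' _ =>
    expect_nonneg fun ξ _ => ?_) (Nat.cast_nonneg _)) (expect_nonneg fun ξ _ =>
      add_nonneg (cu3_ck _ _ _) (sum_nonneg fun k _ => sum_nonneg fun σ _ =>
        sum_nonneg fun σ' _ => ?_))
  · exact add_nonneg (add_nonneg (add_nonneg (cu3_ck _ _ _) (cu3_ck _ _ _)) (cu3_ck _ _ _))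
      (cu3_ck _ _ _)
  · split_ifs
    · exact cu3_ck _ _ _
    · exact le_rfl

theorem cu3_pt [NeZero m] (hu : Sgn u) (hτ : 0 < τ) (hN : 0 < N) (hS : 0 < S) (hρ : 0 < ρ)
    (hK1 : 1 ≤ K) (hG : GC u K) (F : Vx S m → ℝ) (z : Fin m → Fin Q) :
    √(∑ k, dk (Wb ρ F) z k ^ 2) ≤ K * 𝔼 s, cu3_T u th ρ F s z := by
  classical
  have K0 : 0 ≤ K := zero_le_one.trans hK1
  have h0 : 0 ≤ ∑ k, dk (Wb ρ F) z k ^ 2 := sum_nonneg fun k _ => sq_nonneg _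
  have hX := Real.sq_sqrt h0
  have hX0 := Real.sqrt_nonneg (∑ k, dk (Wb ρ F) z k ^ 2)
  generalize √(∑ k, dk (Wb ρ F) z k ^ 2) = X at hX hX0 ⊢
  rcases hX0.eq_or_lt with h | h
  · rw [← h]
    exact mul_nonneg K0 (expect_nonneg fun s _ => cu3_T0 F s z)
  have hv : ∑ k, (dk (Wb ρ F) z k / X) ^ 2 ≤ 1 := by
    simp only [div_pow]
    rw [← sum_div, ← hX, div_self (by positivity)]
  have hv0 : ∀ k, ¬(z k : ℕ) + 1 < Q → dk (Wb ρ F) z k / X = 0 := fun k hk => by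
    rw [dk, dif_neg hk, zero_div]
  have h1 : ∑ k, dk (Wb ρ F) z k / X * dk (Wb ρ F) z k = X := by
    simp only [div_mul_eq_mul_div, ← sq]
    rw [← sum_div, ← hX, sq, mul_div_assoc, div_self h.ne', mul_one]
  obtain ⟨G, hG1, hG2⟩ : ∃ G : Finset (Fin S), S ≤ 2 * #G ∧
      ∀ s ∈ G, X ≤ K / 2 * cu3_T u th ρ F s z :=
    ⟨_, hG _ hv, fun s hs => h1.symm.le.trans
      (grad_good hu hτ hN hρ hK1 F s z hv hv0 (mem_filter.1 hs).2)⟩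
  have h2 := card_nsmul_le_sum G _ X hG2
  have h3 : ∑ s ∈ G, cu3_T u th ρ F s z ≤ ∑ s, cu3_T u th ρ F s z :=
    sum_le_sum_of_subset_of_nonneg (subset_univ G) fun s _ _ => cu3_T0 F s z
  have h4 : (S : ℝ) ≤ 2 * #G := by exact_mod_cast hG1
  have S0 : (0 : ℝ) < S := Nat.cast_pos.2 hS
  rw [nsmul_eq_mul, ← mul_sum] at h2
  rw [Fintype.expect_eq_sum_div_card, Fintype.card_fin, ← mul_div_assoc, le_div_iff₀ S0]
  nlinarith [mul_le_mul_of_nonneg_left h3 K0, mul_le_mul_of_nonneg_left h4 hX0]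

theorem cu3_om (hS : 0 < S) (g : (Fin m → Fin Q) → ℝ) :
    𝔼 o : Om S m Q ρ, g o.2.1 = 𝔼 z, g z := by
  have : Nonempty (Fin S) := ⟨⟨0, hS⟩⟩
  rw [← univ_product_univ, expect_product, ← univ_product_univ]
  simp only [expect_product, Fintype.expect_const]

theorem cu3_win (hS : 0 < S) (hρ : 0 < ρ) (F : Vx S m → ℝ) (p : Vx S m) (z : Fin m → Fin Q) :
    |F p - Wb ρ F z| ≤ 𝔼 s', 𝔼 ξ : Fin m → Fin ρ, ck F p (s', pos z ξ) := by
  have : Nonempty (Fin S) := ⟨⟨0, hS⟩⟩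
  have : Nonempty (Fin ρ) := ⟨⟨0, hρ⟩⟩
  have h : F p - Wb ρ F z = 𝔼 s', 𝔼 ξ : Fin m → Fin ρ, (F p - F (s', pos z ξ)) := by
    simp only [expect_sub_distrib, Fintype.expect_const, Wb]
  rw [h]
  exact (abs_expect_le _ _).trans (expect_le_expect fun s' _ => abs_expect_le _ _)

theorem cut_bound [NeZero m] (hu : Sgn u) (hτ : 0 < τ) (hN : 0 < N) (hS : 0 < S) (hρ : 0 < ρ)
    (hQ : 0 < Q) (hK1 : 1 ≤ K) (hG : GC u K) (F : Vx S m → ℝ) :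
    𝔼 o : Om S m Q ρ, 𝔼 o' : Om S m Q ρ, ck F (av o) (av o') ≤
      4 * Q * K * cost u th Q ρ (ck F) := by
  have : Nonempty (Fin S) := ⟨⟨0, hS⟩⟩
  have : Nonempty (Fin Q) := ⟨⟨0, hQ⟩⟩
  have Q0 : (0 : ℝ) < Q := Nat.cast_pos.2 hQ
  have h1 : 𝔼 o : Om S m Q ρ, 𝔼 o' : Om S m Q ρ, ck F (av o) (av o') ≤
      𝔼 o : Om S m Q ρ, 𝔼 o' : Om S m Q ρ,
        ((𝔼 s', 𝔼 ξ : Fin m → Fin ρ, ck F (av o) (s', pos o.2.1 ξ)) +
          (𝔼 s', 𝔼 ξ : Fin m → Fin ρ, ck F (av o') (s', pos o'.2.1 ξ)) +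
            |Wb ρ F o.2.1 - Wb ρ F o'.2.1|) := by
    refine expect_le_expect fun o _ => expect_le_expect fun o' _ => ?_
    have a1 := abs_le.1 (cu3_win hS hρ F (av o) o.2.1)
    have a2 := abs_le.1 (cu3_win hS hρ F (av o') o'.2.1)
    have a3 := le_abs_self (Wb ρ F o.2.1 - Wb ρ F o'.2.1)
    have a4 := neg_abs_le (Wb ρ F o.2.1 - Wb ρ F o'.2.1)
    refine abs_le.2 ⟨?_, ?_⟩ <;> linarith [a1.1, a1.2, a2.1, a2.2]
  have h2 : 𝔼 o : Om S m Q ρ, 𝔼 o' : Om S m Q ρ, |Wb ρ F o.2.1 - Wb ρ F o'.2.1| =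
      𝔼 z : Fin m → Fin Q, 𝔼 z' : Fin m → Fin Q, |Wb ρ F z - Wb ρ F z'| := by
    rw [← cu3_om (ρ := ρ) hS]
    exact expect_congr rfl fun o _ => cu3_om hS fun z' => |Wb ρ F o.2.1 - Wb ρ F z'|
  simp only [expect_add_distrib, Fintype.expect_const] at h1
  rw [h2] at h1
  have h3 := l1_poincare hQ (Wb (Q := Q) ρ F)
  have h4 : 𝔼 z : Fin m → Fin Q, √(∑ k, dk (Wb ρ F) z k ^ 2) ≤
      K * 𝔼 s, 𝔼 z : Fin m → Fin Q, cu3_T u th ρ F s z := by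
    rw [expect_comm, mul_expect]
    exact expect_le_expect fun z _ => cu3_pt hu hτ hN hS hρ hK1 hG F z
  have h5 : 0 ≤ win Q ρ (ck F) :=
    expect_nonneg fun _ _ => expect_nonneg fun _ _ => expect_nonneg fun _ _ => cu3_ck _ _ _
  have h6 : 4 * Q * K * cost u th Q ρ (ck F) = 4 * K * win Q ρ (ck F) +
      4 * Q * (K * 𝔼 s, 𝔼 z : Fin m → Fin Q, cu3_T u th ρ F s z) := by
    have e : cost u th Q ρ (ck F) =
      win Q ρ (ck F) / Q + 𝔼 s, 𝔼 z : Fin m → Fin Q, cu3_T u th ρ F s z := rfl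
    rw [e]
    field_simp
  have h7 : 𝔼 o : Om S m Q ρ, 𝔼 s', 𝔼 ξ : Fin m → Fin ρ, ck F (av o) (s', pos o.2.1 ξ) =
    win Q ρ (ck F) := rfl
  rw [h7] at h1
  have h8 := mul_le_mul_of_nonneg_left h4 (by positivity : (0 : ℝ) ≤ 4 * Q)
  rw [h6]
  nlinarith [mul_le_mul_of_nonneg_right hK1 h5]

end Vale.Agent.P318.N
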