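import Vale.Agent.P318N.NT2
import Vale.Agent.P318N.Lip
import Vale.Agent.P318N.RL

/-! The triangle inequality. D = sm p r - sm p q - sm q r. t1 = ds p q if p.1 = q.1, else η; t2 likewise. D ≤ 2η (th1_le, le_th1), D ≤ ds p q in the same chart (sm_lip, sm_nonneg), D ≤ ds q r (sm_comm, sm_lip, ds_comm), and if all are in one chart D ≤ 10 Λ² t1 t2 / η (th1_mix, yy_ds; α + β = yy p - yy r); if t1 = η then D ≤ 2 t2 ≤ 10 Λ² t1 t2 / η since Λ ≥ 1. pv p q + pv q r - pv p r = ∑ j, lam j * (1 - k1 - k2 + k3) with k1 k2 ≤ k3 (ds_tri), so every term is ≥ lam j (1 - k1) (1 - k2) ≥ 0, and 1 - k ≥ min (t / lam) 1 / 2 (min_le_exp). scale_pick, single_le_sum. -/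

open Finset
open scoped BigOperators

noncomputable section

namespace Vale.Agent.P318.N

variable {m S N τ η J B Q ρ : ℕ} {ε K : ℝ} {u : Dir S N m} {th : Fin S → Fin N → Fin τ}

/-- The distance in a common chart, and `η` for different charts. -/
def tri_t (u : Dir S N m) (th : Fin S → Fin N → Fin τ) (ε : ℝ) (η : ℕ) (p q : Vx S m) : ℝ :=
  if p.1 = q.1 then ds u th ε p.1 p.2 q.2 else η

theorem tri_nonneg (hε : 0 ≤ ε) (p q : Vx S m) : 0 ≤ tri_t u th ε η p q := by
  unfold tri_t
  split_ifs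
  · exact ds_nonneg hε _ _ _
  · positivity

theorem tri_exp {c : ℝ} (hN : 0 < N) {p q r : Vx S m}
    (h : ∀ s i, th1 η (yy u th p s i - yy u th r s i) - th1 η (yy u th p s i - yy u th q s i) -
      th1 η (yy u th q s i - yy u th r s i) ≤ c) :
    sm u th η p r - sm u th η p q - sm u th η q r ≤ c := by
  have : Nonempty (Fin S) := ⟨p.1⟩
  have : Nonempty (Fin N) := ⟨⟨0, hN⟩⟩
  simp only [sm, ← expect_sub_distrib]
  exact expect_le univ_nonempty fun s _ => expect_le univ_nonempty fun i _ => h s i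

theorem tri_k1 (hε : 0 ≤ ε) {l : ℝ} (hl : 0 < l) (p q : Vx S m) :
    min (tri_t u th ε η p q / l) 1 / 2 ≤ 1 - kk u th ε l p q := by
  unfold tri_t kk
  split_ifs
  · exact min_le_exp (div_nonneg (ds_nonneg hε _ _ _) hl.le)
  · linarith [min_le_right ((η : ℝ) / l) 1]

theorem tri_k2 (hε : 0 ≤ ε) {l : ℝ} (hl : 0 < l) (p q r : Vx S m) :
    kk u th ε l p q * kk u th ε l q r ≤ kk u th ε l p r := by
  have h0 : 0 ≤ kk u th ε l p r := by
    unfold kk
    split_ifs
    · positivity
    · exact le_rfl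
  by_cases h1 : p.1 = q.1
  · by_cases h2 : q.1 = r.1
    · rw [kk, kk, kk, if_pos h1, if_pos h2, if_pos (h1.trans h2), ← Real.exp_add, ← h1,
        Real.exp_le_exp, ← neg_add, neg_le_neg_iff, ← add_div]
      exact div_le_div_of_nonneg_right (ds_tri hε _ _ _ _) hl.le
    · rwa [show kk u th ε l q r = 0 from if_neg h2, mul_zero]
  · rwa [show kk u th ε l p q = 0 from if_neg h1, zero_mul]

theorem tri_k (hε : 0 ≤ ε) {l : ℝ} (hl : 0 < l) (p q r : Vx S m) :
    min (tri_t u th ε η p q / l) 1 * min (tri_t u th ε η q r / l) 1 ≤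
      4 * ((1 - kk u th ε l p q) + (1 - kk u th ε l q r) - (1 - kk u th ε l p r)) := by
  have a := tri_k1 (u := u) (th := th) (η := η) hε hl p q
  have b := tri_k1 (u := u) (th := th) (η := η) hε hl q r
  have a0 : 0 ≤ min (tri_t u th ε η p q / l) 1 / 2 :=
    div_nonneg (le_min (div_nonneg (tri_nonneg hε p q) hl.le) zero_le_one) zero_le_two
  have b0 : 0 ≤ min (tri_t u th ε η q r / l) 1 / 2 :=
    div_nonneg (le_min (div_nonneg (tri_nonneg hε q r) hl.le) zero_le_one) zero_le_two
  linarith [mul_le_mul a b b0 (a0.trans a), tri_k2 (u := u) (th := th) hε hl p q r]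

theorem yy_ds (hu : Sgn u) (hε : 0 < ε) (s s' : Fin S) (i : Fin N) (x x' : Pt m) :
    |(yy u th (s, x) s' i : ℝ) - yy u th (s, x') s' i| ≤ (S / ε + S * N) * ds u th ε s x x' := by
  have hS : (1 : ℝ) ≤ S := by exact_mod_cast s.pos
  have hd : ∀ s' : Fin S, |((dt (u s' i) (x - x') : ℤ) : ℝ)| ≤ ∑ k, |(x k : ℝ) - x' k| := fun s' => by
    have e : dt (u s' i) (x - x') = dt (u s' i) x - dt (u s' i) x' := by
      simp only [dt, Pi.sub_apply, mul_sub, sum_sub_distrib]
    rw [e, Int.cast_sub]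
    exact dt_sub_le hu s' i x x'
  have hl : |(lab u th s i x : ℝ) - lab u th s i x'| ≤
      N * 𝔼 i, |(lab u th s i x : ℝ) - lab u th s i x'| := by
    have e := card_mul_expect univ fun i => |(lab u th s i x : ℝ) - lab u th s i x'|
    rw [card_univ, Fintype.card_fin] at e
    rw [e]
    exact single_le_sum (f := fun i => |(lab u th s i x : ℝ) - lab u th s i x'|)
      (fun _ _ => abs_nonneg _) (mem_univ i)
  have hE : 0 ≤ 𝔼 i, |(lab u th s i x : ℝ) - lab u th s i x'| :=
    expect_nonneg fun _ _ => abs_nonneg _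
  have hL : 0 ≤ ∑ k, |(x k : ℝ) - x' k| := sum_nonneg fun _ _ => abs_nonneg _
  rw [← Int.cast_sub, yy_sub, ds]
  generalize (𝔼 i, |(lab u th s i x : ℝ) - lab u th s i x'|) = E at hl hE ⊢
  generalize (∑ k, |(x k : ℝ) - x' k|) = L at hd hL ⊢
  have e : (S / ε + S * N) * (τ * E + ε * L) =
      S * L + S * (τ * (N * E)) + (S / ε * (τ * E) + S * N * (ε * L)) := by
    field_simp
    ring
  have p1 : 0 ≤ S / ε * (τ * E) + S * N * (ε * L) := by positivity
  have p2 : 0 ≤ S * (τ * (N * E)) := by positivity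
  rw [e]
  split_ifs with h
  · subst h
    have e2 : ((dt (u s' i) (x - x') + S * (τ * (lab u th s' i x - lab u th s' i x') -
        dt (u s' i) (x - x')) : ℤ) : ℝ) = S * (τ * ((lab u th s' i x : ℝ) - lab u th s' i x')) -
        (S - 1) * (dt (u s' i) (x - x') : ℤ) := by
      push_cast
      ring
    rw [e2]
    refine (abs_sub _ _).trans ?_
    rw [abs_mul, abs_mul, abs_mul, Nat.abs_cast, Nat.abs_cast, abs_of_nonneg (sub_nonneg.2 hS)]
    have q1 := mul_le_mul_of_nonneg_left (mul_le_mul_of_nonneg_left hl (Nat.cast_nonneg τ))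
      (Nat.cast_nonneg (α := ℝ) S)
    have q2 := mul_le_mul_of_nonneg_left (hd s') (sub_nonneg.2 hS)
    linarith
  · rw [add_zero]
    linarith [hd s', mul_le_mul_of_nonneg_right hS hL]

theorem dd_tri (hu : Sgn u) (hτ : 0 < τ) (hη : 0 < η) (hN : 0 < N) (hε : 0 < ε) (hU : UC u η B ε)
    (h : 40 * S * τ ≤ ε * η) (hJ : 10 * (S / ε + S * N) ^ 2 ≤ 2 ^ J) {p q r : Vx S m}
    (hp : p ∈ Box S m B) (hq : q ∈ Box S m B) (hr : r ∈ Box S m B) :
    dd u th ε η J p r ≤ dd u th ε η J p q + dd u th ε η J q r := by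
  have he : (0 : ℝ) < η := by exact_mod_cast hη
  have t1 := tri_nonneg (u := u) (th := th) (η := η) hε.le p q
  have t2 := tri_nonneg (u := u) (th := th) (η := η) hε.le q r
  have a3 : sm u th η p r - sm u th η p q - sm u th η q r ≤ 2 * η := tri_exp hN fun s i => by
    have b1 := th1_le (η := η) (yy u th p s i - yy u th r s i)
    have b2 := le_th1 hη (yy u th p s i - yy u th q s i)
    have b3 := le_th1 hη (yy u th q s i - yy u th r s i)
    push_cast at b1 b2 b3
    linarith [abs_sub_le (yy u th p s i : ℝ) (yy u th q s i) (yy u th r s i)]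
  have a1 : sm u th η p r - sm u th η p q - sm u th η q r ≤ 2 * tri_t u th ε η p q := by
    by_cases h1 : p.1 = q.1
    · obtain ⟨s, x⟩ := p
      obtain ⟨s', x'⟩ := q
      obtain rfl : s = s' := h1
      have b := sm_lip (th := th) hu hτ hη hN hU h s (x' := x') hp hr
      rw [tri_t, if_pos rfl] at t1 ⊢
      linarith [sm_nonneg (u := u) (th := th) (η := η) (s, x) (s, x')]
    · rwa [tri_t, if_neg h1]
  have a2 : sm u th η p r - sm u th η p q - sm u th η q r ≤ 2 * tri_t u th ε η q r := by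
    by_cases h1 : q.1 = r.1
    · obtain ⟨s, x⟩ := q
      obtain ⟨s', x'⟩ := r
      obtain rfl : s = s' := h1
      have b := sm_lip (th := th) hu hτ hη hN hU h s (x' := x) hr hp
      rw [tri_t, if_pos rfl] at t2 ⊢
      rw [sm_comm _ p, sm_comm _ p, ds_comm] at b
      linarith [sm_nonneg (u := u) (th := th) (η := η) (s, x) (s, x')]
    · rwa [tri_t, if_neg h1]
  have hL : (1 : ℝ) ≤ S / ε + S * N := by
    have b : (1 : ℝ) ≤ S * N := by exact_mod_cast Nat.mul_pos p.1.pos hN
    linarith [div_nonneg (Nat.cast_nonneg (α := ℝ) S) hε.le]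
  have hM : (2 : ℝ) ≤ 10 * (S / ε + S * N) ^ 2 := by nlinarith
  have a4 : sm u th η p r - sm u th η p q - sm u th η q r ≤
      10 * (S / ε + S * N) ^ 2 * (tri_t u th ε η p q * tri_t u th ε η q r) / η := by
    by_cases h1 : p.1 = q.1
    · by_cases h2 : q.1 = r.1
      · obtain ⟨s, x⟩ := p
        obtain ⟨s', y⟩ := q
        obtain ⟨s'', z⟩ := r
        obtain rfl : s = s' := h1
        obtain rfl : s = s'' := h2
        refine tri_exp hN fun s' i => ?_
        have b := th1_mix hη (yy u th (s, x) s' i - yy u th (s, y) s' i)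
          (yy u th (s, y) s' i - yy u th (s, z) s' i)
        rw [sub_add_sub_cancel, Int.cast_sub, Int.cast_sub] at b
        refine b.trans (div_le_div_of_nonneg_right ?_ he.le)
        rw [tri_t, tri_t, if_pos rfl, if_pos rfl]
        have c := mul_le_mul (yy_ds (th := th) hu hε s s' i x y) (yy_ds (th := th) hu hε s s' i y z)
          (abs_nonneg _) ((abs_nonneg _).trans (yy_ds (th := th) hu hε s s' i x y))
        linarith
      · rw [show tri_t u th ε η q r = η from if_neg h2, mul_div_assoc, mul_div_cancel_right₀ _ he.ne']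
        exact a1.trans (mul_le_mul_of_nonneg_right hM t1)
    · rw [show tri_t u th ε η p q = η from if_neg h1, mul_div_assoc, mul_div_cancel_left₀ _ he.ne']
      exact a2.trans (mul_le_mul_of_nonneg_right hM t2)
  obtain ⟨j, hj, b⟩ := scale_pick he t1 t2 hJ a1 a2 a3 a4
  have hl : ∀ j : ℕ, (0 : ℝ) < η / 2 ^ j := fun j => by positivity
  have c := single_le_sum (f := fun j : ℕ => (η : ℝ) / 2 ^ j *
      (min (tri_t u th ε η p q / (η / 2 ^ j)) 1 * min (tri_t u th ε η q r / (η / 2 ^ j)) 1))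
    (fun j _ => mul_nonneg (hl j).le (mul_nonneg (le_min (div_nonneg t1 (hl j).le) zero_le_one)
      (le_min (div_nonneg t2 (hl j).le) zero_le_one))) (mem_range.2 (Nat.lt_succ_of_le hj))
  have d := sum_le_sum fun j (_ : j ∈ range (J + 1)) =>
    mul_le_mul_of_nonneg_left (tri_k (u := u) (th := th) (η := η) hε.le (hl j) p q r) (hl j).le
  have e : ∑ j ∈ range (J + 1), (η : ℝ) / 2 ^ j * (4 * ((1 - kk u th ε (η / 2 ^ j) p q) +
      (1 - kk u th ε (η / 2 ^ j) q r) - (1 - kk u th ε (η / 2 ^ j) p r))) =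
      4 * (pv u th ε η J p q + pv u th ε η J q r - pv u th ε η J p r) := by
    rw [pv, pv, pv, ← sum_add_distrib, ← sum_sub_distrib, mul_sum]
    exact sum_congr rfl fun j _ => by ring
  rw [e] at d
  unfold dd
  linarith

end Vale.Agent.P318.N
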