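import Vale.Agent.P318N.T
import Vale.Agent.P318N.Tri
import Vale.Agent.P318N.AV2
import Vale.Agent.P318N.EN2
import Vale.Agent.P318N.CU3

/-! Assembly: transfer with a = av, R = Box, C = cost, d = dd, G = 1 / (4 Q K), E = 8 (16 J + 17), D = Q √m / 20. -/

open Finset
open scoped BigOperators

noncomputable section

namespace Vale.Agent.P318.N

variable {m S N τ η J B Q ρ : ℕ} {ε K : ℝ} {u : Dir S N m} {th : Fin S → Fin N → Fin τ}

theorem core (hm : 0 < m) (hu : Sgn u) (hτ : 0 < τ) (hη : 0 < η) (hN : 0 < N) (hS : 0 < S)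
    (hε : 0 < ε) (hK1 : 1 ≤ K) (hG : GC u K) (hU : UC u η (Q + ρ) ε) (h : 40 * S * τ ≤ ε * η)
    (hJ : 10 * (S / ε + S * N) ^ 2 ≤ 2 ^ J) (h1 : 8 * m * ε ≤ 1) (h2 : 64 * m * N ^ 2 ≤ τ)
    (h3 : 20 * (m * (ρ + 1) + 2 * S * τ + 32 * η) ≤ Q)
    (h4 : 4 * m * (1 + 2 * S * τ + 32 * η) ≤ ρ) :
    Vale.Agent.P318N.Inst ((S * (Q ^ m * (ρ + 2) ^ m) : ℕ) : ℝ)
      (√m / (640 * K * (16 * J + 17))) := by
  haveI : NeZero m := ⟨hm.ne'⟩
  have hQ2 : 2 ≤ Q := by omega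
  have hQ : 0 < Q := by omega
  have hρ : 0 < ρ := lt_of_lt_of_le (by positivity) h4
  have h3' : m * (ρ + 1) + 2 * S * τ + 32 * η ≤ Q := by omega
  obtain ⟨th, hth⟩ := energy (J := J) hu hτ hη hN hε hU h h1 h2 h3' h4
  haveI : Nonempty (Om S m Q ρ) := ⟨(⟨0, hS⟩, fun _ => ⟨0, hQ⟩, fun _ => ⟨0, by omega⟩)⟩
  have hQ' : (0 : ℝ) < Q := by exact_mod_cast hQ
  have hK : 0 < K := lt_of_lt_of_le one_pos hK1
  have hm1 : (1 : ℝ) ≤ √m := Real.one_le_sqrt.2 (by exact_mod_cast hm)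
  have hcard : Fintype.card (Om S m Q ρ) = S * (Q ^ m * (ρ + 2) ^ m) := by
    simp only [Fintype.card_prod, Fintype.card_fun, Fintype.card_fin]
  rw [← hcard]
  refine transfer (av : Om S m Q ρ → Vx S m) av_mem (fun p hp => box_range hQ hp)
    (pos_cost (u := u) (th := th)) (d := dd u th ε η J) dd_comm dd_self
    (fun p hp q hq r hr => dd_tri hu hτ hη hN hε hU h hJ hp hq hr) (cnd_dd hε.le)
    (G := 1 / (4 * Q * K)) (E := 8 * (16 * J + 17)) (D := Q * √m / 20) (by positivity)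
    (by positivity) (by positivity) (fun F => ?_) hth ?_ (le_of_eq ?_)
  · rw [one_div, inv_mul_le_iff₀ (by positivity)]
    exact cut_bound hu hτ hN hS hρ hQ hK1 hG F
  · refine le_trans ?_ (avg_dd hu hτ hη hN hS hε.le hQ2)
    have h5 : (20 : ℝ) * (m * (ρ + 1) + 2 * S * τ + 32 * η) ≤ Q := by exact_mod_cast h3
    have h6 : (Q : ℝ) ≤ Q * √m := le_mul_of_one_le_right hQ'.le hm1
    have h7 : (0 : ℝ) ≤ η := Nat.cast_nonneg η
    linarith
  · field_simp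
    norm_num

end Vale.Agent.P318.N
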