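import Vale.Agent.P318N.RC1

/-! Good charts. For v take a k = round (m * v k): |a k| ≤ m, |a k - m v k| ≤ 1/2, ∑ a² ≤ 4 m². A chart b : Fin N → Fin m → Bool is bad for a if ∃ i, 2 m K ≤ |∑ k, sg (b i) k * a k|; probability ≤ N * 2 exp (-K²/2) ≤ 1/16 (hoeff with X = Bool, V = 4 m²). A chart that is not bad has |∑ u k v k| ≤ 2K + 1. If GC fails at v then S ≤ 2 times the number of bad charts for a; union bound over a in Fintype.piFinset fun _ => Icc (-m) m; majority. -/

open Finset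
open scoped BigOperators

noncomputable section

namespace Vale.Agent.P318.N

variable {m S N τ η J B Q ρ : ℕ} {ε K : ℝ} {u : Dir S N m} {th : Fin S → Fin N → Fin τ}

theorem rc3_marg {I X : Type} [Fintype I] [DecidableEq I] [Fintype X] [Nonempty X] (i : I)
    (f : X → ℝ) : 𝔼 b : I → X, f (b i) = 𝔼 x, f x := by
  rw [Fintype.expect_equiv (Equiv.funSplitAt i X) (fun b => f (b i)) (fun p => f p.1)
    (fun _ => rfl), ← univ_product_univ, expect_product]
  simp

/-- A chart that is far from orthogonal to the integer vector `a`. -/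
def rc3_bad (K : ℝ) (a : Fin m → ℤ) (b : Fin N → Fin m → Bool) : Prop :=
  ∑ k, (a k : ℝ) ^ 2 ≤ 4 * (m : ℝ) ^ 2 ∧ ∃ i, 2 * m * K ≤ |∑ k, (sg (b i) k : ℝ) * a k|

theorem rc3_one (hm : 0 < m) (hK : 0 ≤ K) {a : Fin m → ℤ}
    (ha : ∑ k, (a k : ℝ) ^ 2 ≤ 4 * (m : ℝ) ^ 2) :
    𝔼 c : Fin m → Bool, (if 2 * m * K ≤ |∑ k, (sg c k : ℝ) * a k| then (1 : ℝ) else 0) ≤
      2 * Real.exp (-(K ^ 2 / 2)) := by
  have hm' : (0 : ℝ) < m := Nat.cast_pos.2 hm
  have h := hoeff (I := Fin m) (X := Bool)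
    (fun k x => (((if x then 1 else -1 : ℤ) : ℝ)) * a k) (fun k => |(a k : ℝ)|)
    (fun k => by rw [Fintype.expect_eq_sum_div_card]; simp)
    (fun k x => by cases x <;> simp) (V := 4 * (m : ℝ) ^ 2) (t := 2 * m * K) (by positivity)
    (by simpa only [sq_abs] using ha) (by positivity)
  rw [show (2 * m * K) ^ 2 / (2 * (4 * (m : ℝ) ^ 2)) = K ^ 2 / 2 by field_simp; ring] at h
  exact le_of_eq_of_le (expect_congr (by ext; simp) fun _ _ => rfl) h

open Classical in
theorem rc3_prob (hm : 0 < m) (hK : 0 ≤ K) (h : 32 * N ≤ Real.exp (K ^ 2 / 2)) (a : Fin m → ℤ) :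
    𝔼 b : Fin N → Fin m → Bool, (if rc3_bad K a b then (1 : ℝ) else 0) ≤ 1 / 16 := by
  by_cases ha : ∑ k, (a k : ℝ) ^ 2 ≤ 4 * (m : ℝ) ^ 2
  · calc _ ≤ 𝔼 b : Fin N → Fin m → Bool, ∑ i,
          (if 2 * m * K ≤ |∑ k, (sg (b i) k : ℝ) * a k| then (1 : ℝ) else 0) := by
          refine expect_le_expect fun b _ => ?_
          have h0 : ∀ i ∈ (univ : Finset (Fin N)), (0 : ℝ) ≤
              if 2 * m * K ≤ |∑ k, (sg (b i) k : ℝ) * a k| then (1 : ℝ) else 0 :=
            fun i _ => by split_ifs <;> norm_num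
          split_ifs with c
          · obtain ⟨i, hi⟩ := c.2
            exact le_of_eq_of_le (if_pos hi).symm (single_le_sum h0 (mem_univ i))
          · exact sum_nonneg h0
      _ ≤ ∑ _i : Fin N, 2 * Real.exp (-(K ^ 2 / 2)) := by
          rw [expect_sum_comm]
          refine sum_le_sum fun i _ => le_of_eq_of_le ?_ (rc3_one hm hK ha)
          exact rc3_marg i fun c : Fin m → Bool =>
            if 2 * m * K ≤ |∑ k, (sg c k : ℝ) * a k| then (1 : ℝ) else 0
      _ ≤ 1 / 16 := by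
          have hp := Real.exp_pos (K ^ 2 / 2)
          rw [sum_const, card_univ, Fintype.card_fin, nsmul_eq_mul, Real.exp_neg, ← mul_assoc,
            ← div_eq_mul_inv, div_le_iff₀ hp]
          linarith
  · rw [expect_eq_zero fun b _ => if_neg fun c => ha c.1]
    norm_num

theorem rc3_round (hm : 0 < m) {v : Fin m → ℝ} (hv : ∑ k, v k ^ 2 ≤ 1) :
    ∃ a ∈ Fintype.piFinset fun _ : Fin m => Icc (-(m : ℤ)) m,
      ∀ b : Fin N → Fin m → Bool, ¬ rc3_bad K a b →
        ∀ i, |∑ k, (sg (b i) k : ℝ) * v k| ≤ 2 * K + 1 := by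
  have hm' : (1 : ℝ) ≤ m := Nat.one_le_cast.2 hm
  have hr : ∀ k, |m * v k - (round (m * v k) : ℤ)| ≤ 1 / 2 := fun k => abs_sub_round _
  refine ⟨fun k => round (m * v k), Fintype.mem_piFinset.2 fun k => ?_, fun b hb i => ?_⟩
  · have h1 : v k ^ 2 ≤ 1 := (single_le_sum (fun j _ => sq_nonneg (v j)) (mem_univ k)).trans hv
    obtain ⟨h2, h3⟩ := abs_le.1 ((sq_le_one_iff_abs_le_one _).1 h1)
    obtain ⟨h4, h5⟩ := abs_le.1 (hr k)
    have h6 : ((round (m * v k) : ℤ) : ℝ) < ((m + 1 : ℤ) : ℝ) := by push_cast; nlinarith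
    have h7 : ((-(m : ℤ) - 1 : ℤ) : ℝ) < ((round (m * v k) : ℤ) : ℝ) := by push_cast; nlinarith
    have h8 := Int.cast_lt.1 h6
    have h9 := Int.cast_lt.1 h7
    exact mem_Icc.2 ⟨by omega, by omega⟩
  · have ha : ∑ k, ((round (m * v k) : ℤ) : ℝ) ^ 2 ≤ 4 * (m : ℝ) ^ 2 := by
      calc _ ≤ ∑ k, (2 * (m : ℝ) ^ 2 * v k ^ 2 + 1 / 2) := sum_le_sum fun k _ => by
            have := sq_le_sq' (abs_le.1 (hr k)).1 (abs_le.1 (hr k)).2
            nlinarith [sq_nonneg (2 * (m * v k) - (round (m * v k) : ℤ))]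
        _ ≤ _ := by
            rw [sum_add_distrib, ← mul_sum, sum_const, card_univ, Fintype.card_fin, nsmul_eq_mul]
            nlinarith [mul_le_mul_of_nonneg_left hv (show 0 ≤ 2 * (m : ℝ) ^ 2 by positivity)]
    have h1 : |∑ k, (sg (b i) k : ℝ) * (round (m * v k) : ℤ)| < 2 * m * K :=
      not_le.1 fun c => hb ⟨ha, i, c⟩
    have h2 : |∑ k, (sg (b i) k : ℝ) * (m * v k - (round (m * v k) : ℤ))| ≤ m * (1 / 2) := by
      refine (abs_sum_le_sum_abs _ _).trans ((sum_le_card_nsmul _ _ (1 / 2) fun k _ => ?_).trans ?_)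
      · rw [abs_mul]
        unfold sg
        split_ifs <;> simpa using hr k
      · rw [card_univ, Fintype.card_fin, nsmul_eq_mul]
    have h3 : m * ∑ k, (sg (b i) k : ℝ) * v k = ∑ k, (sg (b i) k : ℝ) * (round (m * v k) : ℤ) +
        ∑ k, (sg (b i) k : ℝ) * (m * v k - (round (m * v k) : ℤ)) := by
      rw [mul_sum, ← sum_add_distrib]
      exact sum_congr rfl fun k _ => by ring
    have h4 := abs_add_le (∑ k, (sg (b i) k : ℝ) * (round (m * v k) : ℤ))
      (∑ k, (sg (b i) k : ℝ) * (m * v k - (round (m * v k) : ℤ)))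
    rw [← h3, abs_mul, abs_of_nonneg (show (0 : ℝ) ≤ m by linarith)] at h4
    refine le_of_mul_le_mul_left ?_ (show (0 : ℝ) < m by linarith)
    nlinarith

open Classical in
theorem gc_prob (hm : 0 < m) (hK : 0 ≤ K) (h : 32 * N ≤ Real.exp (K ^ 2 / 2)) :
    𝔼 ω : Fin S → Fin N → Fin m → Bool,
      (if GC (fun s i => sg (ω s i)) (2 * K + 1) then (0 : ℝ) else 1) ≤
      (2 * m + 1) ^ m / 2 ^ S := by

  calc _ ≤ 𝔼 ω : Fin S → Fin N → Fin m → Bool,
        ∑ a ∈ Fintype.piFinset fun _ : Fin m => Icc (-(m : ℤ)) m,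
          (if S ≤ 2 * #(univ.filter fun s => rc3_bad K a (ω s)) then (1 : ℝ) else 0) := by
        refine expect_le_expect fun ω _ => ?_
        have h0 : ∀ a ∈ Fintype.piFinset fun _ : Fin m => Icc (-(m : ℤ)) m, (0 : ℝ) ≤
            if S ≤ 2 * #(univ.filter fun s => rc3_bad K a (ω s)) then (1 : ℝ) else 0 :=
          fun a _ => by split_ifs <;> norm_num
        split_ifs with c
        · exact sum_nonneg h0
        · unfold GC at c
          obtain ⟨v, c⟩ := not_forall.1 c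
          obtain ⟨hv, c⟩ := Classical.not_imp.1 c
          obtain ⟨a, ha, hb⟩ := rc3_round (N := N) (K := K) hm hv
          refine le_of_eq_of_le (if_pos ?_).symm (single_le_sum h0 ha)
          have h1 := card_filter_add_card_filter_not (s := (univ : Finset (Fin S)))
            fun s => rc3_bad K a (ω s)
          have h2 : #(univ.filter fun s => ¬ rc3_bad K a (ω s)) ≤
              #(univ.filter fun s => ∀ i, |∑ k, (sg (ω s i) k : ℝ) * v k| ≤ 2 * K + 1) :=
            card_le_card fun s hs => mem_filter.2 ⟨mem_univ _, hb _ (mem_filter.1 hs).2⟩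
          rw [card_univ, Fintype.card_fin] at h1
          have h3 := lt_of_le_of_lt (Nat.mul_le_mul_left 2 h2) (not_le.1 c)
          omega
    _ ≤ _ := by
        rw [expect_sum_comm]
        refine (sum_le_card_nsmul _ _ (1 / 2 ^ S) fun a _ =>
          majority (rc3_bad K a) (rc3_prob hm hK h a)).trans (le_of_eq ?_)
        rw [Fintype.card_piFinset, prod_const, card_univ, Fintype.card_fin, Int.card_Icc,
          show ((m : ℤ) + 1 - -(m : ℤ)).toNat = 2 * m + 1 by omega, nsmul_eq_mul]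
        push_cast
        ring

end Vale.Agent.P318.N
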