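import Vale.Agent.P318N.D

/-! Anticoncentration. X k = w k * (z k - z' k) are independent, symmetric, σ² = 𝔼 X² = (Q² - 1) / 6 ≥ Q² / 8, X² ≤ Q². By induction on m (Fin.consEquiv / piFinSuccAbove; state it for one variable y : Fin m → Fin Q × Fin Q and functions g k with mean zero, third moment zero) 𝔼 Z² = m σ², 𝔼 Z⁴ ≤ m Q² σ² + 3 m² σ⁴ ≤ 11 m² σ⁴. Pointwise |t| ≥ t² / L - c t⁴ / L³, or Cauchy-Schwarz twice: (𝔼 Z²)³ ≤ (𝔼 |Z|)² 𝔼 Z⁴. -/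

open Finset
open scoped BigOperators

noncomputable section

namespace Vale.Agent.P318.N

variable {m S N τ η J B Q ρ : ℕ} {ε K : ℝ} {u : Dir S N m} {th : Fin S → Fin N → Fin τ}

theorem av1_cons {Ω : Type} [Fintype Ω] (f : (Fin (m + 1) → Ω) → ℝ) :
    𝔼 y, f y = 𝔼 y : Fin m → Ω, 𝔼 a, f (Fin.cons a y) := by
  rw [expect_comm, ← expect_product', univ_product_univ]
  exact (Fintype.expect_equiv (Fin.consEquiv fun _ => Ω) _ _ fun _ => rfl).symm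

theorem av1_mom {Ω : Type} [Fintype Ω] [Nonempty Ω] {v A : ℝ} (hv : 0 ≤ v) (g : Fin m → Ω → ℝ)
    (h1 : ∀ k, 𝔼 a, g k a = 0) (h2 : ∀ k, 𝔼 a, g k a ^ 2 = v) (h3 : ∀ k, 𝔼 a, g k a ^ 3 = 0)
    (h4 : ∀ k, 𝔼 a, g k a ^ 4 ≤ A) :
    𝔼 y : Fin m → Ω, (∑ k, g k (y k)) ^ 2 = m * v ∧
      𝔼 y : Fin m → Ω, (∑ k, g k (y k)) ^ 4 ≤ m * A + 3 * m ^ 2 * v ^ 2 := by
  induction m with
  | zero => simp
  | succ m ih =>
    obtain ⟨i1, i2⟩ := ih (fun k => g k.succ) (fun k => h1 _) (fun k => h2 _) (fun k => h3 _)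
      fun k => h4 _
    have e2 : ∀ Z : ℝ, 𝔼 a, (g 0 a + Z) ^ 2 = v + Z ^ 2 := fun Z => by
      have : ∀ a, (g 0 a + Z) ^ 2 = g 0 a ^ 2 + 2 * Z * g 0 a + Z ^ 2 := fun a => by ring
      simp only [this, expect_add_distrib, ← mul_expect, h1, h2, Fintype.expect_const]
      ring
    have e4 : ∀ Z : ℝ, 𝔼 a, (g 0 a + Z) ^ 4 ≤ A + 6 * v * Z ^ 2 + Z ^ 4 := fun Z => by
      have : ∀ a, (g 0 a + Z) ^ 4 = g 0 a ^ 4 + 4 * Z * g 0 a ^ 3 + 6 * Z ^ 2 * g 0 a ^ 2 +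
        4 * Z ^ 3 * g 0 a + Z ^ 4 := fun a => by ring
      simp only [this, expect_add_distrib, ← mul_expect, h1, h2, h3, Fintype.expect_const]
      linarith [h4 0]
    rw [av1_cons, av1_cons]
    simp only [Fin.sum_univ_succ, Fin.cons_zero, Fin.cons_succ, e2]
    refine ⟨?_, (expect_le_expect fun y _ => e4 _).trans ?_⟩
    · rw [expect_add_distrib, i1, Fintype.expect_const]
      push_cast
      ring
    · rw [expect_add_distrib, expect_add_distrib, ← mul_expect, i1, Fintype.expect_const]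
      push_cast
      nlinarith [sq_nonneg v]

theorem av1_var (Q : ℕ) : ∑ a : Fin Q × Fin Q, (((a.1 : ℕ) : ℝ) - (a.2 : ℕ)) ^ 2 =
    (Q : ℝ) ^ 2 * (Q ^ 2 - 1) / 6 := by
  have s1 : ∀ n : ℕ, ∑ i ∈ range n, (i : ℝ) = n * (n - 1) / 2 := fun n => by
    induction n with
    | zero => simp
    | succ n ih => rw [sum_range_succ, ih]; push_cast; ring
  have s2 : ∀ n : ℕ, ∑ i ∈ range n, (i : ℝ) ^ 2 = n * (n - 1) * (2 * n - 1) / 6 := fun n => by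
    induction n with
    | zero => simp
    | succ n ih => rw [sum_range_succ, ih]; push_cast; ring
  have t1 : ∑ i : Fin Q, ((i : ℕ) : ℝ) = Q * (Q - 1) / 2 :=
    (Fin.sum_univ_eq_sum_range (fun i => (i : ℝ)) Q).trans (s1 Q)
  have t2 : ∑ i : Fin Q, ((i : ℕ) : ℝ) ^ 2 = Q * (Q - 1) * (2 * Q - 1) / 6 :=
    (Fin.sum_univ_eq_sum_range (fun i => (i : ℝ) ^ 2) Q).trans (s2 Q)
  simp only [Fintype.sum_prod_type, sub_sq, sum_add_distrib, sum_sub_distrib, ← mul_sum, ← sum_mul,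
    t1, t2, sum_const, card_univ, Fintype.card_fin, nsmul_eq_mul]
  ring

theorem av1_odd {Ω : Type} [Fintype Ω] (f : Ω × Ω → ℝ) (h : ∀ a, f a.swap = -f a) :
    𝔼 a, f a = 0 := by
  have e : 𝔼 a, f a = 𝔼 a, -f a :=
    (Fintype.expect_equiv (Equiv.prodComm Ω Ω) _ _ fun a => (h a).symm).symm
  rw [expect_neg_distrib] at e
  linarith

theorem av1_pt {L : ℝ} (hL : 0 < L) (t : ℝ) : t ^ 2 / L - 4 / 27 * t ^ 4 / L ^ 3 ≤ |t| := by
  obtain ⟨x, hx, e⟩ : ∃ x, 0 ≤ x ∧ |t| = x * L := ⟨|t| / L, by positivity, by field_simp⟩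
  have e2 : t ^ 2 = x ^ 2 * L ^ 2 := by rw [← sq_abs, e, mul_pow]
  have e4 : t ^ 4 = x ^ 4 * L ^ 4 := by rw [show t ^ 4 = (t ^ 2) ^ 2 by ring, e2]; ring
  have k : x ^ 2 - 4 / 27 * x ^ 4 ≤ x := by
    nlinarith [mul_nonneg (mul_nonneg hx (sq_nonneg (2 * x - 3))) (by linarith : 0 ≤ x + 3)]
  rw [e, e2, e4]
  calc _ = (x ^ 2 - 4 / 27 * x ^ 4) * L := by field_simp
    _ ≤ _ := mul_le_mul_of_nonneg_right k hL.le

theorem anti (hQ : 2 ≤ Q) (w : Pt m) (hw : ∀ k, w k = 1 ∨ w k = -1) :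
    Q * √m / 10 ≤ 𝔼 z : Fin m → Fin Q, 𝔼 z' : Fin m → Fin Q,
      |∑ k, (w k : ℝ) * (((z k : ℕ) : ℝ) - (z' k : ℕ))| := by
  rcases Nat.eq_zero_or_pos m with rfl | hm
  · simp
  have : Nonempty (Fin Q) := ⟨⟨0, by omega⟩⟩
  have hQ' : (2 : ℝ) ≤ Q := by exact_mod_cast hQ
  have hm' : (1 : ℝ) ≤ m := by exact_mod_cast hm
  have w2 : ∀ k, (w k : ℝ) ^ 2 = 1 := fun k => by rcases hw k with h | h <;> simp [h]
  set g : Fin m → Fin Q × Fin Q → ℝ := fun k a => (w k : ℝ) * (((a.1 : ℕ) : ℝ) - (a.2 : ℕ)) with hg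
  have v2 : ∀ k, 𝔼 a, g k a ^ 2 = ((Q : ℝ) ^ 2 - 1) / 6 := fun k => by
    simp only [hg, mul_pow, w2, one_mul]
    rw [Fintype.expect_eq_sum_div_card, av1_var]
    simp only [Fintype.card_prod, Fintype.card_fin]
    push_cast
    field_simp
  obtain ⟨k1, k2⟩ := av1_mom (A := (Q : ℝ) ^ 2 * ((Q ^ 2 - 1) / 6)) (by nlinarith) g
    (fun k => av1_odd _ fun a => by simp only [hg, Prod.fst_swap, Prod.snd_swap]; ring) v2
    (fun k => av1_odd _ fun a => by simp only [hg, Prod.fst_swap, Prod.snd_swap]; ring) fun k => by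
      rw [← v2 k, mul_expect]
      refine expect_le_expect fun a _ => ?_
      have b1 : ((a.1 : ℕ) : ℝ) ≤ Q := by exact_mod_cast a.1.2.le
      have b2 : ((a.2 : ℕ) : ℝ) ≤ Q := by exact_mod_cast a.2.2.le
      have b3 : g k a ^ 2 ≤ (Q : ℝ) ^ 2 := by
        simp only [hg, mul_pow, w2, one_mul]
        exact sq_le_sq' (by linarith [Nat.cast_nonneg (α := ℝ) (a.1 : ℕ)])
          (by linarith [Nat.cast_nonneg (α := ℝ) (a.2 : ℕ)])
      nlinarith [sq_nonneg (g k a)]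
  have e : 𝔼 z : Fin m → Fin Q, 𝔼 z' : Fin m → Fin Q,
      |∑ k, (w k : ℝ) * (((z k : ℕ) : ℝ) - (z' k : ℕ))| =
      𝔼 y : Fin m → Fin Q × Fin Q, |∑ k, g k (y k)| := by
    rw [← expect_product', univ_product_univ]
    exact (Fintype.expect_equiv (Equiv.arrowProdEquivProdArrow _ _ _) _ _ fun _ => rfl).symm
  obtain ⟨r, hr, er⟩ : ∃ r : ℝ, 1 ≤ r ∧ √m = r := ⟨_, Real.one_le_sqrt.2 hm', rfl⟩
  have em : (m : ℝ) = r ^ 2 := by rw [← er, Real.sq_sqrt (by positivity)]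
  have hL : 0 < 4 / 5 * (Q * r) := by positivity
  rw [e, er]
  refine le_trans ?_ (expect_le_expect fun y _ => av1_pt hL (∑ k, g k (y k)))
  simp only [expect_sub_distrib, ← expect_div, ← mul_expect]
  rw [k1]
  obtain ⟨s, hs⟩ : ∃ s : ℝ, ((Q : ℝ) ^ 2 - 1) / 6 = s * Q ^ 2 := ⟨(Q ^ 2 - 1) / 6 / Q ^ 2, by field_simp⟩
  have q0 : (0 : ℝ) < Q ^ 2 := by positivity
  have s1 : 1 / 8 ≤ s := le_of_mul_le_mul_right (by nlinarith) q0
  have s2 : s ≤ 1 / 6 := le_of_mul_le_mul_right (by nlinarith) q0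
  rw [hs, em] at k2
  rw [hs, em]
  have k3 : 𝔼 y : Fin m → Fin Q × Fin Q, (∑ k, g k (y k)) ^ 4 ≤ (s + 3 * s ^ 2) * (Q * r) ^ 4 := by
    refine k2.trans ?_
    have : r ^ 2 ≤ r ^ 4 := pow_le_pow_right₀ hr (by norm_num)
    nlinarith [mul_le_mul_of_nonneg_right this (by positivity : 0 ≤ s * (Q : ℝ) ^ 4)]
  have k4 : 4 / 27 * (𝔼 y : Fin m → Fin Q × Fin Q, (∑ k, g k (y k)) ^ 4) / (4 / 5 * (Q * r)) ^ 3 ≤
      125 / 432 * (s + 3 * s ^ 2) * (Q * r) := by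
    rw [div_le_iff₀ (by positivity)]
    nlinarith
  have k5 : r ^ 2 * (s * Q ^ 2) / (4 / 5 * (Q * r)) = 5 / 4 * s * (Q * r) := by field_simp
  have k6 : 1 / 10 ≤ 5 / 4 * s - 125 / 432 * (s + 3 * s ^ 2) := by nlinarith
  nlinarith [mul_le_mul_of_nonneg_right k6 (by positivity : 0 ≤ (Q : ℝ) * r)]

end Vale.Agent.P318.N
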