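import Vale.Agent.P318N.D

/-! Telescoping over the window. 𝔼 ξ, G ξ = 𝔼 ξ, 𝔼 b : Fin ρ, G (update ξ k b); pos z (update ξ k b) = face z ξ k (b + 1), st (face z ξ k b) k 1 = face z ξ k (b + 1); sum_range_sub. -/

open Finset
open scoped BigOperators

noncomputable section

namespace Vale.Agent.P318.N

variable {m S N τ η J B Q ρ : ℕ} {ε K : ℝ} {u : Dir S N m} {th : Fin S → Fin N → Fin τ}

theorem cu1_res (hρ : 0 < ρ) (G : (Fin m → Fin ρ) → ℝ) (k : Fin m) :
    𝔼 ξ, G ξ = 𝔼 ξ, 𝔼 b : Fin ρ, G (Function.update ξ k b) := by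
  have : Nonempty (Fin ρ) := ⟨⟨0, hρ⟩⟩
  have hi : Function.Involutive
      fun p : (Fin m → Fin ρ) × Fin ρ => (Function.update p.1 k p.2, p.1 k) := fun p => by simp
  rw [← expect_product' univ univ fun ξ (b : Fin ρ) => G (Function.update ξ k b), univ_product_univ,
    Fintype.expect_bijective _ hi.bijective _ (fun p => G p.1) fun _ => rfl, ← univ_product_univ,
    expect_product' univ univ fun ξ (_ : Fin ρ) => G ξ]
  simp only [Fintype.expect_const]

theorem cu1_pos (z : Fin m → Fin Q) (ξ : Fin m → Fin ρ) (k : Fin m) (b : Fin ρ) :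
    pos z (Function.update ξ k b) = face z ξ k (b + 1) := by
  funext l
  rcases eq_or_ne l k with rfl | h
  · simp [pos, face, add_assoc]
  · simp [pos, face, h]

theorem cu1_st (z : Fin m → Fin Q) (ξ : Fin m → Fin ρ) (k : Fin m) (b : ℕ) :
    st (face z ξ k b) k 1 = face z ξ k (b + 1) ∧ st (face z ξ k (b + 1)) k (-1) = face z ξ k b := by
  constructor <;> funext l <;> rcases eq_or_ne l k with rfl | h
  · simp [st, face, add_assoc]
  · simp [st, face, h]
  · simp [st, face, add_assoc]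
  · simp [st, face, h]

theorem cu1_tel (a : ℕ → ℝ) : 𝔼 b : Fin ρ, (a (b + 1) - a b) = (a ρ - a 0) / ρ := by
  rw [Fintype.expect_eq_sum_div_card, Fin.sum_univ_eq_sum_range (fun b => a (b + 1) - a b),
    sum_range_sub, Fintype.card_fin]

theorem win_fwd (hρ : 0 < ρ) (g : Pt m → ℝ) (z : Fin m → Fin Q) (k : Fin m) :
    𝔼 ξ : Fin m → Fin ρ, (g (st (pos z ξ) k 1) - g (pos z ξ)) =
      (𝔼 ξ : Fin m → Fin ρ, (g (face z ξ k (ρ + 1)) - g (face z ξ k 1))) / ρ := by
  rw [cu1_res hρ _ k, expect_div]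
  refine expect_congr rfl fun ξ _ => ?_
  simp only [cu1_pos, (cu1_st z ξ k _).1]
  exact cu1_tel fun b => g (face z ξ k (b + 1))

theorem win_bwd (hρ : 0 < ρ) (g : Pt m → ℝ) (z : Fin m → Fin Q) (k : Fin m) :
    𝔼 ξ : Fin m → Fin ρ, (g (pos z ξ) - g (st (pos z ξ) k (-1))) =
      (𝔼 ξ : Fin m → Fin ρ, (g (face z ξ k ρ) - g (face z ξ k 0))) / ρ := by
  rw [cu1_res hρ _ k, expect_div]
  refine expect_congr rfl fun ξ _ => ?_
  simp only [cu1_pos, (cu1_st z ξ k _).2]
  exact cu1_tel fun b => g (face z ξ k b)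

theorem pos_update (z : Fin m → Fin Q) (ξ : Fin m → Fin ρ) (k : Fin m) (h : (z k : ℕ) + 1 < Q) :
    pos (Function.update z k ⟨z k + 1, h⟩) ξ = st (pos z ξ) k 1 := by
  funext l
  rcases eq_or_ne l k with rfl | h
  · simp [pos, st]
    ring
  · simp [pos, st, h]

end Vale.Agent.P318.N
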