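import Vale.Agent.P318N.D

/-! The gradient in a chart. There is i such that for all k and σ = ±1 the condition of err holds for the pair (σ * u s i k, σ * u s i 0): if 2 ≤ #adj any i; else take i with adj ⊆ {i}; for j ∉ adj the label does not change under a step (1 ≤ res ≤ τ - 2), and dt (u s i) (st x k (σ * u s i k)) = dt (u s i) x + σ. Put Jmp = F (st x 0 (u i 0)) - F (st x 0 (-u i 0)), |Jmp| = ck. F (st x k 1) - F (st x k (-1)) = u i k * (F (st x k (u i k)) - F (st x k (-u i k))) = u i k * Jmp + errors; |v k| ≤ 1; the two error terms are two different terms of the double sum over σ, σ'. -/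

open Finset
open scoped BigOperators

noncomputable section

namespace Vale.Agent.P318.N

variable {m S N τ η J B Q ρ : ℕ} {ε K : ℝ} {u : Dir S N m} {th : Fin S → Fin N → Fin τ}

theorem pw_dt (w x : Pt m) (k : Fin m) (σ : ℤ) : dt w (st x k σ) = dt w x + w k * σ := by
  simp [dt, st, mul_add, sum_add_distrib, Pi.single_apply]

theorem pw_div {a δ t : ℤ} (ht : 0 < t) (h0 : a % t ≠ 0) (h1 : a % t ≠ t - 1)
    (hδ : δ = 1 ∨ δ = -1) : (a + δ) / t = a / t := by
  have k1 := Int.emod_nonneg a ht.ne'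
  have k2 := Int.emod_lt_of_pos a ht
  have e : a + δ = a % t + δ + t * (a / t) := by
    have := Int.emod_add_mul_ediv a t
    omega
  rw [e, Int.add_mul_ediv_left _ _ ht.ne', Int.ediv_eq_zero_of_lt (by omega) (by omega), zero_add]

theorem pw_ex [NeZero m] (hu : Sgn u) (hτ : 0 < τ) (hN : 0 < N) (th : Fin S → Fin N → Fin τ)
    (s : Fin S) (x : Pt m) : ∃ i, ∀ k, ∀ σ : ℤ, σ = 1 ∨ σ = -1 →
      (∀ j, lab u th s j (st x k (σ * u s i k)) = lab u th s j (st x 0 (σ * u s i 0))) ∨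
        2 ≤ #(adj u th s x) := by
  by_cases h : 2 ≤ #(adj u th s x)
  · exact ⟨⟨0, hN⟩, fun _ _ _ => Or.inr h⟩
  have : Nonempty (Fin N) := ⟨⟨0, hN⟩⟩
  obtain ⟨i, hi⟩ := card_le_one_iff_subset_singleton.1 (Nat.lt_succ_iff.1 (not_le.1 h))
  refine ⟨i, fun k σ hσ => Or.inl fun j => ?_⟩
  simp only [lab, pw_dt]
  by_cases e : j = i
  · have k1 : ∀ k, u s i k * (σ * u s i k) = σ := fun k => by
      rcases hu s i k with h | h <;> rw [h] <;> ring
    rw [e, k1, k1]
  · have k1 : ¬ (res u th s j x = 0 ∨ res u th s j x = τ - 1) := fun h =>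
      e (mem_singleton.1 (hi (mem_filter.2 ⟨mem_univ j, h⟩)))
    have k2 : ∀ k, (dt (u s j) x + u s j k * (σ * u s i k) + (th s j : ℕ)) / τ =
        (dt (u s j) x + (th s j : ℕ)) / τ := fun k => by
      rw [add_right_comm]
      refine pw_div (by exact_mod_cast hτ) (fun h => k1 (Or.inl h)) (fun h => k1 (Or.inr h)) ?_
      rcases hu s i k with h | h <;> rcases hu s j k with h' | h' <;> rcases hσ with h'' | h'' <;>
        simp [h, h', h'']
    rw [k2, k2]

theorem pw_alg {v : ℝ} (hv : |v| ≤ 1) (A B C D : ℝ) :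
    v * (A - B) ≤ v * (C - D) + (|A - C| + |B - D|) := by
  have k : ∀ y : ℝ, |v * y| ≤ |y| := fun y => by
    rw [abs_mul]
    exact mul_le_of_le_one_left (abs_nonneg y) hv
  linarith [(abs_le.1 (k (A - C))).2, (abs_le.1 (k (B - D))).1]

theorem pw [NeZero m] (hu : Sgn u) (hτ : 0 < τ) (hN : 0 < N) (F : Vx S m → ℝ) (s : Fin S) (x : Pt m)
    {v : Fin m → ℝ} (hv : ∑ k, v k ^ 2 ≤ 1) (hK : ∀ i, |∑ k, (u s i k : ℝ) * v k| ≤ K) :
    ∑ k, v k * (F (s, st x k 1) - F (s, st x k (-1))) ≤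
      K * ck F (s, st x 0 1) (s, st x 0 (-1)) + err u th (ck F) s x := by
  obtain ⟨i, hi⟩ := pw_ex hu hτ hN th s x
  have k1 : ∑ k, u s i k * v k * (u s i 0 * (F (s, st x 0 1) - F (s, st x 0 (-1)))) ≤
      K * ck F (s, st x 0 1) (s, st x 0 (-1)) := by
    rw [← sum_mul]
    refine (le_abs_self _).trans ?_
    rw [abs_mul, abs_mul, ck]
    refine mul_le_mul (hK i) ?_ (by positivity) ((abs_nonneg _).trans (hK i))
    rcases hu s i 0 with h | h <;> simp [h]
  refine le_trans ?_ (add_le_add k1 le_rfl)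
  rw [err, ← sum_add_distrib]
  refine sum_le_sum fun k _ => ?_
  have k2 : |v k| ≤ 1 := sq_le_one_iff_abs_le_one _ |>.1
    ((single_le_sum (fun k _ => sq_nonneg (v k)) (mem_univ k)).trans hv)
  have k3 := hi k 1 (Or.inl rfl)
  have k4 := hi k (-1) (Or.inr rfl)
  have k5 : ∀ (P : Prop) [Decidable P] (p q : Vx S m), 0 ≤ if P then ck F p q else 0 :=
    fun P _ p q => by split_ifs; exacts [abs_nonneg _, le_rfl]
  have k6 := pw_alg k2 (F (s, st x k 1)) (F (s, st x k (-1)))
  have n : (1 : ℤ) ≠ -1 := by decide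
  simp only [sum_pair n]
  rcases hu s i k with h | h <;> rcases hu s i 0 with h' | h' <;>
    simp only [h, h', mul_one, mul_neg, neg_neg] at k3 k4 ⊢ <;> rw [if_pos k3, if_pos k4] <;>
    simp only [ck] at k5 ⊢ <;> push_cast
  · refine (k6 (F (s, st x 0 1)) (F (s, st x 0 (-1)))).trans (add_le_add (le_of_eq (by ring)) ?_)
    exact add_le_add (le_add_of_nonneg_right (k5 _ _ _)) (le_add_of_nonneg_left (k5 _ _ _))
  · refine (k6 (F (s, st x 0 (-1))) (F (s, st x 0 1))).trans (add_le_add (le_of_eq (by ring)) ?_)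
    exact add_le_add (le_add_of_nonneg_left (k5 _ _ _)) (le_add_of_nonneg_right (k5 _ _ _))
  · refine (k6 (F (s, st x 0 (-1))) (F (s, st x 0 1))).trans (add_le_add (le_of_eq (by ring)) ?_)
    exact add_le_add (le_add_of_nonneg_left (k5 _ _ _)) (le_add_of_nonneg_right (k5 _ _ _))
  · refine (k6 (F (s, st x 0 1)) (F (s, st x 0 (-1)))).trans (add_le_add (le_of_eq (by ring)) ?_)
    exact add_le_add (le_add_of_nonneg_right (k5 _ _ _)) (le_add_of_nonneg_left (k5 _ _ _))

end Vale.Agent.P318.N
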