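import Vale.Agent.P318N.CU1
import Vale.Agent.P318N.PW

/-! The smoothed gradient seen from a good chart. With f s b = 𝔼 ξ, F (s, face z ξ k b): dk Wb z k = 𝔼 s', (f s' (ρ+1) - f s' 1) / ρ if z k + 1 < Q (pos_update, win_fwd), and 𝔼 ξ, (F (s, st x k 1) - F (s, st x k (-1))) = (f s (ρ+1) + f s ρ - f s 1 - f s 0) / ρ (win_fwd + win_bwd). Hence |dk Wb z k - (1/2) 𝔼 ξ, (..)| ≤ (k-th term of fac) / (2ρ). Use |v k| ≤ 1 and pw at x = pos z ξ. -/

open Finset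
open scoped BigOperators

noncomputable section

namespace Vale.Agent.P318.N

variable {m S N τ η J B Q ρ : ℕ} {ε K : ℝ} {u : Dir S N m} {th : Fin S → Fin N → Fin τ}

/-- The smoothed cut. -/
def Wb (ρ : ℕ) (F : Vx S m → ℝ) (z : Fin m → Fin Q) : ℝ :=
  𝔼 s', 𝔼 ξ : Fin m → Fin ρ, F (s', pos z ξ)

theorem cu2_a {α β : Type} [Fintype α] [Fintype β] [Nonempty α] (A B : α → β → ℝ)
    (A0 C B0 D : β → ℝ) {a : ℝ} (ha : |a| ≤ 1) :
    a * (2 * (𝔼 s, 𝔼 x, (A s x - B s x)) - (𝔼 x, (A0 x - B0 x)) - 𝔼 x, (C x - D x)) ≤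
      𝔼 s, 𝔼 x, (|A s x - A0 x| + |A s x - C x| + |B s x - B0 x| + |B s x - D x|) := by
  have e : 2 * (𝔼 s, 𝔼 x, (A s x - B s x)) - (𝔼 x, (A0 x - B0 x)) - 𝔼 x, (C x - D x) =
      𝔼 s, 𝔼 x, (2 * (A s x - B s x) - (A0 x - B0 x) - (C x - D x)) := by
    simp only [expect_sub_distrib, ← mul_expect, expect_const univ_nonempty]
  rw [e, mul_expect]
  refine expect_le_expect fun s _ => ?_
  rw [mul_expect]
  refine expect_le_expect fun x _ => (le_abs_self _).trans ?_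
  rw [abs_mul]
  refine (mul_le_of_le_one_left (abs_nonneg _) ha).trans (abs_le.2 ⟨?_, ?_⟩) <;>
    linarith [le_abs_self (A s x - A0 x), neg_abs_le (A s x - A0 x), le_abs_self (A s x - C x),
      neg_abs_le (A s x - C x), le_abs_self (B s x - B0 x), neg_abs_le (B s x - B0 x),
      le_abs_self (B s x - D x), neg_abs_le (B s x - D x)]

theorem cu2_k (hρ : 0 < ρ) (F : Vx S m → ℝ) (s : Fin S) (z : Fin m → Fin Q) (k : Fin m) {a : ℝ}
    (ha : |a| ≤ 1) (h0 : ¬(z k : ℕ) + 1 < Q → a = 0) :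
    a * dk (Wb ρ F) z k ≤ (𝔼 ξ : Fin m → Fin ρ,
      a * (F (s, st (pos z ξ) k 1) - F (s, st (pos z ξ) k (-1)))) / 2 +
      (𝔼 s', 𝔼 ξ : Fin m → Fin ρ, (ck F (s', face z ξ k (ρ + 1)) (s, face z ξ k (ρ + 1)) +
        ck F (s', face z ξ k (ρ + 1)) (s, face z ξ k ρ) + ck F (s', face z ξ k 1) (s, face z ξ k 1) +
        ck F (s', face z ξ k 1) (s, face z ξ k 0))) / ρ / 2 := by
  have : Nonempty (Fin S) := ⟨s⟩
  have h := cu2_a (fun s' (ξ : Fin m → Fin ρ) => F (s', face z ξ k (ρ + 1)))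
    (fun s' ξ => F (s', face z ξ k 1)) (fun ξ => F (s, face z ξ k (ρ + 1)))
    (fun ξ => F (s, face z ξ k ρ)) (fun ξ => F (s, face z ξ k 1)) (fun ξ => F (s, face z ξ k 0)) ha
  replace h := div_le_div_of_nonneg_right h (Nat.cast_nonneg (α := ℝ) ρ)
  have e1 := win_fwd hρ (fun x => F (s, x)) z k
  have e2 := win_bwd hρ (fun x => F (s, x)) z k
  have e3 : a * dk (Wb ρ F) z k = a * ((𝔼 s', 𝔼 ξ : Fin m → Fin ρ,
      (F (s', face z ξ k (ρ + 1)) - F (s', face z ξ k 1))) / ρ) := by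
    by_cases hk : (z k : ℕ) + 1 < Q
    · rw [dk, dif_pos hk, Wb, Wb, ← expect_sub_distrib, expect_div]
      refine congrArg _ (expect_congr rfl fun s' _ => ?_)
      rw [← win_fwd hρ (fun x => F (s', x)) z k, expect_sub_distrib]
      simp only [pos_update]
    · simp [h0 hk]
  have e4 : 𝔼 ξ : Fin m → Fin ρ, (F (s, st (pos z ξ) k 1) - F (s, st (pos z ξ) k (-1))) =
      𝔼 ξ : Fin m → Fin ρ, (F (s, st (pos z ξ) k 1) - F (s, pos z ξ)) +
        𝔼 ξ : Fin m → Fin ρ, (F (s, pos z ξ) - F (s, st (pos z ξ) k (-1))) := by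
    rw [← expect_add_distrib]
    simp only [sub_add_sub_cancel]
  rw [e3, ← mul_expect, e4, e1, e2]
  simp only [ck]
  refine le_trans (le_of_eq ?_) (add_le_add le_rfl (div_le_div_of_nonneg_right h zero_le_two))
  ring

theorem grad_good [NeZero m] (hu : Sgn u) (hτ : 0 < τ) (hN : 0 < N) (hρ : 0 < ρ) (hK1 : 1 ≤ K)
    (F : Vx S m → ℝ) (s : Fin S) (z : Fin m → Fin Q) {v : Fin m → ℝ} (hv : ∑ k, v k ^ 2 ≤ 1)
    (hv0 : ∀ k, ¬(z k : ℕ) + 1 < Q → v k = 0) (hK : ∀ i, |∑ k, (u s i k : ℝ) * v k| ≤ K) :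
    ∑ k, v k * dk (Wb ρ F) z k ≤ K / 2 * (fac ρ (ck F) s z / ρ + 𝔼 ξ : Fin m → Fin ρ,
      (ck F (s, st (pos z ξ) 0 1) (s, st (pos z ξ) 0 (-1)) + err u th (ck F) s (pos z ξ))) := by
  have ha : ∀ k, |v k| ≤ 1 := fun k => (sq_le_one_iff_abs_le_one _).1
    ((single_le_sum (fun k _ => sq_nonneg (v k)) (mem_univ k)).trans hv)
  refine (sum_le_sum fun k _ => cu2_k hρ F s z k (ha k) (hv0 k)).trans ?_
  rw [sum_add_distrib, ← sum_div, ← sum_div, ← sum_div, ← expect_sum_comm]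
  have c0 : ∀ p q, 0 ≤ ck F p q := fun p q => abs_nonneg _
  have f0 : 0 ≤ fac ρ (ck F) s z / ρ := div_nonneg (sum_nonneg fun k _ => expect_nonneg fun _ _ =>
    expect_nonneg fun _ _ => add_nonneg (add_nonneg (add_nonneg (c0 _ _) (c0 _ _)) (c0 _ _))
      (c0 _ _)) (Nat.cast_nonneg _)
  have p : 𝔼 ξ : Fin m → Fin ρ,
      ∑ k, v k * (F (s, st (pos z ξ) k 1) - F (s, st (pos z ξ) k (-1))) ≤
      K * 𝔼 ξ : Fin m → Fin ρ, (ck F (s, st (pos z ξ) 0 1) (s, st (pos z ξ) 0 (-1)) +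
        err u th (ck F) s (pos z ξ)) := by
    rw [mul_expect]
    refine expect_le_expect fun ξ _ => (pw (th := th) hu hτ hN F s _ hv hK).trans ?_
    have : 0 ≤ err u th (ck F) s (pos z ξ) := sum_nonneg fun _ _ => sum_nonneg fun _ _ =>
      sum_nonneg fun _ _ => by split_ifs; exacts [c0 _ _, le_rfl]
    nlinarith
  change _ + fac ρ (ck F) s z / ρ / 2 ≤ _
  nlinarith

end Vale.Agent.P318.N
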