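import Vale.Agent.P318.Fin

/-! Definitions of the chart model. FROZEN. -/

open Finset
open scoped BigOperators

noncomputable section

namespace Vale.Agent.P318.N

/-- Points of the grid. -/
abbrev Pt (m : ℕ) := Fin m → ℤ

/-- Vertices: a chart and a point. -/
abbrev Vx (S m : ℕ) := Fin S × Pt m

/-- Directions of the charts. -/
abbrev Dir (S N m : ℕ) := Fin S → Fin N → Pt m

variable {m S N : ℕ}

/-- The scalar product. -/
def dt (u x : Pt m) : ℤ := ∑ k, u k * x k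

/-- All directions are sign vectors. -/
def Sgn (u : Dir S N m) : Prop := ∀ s i k, u s i k = 1 ∨ u s i k = -1

/-- A smoothed absolute value. -/
def th1 (η : ℕ) (δ : ℤ) : ℝ :=
  𝔼 j : Fin η, 𝔼 j' : Fin η, (|(δ : ℝ) + (j : ℕ) - (j' : ℕ)| - |((j : ℕ) : ℝ) - (j' : ℕ)|)

/-- A subgradient of `th1`. -/
def ph1 (η : ℕ) (δ : ℤ) : ℝ :=
  𝔼 j : Fin η, 𝔼 j' : Fin η, ((Int.sign (δ + (j : ℕ) - (j' : ℕ)) : ℤ) : ℝ)

/-- All charts see the same gradient field. -/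
def UC (u : Dir S N m) (η B : ℕ) (ε : ℝ) : Prop :=
  ∀ (s : Fin S) (w : Pt m) (k : Fin m), (∀ l, |w l| ≤ B) →
    |(𝔼 i, ph1 η (dt (u s i) w) * u s i k) - 𝔼 s', 𝔼 i, ph1 η (dt (u s' i) w) * u s' i k| ≤ ε / 2

open Classical in
/-- Half of the charts are nearly orthogonal to a given vector. -/
def GC (u : Dir S N m) (K : ℝ) : Prop :=
  ∀ v : Fin m → ℝ, ∑ k, v k ^ 2 ≤ 1 →
    S ≤ 2 * #(univ.filter fun s => ∀ i, |∑ k, (u s i k : ℝ) * v k| ≤ K)

/-- The box of vertices. -/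
def Box (S m B : ℕ) : Set (Vx S m) := {p | ∀ k, 0 ≤ p.2 k ∧ p.2 k ≤ B}

/-- Positive linear functionals of kernels on `R`. -/
structure Pos {V : Type} (R : Set V) (C : (V → V → ℝ) → ℝ) : Prop where
  add : ∀ k k', C (k + k') = C k + C k'
  smul : ∀ (c : ℝ) k, C (c • k) = c * C k
  mono : ∀ k k', (∀ p ∈ R, ∀ q ∈ R, k p q ≤ k' p q) → C k ≤ C k'

/-- Conditionally negative definite kernels. -/
def CND {V : Type} (d : V → V → ℝ) : Prop :=
  ∀ (n : ℕ) (x : Fin n → V) (c : Fin n → ℝ), ∑ i, c i = 0 → ∑ i, ∑ j, c i * c j * d (x i) (x j) ≤ 0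

/-- A step of the grid. -/
def st (x : Pt m) (k : Fin m) (σ : ℤ) : Pt m := x + Pi.single k σ

/-- A point of the outer window. -/
def opos {Q ρ : ℕ} (z : Fin m → Fin Q) (ξ : Fin m → Fin (ρ + 2)) : Pt m :=
  fun k => (z k : ℕ) + (ξ k : ℕ)

/-- A point of the inner window. -/
def pos {Q ρ : ℕ} (z : Fin m → Fin Q) (ξ : Fin m → Fin ρ) : Pt m :=
  fun k => (z k : ℕ) + (ξ k : ℕ) + 1

/-- A point of a face of the window. -/
def face {Q ρ : ℕ} (z : Fin m → Fin Q) (ξ : Fin m → Fin ρ) (k : Fin m) (b : ℕ) : Pt m :=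
  Function.update (pos z ξ) k ((z k : ℕ) + b)

/-- The demand samples. -/
abbrev Om (S m Q ρ : ℕ) := Fin S × (Fin m → Fin Q) × (Fin m → Fin (ρ + 2))

/-- The vertex of a sample. -/
def av {Q ρ : ℕ} (o : Om S m Q ρ) : Vx S m := (o.1, opos o.2.1 o.2.2)

/-- The forward difference on the discrete cube. -/
def dk {Q : ℕ} (f : (Fin m → Fin Q) → ℝ) (z : Fin m → Fin Q) (k : Fin m) : ℝ :=
  if h : (z k : ℕ) + 1 < Q then f (Function.update z k ⟨z k + 1, h⟩) - f z else 0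

/-- The kernel of a cut. -/
def ck {V : Type} (F : V → ℝ) (p q : V) : ℝ := |F p - F q|

/-- The face edges at `s, z`. -/
def fac {Q : ℕ} (ρ : ℕ) (κ : Vx S m → Vx S m → ℝ) (s : Fin S) (z : Fin m → Fin Q) : ℝ :=
  ∑ k, 𝔼 s', 𝔼 ξ : Fin m → Fin ρ,
    (κ (s', face z ξ k (ρ + 1)) (s, face z ξ k (ρ + 1)) + κ (s', face z ξ k (ρ + 1)) (s, face z ξ k ρ)
      + κ (s', face z ξ k 1) (s, face z ξ k 1) + κ (s', face z ξ k 1) (s, face z ξ k 0))

/-- The window edges. -/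
def win (Q ρ : ℕ) (κ : Vx S m → Vx S m → ℝ) : ℝ :=
  𝔼 o : Om S m Q ρ, 𝔼 s', 𝔼 ξ : Fin m → Fin ρ, κ (av o) (s', pos o.2.1 ξ)

section

variable (u : Dir S N m) {τ : ℕ} (th : Fin S → Fin N → Fin τ)

/-- The label of a point. -/
def lab (s : Fin S) (i : Fin N) (x : Pt m) : ℤ := (dt (u s i) x + (th s i : ℕ)) / τ

/-- The residue of a point. -/
def res (s : Fin S) (i : Fin N) (x : Pt m) : ℤ := (dt (u s i) x + (th s i : ℕ)) % τ

/-- The coordinates of a vertex. -/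
def yy (p : Vx S m) (s : Fin S) (i : Fin N) : ℤ :=
  dt (u s i) p.2 - if s = p.1 then S * res u th s i p.2 else 0

/-- The common part of the distance. -/
def sm (η : ℕ) (p q : Vx S m) : ℝ := 𝔼 s, 𝔼 i, th1 η (yy u th p s i - yy u th q s i)

/-- The metric of a chart. -/
def ds (ε : ℝ) (s : Fin S) (x x' : Pt m) : ℝ :=
  τ * (𝔼 i, |(lab u th s i x : ℝ) - lab u th s i x'|) + ε * ∑ k, |(x k : ℝ) - x' k|

/-- The private kernel at the scale `lam`. -/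
def kk (ε lam : ℝ) (p q : Vx S m) : ℝ :=
  if p.1 = q.1 then Real.exp (-(ds u th ε p.1 p.2 q.2 / lam)) else 0

/-- The private part of the distance. -/
def pv (ε : ℝ) (η J : ℕ) (p q : Vx S m) : ℝ :=
  ∑ j ∈ range (J + 1), (η : ℝ) / 2 ^ j * (1 - kk u th ε (η / 2 ^ j) p q)

/-- The distance. -/
def dd (ε : ℝ) (η J : ℕ) (p q : Vx S m) : ℝ := sm u th η p q + 16 * pv u th ε η J p q

/-- The hyperplanes next to a point. -/
def adj (s : Fin S) (x : Pt m) : Finset (Fin N) :=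
  univ.filter fun i => res u th s i x = 0 ∨ res u th s i x = τ - 1

variable [NeZero m]

open Classical in
/-- The cheap or rare edges at `s, x`. -/
def err (κ : Vx S m → Vx S m → ℝ) (s : Fin S) (x : Pt m) : ℝ :=
  ∑ k, ∑ σ ∈ ({1, -1} : Finset ℤ), ∑ σ' ∈ ({1, -1} : Finset ℤ),
    if (∀ i, lab u th s i (st x k σ) = lab u th s i (st x 0 σ')) ∨ 2 ≤ #(adj u th s x) then
      κ (s, st x k σ) (s, st x 0 σ') else 0

/-- The cost of a kernel. -/
def cost (Q ρ : ℕ) (κ : Vx S m → Vx S m → ℝ) : ℝ :=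
  win Q ρ κ / Q + 𝔼 s, 𝔼 z : Fin m → Fin Q, (fac ρ κ s z / ρ + 𝔼 ξ : Fin m → Fin ρ,
    (κ (s, st (pos z ξ) 0 1) (s, st (pos z ξ) 0 (-1)) + err u th κ s (pos z ξ)))

end

end Vale.Agent.P318.N
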