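import Vale.Agent.P318N.D

/-! Averages over the offsets. hermite: ∑ θ < τ, (a + θ) / τ = a (induction on a in both directions, or write a = q τ + r). A function of th that depends on one coordinate (s, i) (or two different ones) averages over that coordinate: for th : Fin S → Fin N → Fin τ use Fintype.piFinset counting, Equiv.piSplitAt / Function.update bijections or prod_univ_sum. avg_lab: monotone in a, so |..| is the difference. avg_adj: 2 ≤ #adj gives i ≠ j in adj; union bound; exactly one θ has (a + θ) % τ = c. -/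

open Finset
open scoped BigOperators

noncomputable section

namespace Vale.Agent.P318.N

variable {m S N τ η J B Q ρ : ℕ} {ε K : ℝ} {u : Dir S N m} {th : Fin S → Fin N → Fin τ}

theorem en1_prod {I A : Type} [Fintype I] [DecidableEq I] [Fintype A] (F : I → A → ℝ) :
    𝔼 x : I → A, ∏ i, F i (x i) = ∏ i, 𝔼 a, F i a := by
  simp only [Fintype.expect_eq_sum_div_card]
  rw [prod_div_distrib, prod_univ_sum, Fintype.piFinset_univ, prod_const, card_univ,
    Fintype.card_fun]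
  push_cast
  rfl

theorem en1_one {I A : Type} [Fintype I] [DecidableEq I] [Fintype A] [Nonempty A] (i : I)
    (f : A → ℝ) : 𝔼 x : I → A, f (x i) = 𝔼 a, f a := by
  have h := en1_prod fun k a => if k = i then f a else 1
  have e : ∀ k : I, (𝔼 a, if k = i then f a else 1) = if k = i then 𝔼 a, f a else 1 := by
    intro k
    split_ifs
    · rfl
    · exact Fintype.expect_const _
  simp only [e] at h
  simpa using h

theorem en1_two {I A : Type} [Fintype I] [DecidableEq I] [Fintype A] [Nonempty A] {i j : I}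
    (hij : i ≠ j) (f g : A → ℝ) :
    𝔼 x : I → A, f (x i) * g (x j) = (𝔼 a, f a) * 𝔼 a, g a := by
  have h := en1_prod fun k a => (if k = i then f a else 1) * if k = j then g a else 1
  have e : ∀ k : I, (𝔼 a, (if k = i then f a else 1) * if k = j then g a else 1) =
      (if k = i then 𝔼 a, f a else 1) * if k = j then 𝔼 a, g a else 1 := by
    intro k
    split_ifs with h1 h2
    · exact absurd (h1.symm.trans h2) hij
    · simp only [mul_one]
    · simp only [one_mul]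
    · exact Fintype.expect_const _
  simp only [e, prod_mul_distrib] at h
  simpa using h

theorem en1_step (hτ : 0 < τ) (a : ℤ) :
    ∑ θ ∈ range τ, (a + 1 + (θ : ℕ)) / (τ : ℤ) = ∑ θ ∈ range τ, (a + (θ : ℕ)) / (τ : ℤ) + 1 := by
  have h1 := sum_range_succ (fun θ : ℕ => (a + θ) / (τ : ℤ)) τ
  have h2 := sum_range_succ' (fun θ : ℕ => (a + θ) / (τ : ℤ)) τ
  have h3 : (a + τ) / (τ : ℤ) = a / τ + 1 := by
    have := Int.add_mul_ediv_right a 1 (show (τ : ℤ) ≠ 0 by omega)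
    rwa [one_mul] at this
  have h4 : ∑ θ ∈ range τ, (a + 1 + (θ : ℕ)) / (τ : ℤ) =
      ∑ θ ∈ range τ, (a + (θ + 1 : ℕ)) / (τ : ℤ) :=
    sum_congr rfl fun θ _ => by push_cast; rw [add_assoc, add_comm 1]
  simp only [Nat.cast_zero, add_zero] at h2
  rw [h4]
  linarith

theorem hermite (hτ : 0 < τ) (a : ℤ) : ∑ θ : Fin τ, (a + (θ : ℕ)) / (τ : ℤ) = a := by
  rw [Fin.sum_univ_eq_sum_range (fun θ : ℕ => (a + θ) / (τ : ℤ)) τ]
  induction a using Int.induction_on with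
  | zero =>
    refine sum_eq_zero fun θ hθ => ?_
    have := mem_range.1 hθ
    exact Int.ediv_eq_zero_of_lt (by omega) (by omega)
  | succ n ih => rw [en1_step hτ, ih]
  | pred n ih =>
    have := en1_step hτ (-(n : ℤ) - 1)
    rw [sub_add_cancel, ih] at this
    linarith

theorem en1_abs (hτ : 0 < τ) {a b : ℤ} (hab : b ≤ a) :
    ∑ θ : Fin τ, |(((a + (θ : ℕ)) / (τ : ℤ) : ℤ) : ℝ) - ((b + (θ : ℕ)) / (τ : ℤ) : ℤ)| =
      |(a : ℝ) - b| := by
  have e : ∀ θ : Fin τ, |(((a + (θ : ℕ)) / (τ : ℤ) : ℤ) : ℝ) - ((b + (θ : ℕ)) / (τ : ℤ) : ℤ)| =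
      (((a + (θ : ℕ)) / (τ : ℤ) : ℤ) : ℝ) - ((b + (θ : ℕ)) / (τ : ℤ) : ℤ) := fun θ =>
    abs_of_nonneg (sub_nonneg.2 (Int.cast_le.2 (Int.ediv_le_ediv (by omega) (by omega))))
  rw [sum_congr rfl fun θ _ => e θ, sum_sub_distrib, ← Int.cast_sum, ← Int.cast_sum, hermite hτ,
    hermite hτ, abs_of_nonneg (sub_nonneg.2 (Int.cast_le.2 hab))]

theorem en1_ind (τ : ℕ) (a : ℤ) :
    𝔼 θ : Fin τ, (if (a + (θ : ℕ)) % (τ : ℤ) = 0 ∨ (a + (θ : ℕ)) % (τ : ℤ) = τ - 1 then (1 : ℝ)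
      else 0) ≤ 2 / τ := by
  have h1 : ∀ c : ℤ, #(univ.filter fun θ : Fin τ => (a + (θ : ℕ)) % (τ : ℤ) = c) ≤ 1 := by
    intro c
    refine card_le_one.2 fun x hx y hy => ?_
    have e : a + (x : ℕ) ≡ a + (y : ℕ) [ZMOD τ] :=
      (mem_filter.1 hx).2.trans (mem_filter.1 hy).2.symm
    have e' : ((x : ℕ) : ℤ) % τ = ((y : ℕ) : ℤ) % τ := Int.ModEq.add_left_cancel' a e
    have hx' := x.2
    have hy' := y.2
    rw [Int.emod_eq_of_lt (by omega) (by omega), Int.emod_eq_of_lt (by omega) (by omega)] at e'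
    exact Fin.ext (by omega)
  rw [Fintype.expect_eq_sum_div_card, Fintype.card_fin, sum_boole, filter_or]
  refine div_le_div_of_nonneg_right ?_ (Nat.cast_nonneg _)
  exact_mod_cast (card_union_le _ _).trans (Nat.add_le_add (h1 _) (h1 _))

theorem avg_lab (hτ : 0 < τ) (u : Dir S N m) (s : Fin S) (i : Fin N) (x x' : Pt m) :
    𝔼 th : Fin S → Fin N → Fin τ, τ * |(lab u th s i x : ℝ) - lab u th s i x'| =
      |(dt (u s i) x : ℝ) - dt (u s i) x'| := by
  have : Nonempty (Fin τ) := ⟨⟨0, hτ⟩⟩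
  have h0 : (τ : ℝ) ≠ 0 := by positivity
  have h1 := en1_one s fun y : Fin N → Fin τ =>
    τ * |(((dt (u s i) x + (y i : ℕ)) / (τ : ℤ) : ℤ) : ℝ) - ((dt (u s i) x' + (y i : ℕ)) / (τ : ℤ) : ℤ)|
  have h2 := en1_one i fun θ : Fin τ =>
    τ * |(((dt (u s i) x + (θ : ℕ)) / (τ : ℤ) : ℤ) : ℝ) - ((dt (u s i) x' + (θ : ℕ)) / (τ : ℤ) : ℤ)|
  refine (h1.trans h2).trans ?_
  rw [Fintype.expect_eq_sum_div_card, Fintype.card_fin, ← mul_sum, mul_div_cancel_left₀ _ h0]
  rcases le_total (dt (u s i) x') (dt (u s i) x) with h | h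
  · exact en1_abs hτ h
  · rw [abs_sub_comm, ← en1_abs hτ h]
    exact sum_congr rfl fun θ _ => abs_sub_comm _ _

theorem avg_adj (hτ : 0 < τ) (u : Dir S N m) (s : Fin S) (x : Pt m) :
    𝔼 th : Fin S → Fin N → Fin τ, (if 2 ≤ #(adj u th s x) then (1 : ℝ) else 0) ≤
      4 * N ^ 2 / τ ^ 2 := by
  have : Nonempty (Fin τ) := ⟨⟨0, hτ⟩⟩
  obtain ⟨I, hI⟩ : ∃ I : Fin N → Fin τ → ℝ, I = fun i (θ : Fin τ) =>
      if (dt (u s i) x + (θ : ℕ)) % (τ : ℤ) = 0 ∨ (dt (u s i) x + (θ : ℕ)) % (τ : ℤ) = τ - 1 then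
        (1 : ℝ) else 0 := ⟨_, rfl⟩
  have I0 : ∀ i θ, 0 ≤ I i θ := fun i θ => by rw [hI]; positivity
  have I1 : ∀ i, 𝔼 θ, I i θ ≤ 2 / τ := fun i => by rw [hI]; exact en1_ind τ _
  have h1 : ∀ th : Fin S → Fin N → Fin τ, (if 2 ≤ #(adj u th s x) then (1 : ℝ) else 0) ≤
      ∑ p ∈ (univ : Finset (Fin N)).offDiag, I p.1 (th s p.1) * I p.2 (th s p.2) := by
    intro th
    have n0 : ∀ p ∈ (univ : Finset (Fin N)).offDiag, 0 ≤ I p.1 (th s p.1) * I p.2 (th s p.2) :=
      fun p _ => mul_nonneg (I0 _ _) (I0 _ _)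
    split_ifs with h
    · obtain ⟨i, hi, j, hj, hij⟩ := one_lt_card.1 h
      refine le_trans ?_ (single_le_sum n0 (a := (i, j))
        (mem_offDiag.2 ⟨mem_univ _, mem_univ _, hij⟩))
      have a : I i (th s i) = 1 := by rw [hI]; exact if_pos (mem_filter.1 hi).2
      have b : I j (th s j) = 1 := by rw [hI]; exact if_pos (mem_filter.1 hj).2
      simp only [a, b, mul_one, le_refl]
    · exact sum_nonneg n0
  refine (expect_le_expect fun th _ => h1 th).trans ?_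
  rw [expect_sum_comm]
  have h2 : ∀ p ∈ (univ : Finset (Fin N)).offDiag,
      𝔼 th : Fin S → Fin N → Fin τ, I p.1 (th s p.1) * I p.2 (th s p.2) ≤ 2 / τ * (2 / τ) := by
    intro p hp
    rw [en1_one s fun y : Fin N → Fin τ => I p.1 (y p.1) * I p.2 (y p.2),
      en1_two (mem_offDiag.1 hp).2.2]
    exact mul_le_mul (I1 _) (I1 _) (expect_nonneg fun _ _ => I0 _ _) (by positivity)
  refine (sum_le_card_nsmul _ _ _ h2).trans ?_
  have h3 : (#(univ : Finset (Fin N)).offDiag : ℝ) ≤ N ^ 2 := by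
    rw [offDiag_card, card_univ, Fintype.card_fin, sq]
    exact_mod_cast Nat.sub_le _ _
  rw [nsmul_eq_mul]
  refine (mul_le_mul_of_nonneg_right h3 (by positivity)).trans (le_of_eq ?_)
  ring

end Vale.Agent.P318.N
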