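import Vale.Agent.P318N.ExB

/-! Existence of the directions. -/

namespace Vale.Agent.P318.N

theorem ex_dir : ∃ m0 : ℕ, ∀ m ≥ m0, ∀ η B : ℕ, B ≤ 2 * m ^ 20 → ∃ u : Dir (m ^ 2) (m ^ 5) m,
    Sgn u ∧ UC u η B (1 / (8 * m)) ∧ GC u (2 * √(12 * Real.log m) + 1) := ex_dirB

end Vale.Agent.P318.N
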