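import Vale.Agent.P318N.ExU

/-! Existence of the directions for S = m², N = m⁵, B ≤ 2 m^20, ε = 1/(8m). -/

open Finset
open scoped BigOperators

noncomputable section

namespace Vale.Agent.P318.N

theorem ex_dirB : ∃ m0 : ℕ, ∀ m ≥ m0, ∀ η B : ℕ, B ≤ 2 * m ^ 20 → ∃ u : Dir (m ^ 2) (m ^ 5) m,
    Sgn u ∧ UC u η B (1 / (8 * m)) ∧ GC u (2 * √(12 * Real.log m) + 1) := by
  refine ⟨200000, fun m hm η B hB => ?_⟩
  have hx : (200000 : ℝ) ≤ m := by exact_mod_cast hm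
  have h0 : (0 : ℝ) < m := by linarith
  have h1 : (1 : ℝ) ≤ m := by linarith
  have he : (m : ℝ) ≤ Real.exp m := by linarith [Real.add_one_le_exp (m : ℝ)]
  refine exists_dir (by omega) (by positivity) (by positivity) (by positivity)
    (by linarith [Real.sqrt_nonneg (12 * Real.log m)]) ?_ ?_ ?_
  · have hB' : (B : ℝ) ≤ 2 * m ^ 20 := by exact_mod_cast hB
    have h20 : (1 : ℝ) ≤ m ^ 20 := one_le_pow₀ h1
    have hA : (2 * B + 1 : ℝ) ≤ Real.exp ((21 : ℕ) * m) := by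
      rw [Real.exp_nat_mul]
      calc (2 * B + 1 : ℝ) ≤ m ^ 20 * m := by nlinarith
        _ = m ^ 21 := by ring
        _ ≤ _ := pow_le_pow_left₀ h0.le he 21
    have hP : (2 * B + 1 : ℝ) ^ m ≤ Real.exp (m * ((21 : ℕ) * m)) := by
      rw [Real.exp_nat_mul]
      exact pow_le_pow_left₀ (by positivity) hA m
    have h4 : (m : ℝ) ^ 4 ≤ Real.exp ((4 : ℕ) * m) := by
      rw [Real.exp_nat_mul]
      exact pow_le_pow_left₀ h0.le he 4
    have hE : ((m ^ 5 : ℕ) : ℝ) * (1 / (8 * m)) ^ 2 / 128 = m ^ 3 / 8192 := by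
      push_cast; field_simp; ring
    have hF : Real.exp (m * ((21 : ℕ) * m)) * Real.exp (-(m ^ 3 / 8192)) *
        Real.exp ((4 : ℕ) * m) ≤ 1 := by
      rw [← Real.exp_add, ← Real.exp_add, Real.exp_le_one_iff]
      push_cast
      nlinarith [mul_le_mul_of_nonneg_right hx (sq_nonneg (m : ℝ)),
        mul_le_mul_of_nonneg_right hx h0.le]
    have hG : Real.exp (m * ((21 : ℕ) * m)) * Real.exp (-(m ^ 3 / 8192)) * m ^ 4 ≤ 1 :=
      le_trans (by gcongr) hF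
    rw [hE]
    calc ((m ^ 2 : ℕ) : ℝ) * ((2 * B + 1) ^ m * (m * (2 * Real.exp (-(m ^ 3 / 8192)))))
        ≤ ((m ^ 2 : ℕ) : ℝ) * (Real.exp (m * ((21 : ℕ) * m)) *
          (m * (2 * Real.exp (-(m ^ 3 / 8192))))) := by gcongr
      _ = 2 / m * (Real.exp (m * ((21 : ℕ) * m)) * Real.exp (-(m ^ 3 / 8192)) * m ^ 4) := by
          rw [Nat.cast_pow]; field_simp
      _ ≤ 2 / m * 1 := by gcongr
      _ < 1 / 2 := by rw [mul_one, div_lt_iff₀ h0]; linarith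
  · have hl : 0 ≤ 12 * Real.log m := mul_nonneg (by norm_num) (Real.log_nonneg h1)
    have hE : (2 * √(12 * Real.log m) + 1 - 1) ^ 2 / 2 = (24 : ℕ) * Real.log m := by
      rw [add_sub_cancel_right, mul_pow, Real.sq_sqrt hl]; push_cast; ring
    have h19 : (m : ℝ) ≤ m ^ 19 := le_self_pow₀ h1 (by norm_num)
    rw [hE, Real.exp_neg, Real.exp_nat_mul, Real.exp_log h0, Nat.cast_pow]
    calc (m : ℝ) ^ 5 * (2 * ((m : ℝ) ^ 24)⁻¹) = 2 / m ^ 19 := by field_simp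
      _ ≤ 1 / 16 := by rw [div_le_iff₀ (by positivity)]; linarith
  · have h2 : (2 * m + 1) * 2 ≤ 2 ^ m := by
      have h3 : m - 3 < 2 ^ (m - 3) := Nat.lt_two_pow_self
      have h4 : 2 ^ m = 2 ^ (m - 3) * 8 := by
        rw [show (8 : ℕ) = 2 ^ 3 from rfl, ← pow_add, Nat.sub_add_cancel (by omega)]
      omega
    have h5 : (2 * m + 1) ^ m * 2 ≤ 2 ^ m ^ 2 := by
      calc (2 * m + 1) ^ m * 2 ≤ (2 * m + 1) ^ m * 2 ^ m :=
            Nat.mul_le_mul_left _ (by omega)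
        _ = ((2 * m + 1) * 2) ^ m := (mul_pow _ _ _).symm
        _ ≤ (2 ^ m) ^ m := Nat.pow_le_pow_left h2 m
        _ = _ := by rw [← pow_mul, sq]
    have h6 : (2 * m + 1 : ℝ) ^ m * 2 ≤ 2 ^ m ^ 2 := by exact_mod_cast h5
    rw [one_div, inv_pow, ← div_eq_mul_inv, div_le_iff₀ (by positivity)]
    linarith

end Vale.Agent.P318.N
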