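import Vale.Agent.P318N.D

/-! Existence of the directions. -/

open Finset
open scoped BigOperators

noncomputable section

namespace Vale.Agent.P318.N

section

variable {ι X : Type} [Fintype X]

theorem xu_abs {f : X → ℝ} {c : ℝ} (hc : 0 ≤ c) (h : ∀ x, |f x| ≤ c) : |𝔼 x, f x| ≤ c := by
  cases isEmpty_or_nonempty X
  · simpa using hc
  · exact abs_le.2 ⟨le_expect univ_nonempty fun x _ => (abs_le.1 (h x)).1,
      expect_le univ_nonempty fun x _ => (abs_le.1 (h x)).2⟩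

open Classical in
/-- The uniform probability. -/
def xuP (E : X → Prop) : ℝ := 𝔼 x, if E x then 1 else 0

theorem xuP_le {E : X → Prop} {g : X → ℝ} (h0 : ∀ x, 0 ≤ g x) (h1 : ∀ x, E x → 1 ≤ g x) :
    xuP E ≤ 𝔼 x, g x :=
  expect_le_expect fun x _ => by
    split_ifs with h
    exacts [h1 x h, h0 x]

theorem xuP_ex (s : Finset ι) {E : ι → X → Prop} {c : ℝ} (h : ∀ i ∈ s, xuP (E i) ≤ c) :
    xuP (fun x => ∃ i ∈ s, E i x) ≤ #s * c := by
  classical
  refine (xuP_le (g := fun x => ∑ i ∈ s, if E i x then 1 else 0)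
    (fun x => sum_nonneg fun i _ => by positivity) fun x hx => ?_).trans ?_
  · obtain ⟨i, hi, hx⟩ := hx
    refine le_trans (by rw [if_pos hx]) (single_le_sum (f := fun i => if E i x then (1 : ℝ) else 0)
      (fun i _ => by positivity) hi)
  · rw [expect_sum_comm, ← nsmul_eq_mul]
    exact sum_le_card_nsmul _ _ _ h

theorem xuP_two [Nonempty X] {E F : X → Prop} (h : xuP E + xuP F < 1) : ∃ x, ¬E x ∧ ¬F x := by
  classical
  by_contra hc
  push Not at hc
  rw [xuP, xuP, ← expect_add_distrib] at h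
  refine h.not_ge (le_expect univ_nonempty fun x _ => ?_)
  by_cases hx : E x
  · rw [if_pos hx]
    split_ifs <;> norm_num
  · rw [if_neg hx, if_pos (hc x hx), zero_add]

variable [Fintype ι] [DecidableEq ι]

theorem xu_prod (f : ι → X → ℝ) : 𝔼 ω : ι → X, ∏ i, f i (ω i) = ∏ i, 𝔼 x, f i x := by
  simp only [expect_eq_sum_div_card, prod_div_distrib, prod_const, card_univ, Fintype.card_fun,
    Nat.cast_pow, prod_univ_sum, Fintype.piFinset_univ]

theorem xuP_marg [Nonempty X] (i : ι) (E : X → Prop) : xuP (fun ω : ι → X => E (ω i)) = xuP E := by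
  classical
  have := xu_prod (fun j x => if j = i then (if E x then (1 : ℝ) else 0) else 1)
  simp only [prod_ite_eq', mem_univ, if_true] at this
  rw [xuP, xuP, this, Fintype.prod_eq_single i fun j hj => by simp [hj]]
  simp

theorem xu_mgf [Nonempty X] {Y : X → ℝ} {c : ℝ} (h0 : 𝔼 x, Y x = 0) (h : ∀ x, |Y x| ≤ c) (t : ℝ) :
    𝔼 x, Real.exp (t * Y x) ≤ Real.exp (t ^ 2 * c ^ 2 / 2) := by
  rcases ((abs_nonneg _).trans (h (Classical.arbitrary X))).eq_or_lt with hc | hc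
  · refine expect_le univ_nonempty fun x _ => ?_
    rw [abs_nonpos_iff.1 ((h x).trans hc.ge), ← hc]
    simp
  have h1 : ∀ x, Real.exp (t * Y x) ≤ Real.cosh (t * c) + Real.sinh (t * c) / c * Y x := fun x => by
    obtain ⟨a, b⟩ := abs_le.1 (h x)
    have := convexOn_exp.2 (Set.mem_univ (t * c)) (Set.mem_univ (-(t * c)))
      (show 0 ≤ (c + Y x) / (2 * c) by apply div_nonneg <;> linarith)
      (show 0 ≤ (c - Y x) / (2 * c) by apply div_nonneg <;> linarith) (by field_simp; ring)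
    rw [Real.cosh_eq, Real.sinh_eq]
    refine le_of_eq_of_le (congrArg _ ?_) (this.trans_eq ?_) <;> simp only [smul_eq_mul] <;>
      field_simp <;> ring
  refine (expect_le_expect fun x _ => h1 x).trans ?_
  rw [expect_add_distrib, expect_const univ_nonempty, ← mul_expect, h0, mul_zero, add_zero,
    ← mul_pow]
  exact Real.cosh_le_exp_half_sq _

theorem xu_hoeff [Nonempty X] {Y : ι → X → ℝ} {c : ι → ℝ} (h0 : ∀ i, 𝔼 x, Y i x = 0)
    (h : ∀ i x, |Y i x| ≤ c i) {V T : ℝ} (hV : 0 < V) (hT : 0 ≤ T) (hc : ∑ i, c i ^ 2 ≤ V) :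
    xuP (fun ω : ι → X => T < |∑ i, Y i (ω i)|) ≤ 2 * Real.exp (-(T ^ 2 / (2 * V))) := by
  have h1 : ∀ t : ℝ, t ^ 2 = (T / V) ^ 2 → 𝔼 ω : ι → X,
      Real.exp (-(T ^ 2 / V)) * Real.exp (t * ∑ i, Y i (ω i)) ≤ Real.exp (-(T ^ 2 / (2 * V))) := by
    intro t ht
    simp only [mul_sum, Real.exp_sum]
    rw [← mul_expect, xu_prod fun i x => Real.exp (t * Y i x)]
    refine (mul_le_mul_of_nonneg_left (prod_le_prod (fun i _ => expect_nonneg fun _ _ =>
      (Real.exp_pos _).le) fun i _ => xu_mgf (h0 i) (h i) t) (Real.exp_pos _).le).trans ?_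
    rw [← Real.exp_sum, ← Real.exp_add, ← sum_div, ← mul_sum, ht]
    refine Real.exp_le_exp.2 ?_
    have h2 := mul_le_mul_of_nonneg_left hc (sq_nonneg (T / V))
    have h3 : (T / V) ^ 2 * V = T ^ 2 / V := by field_simp
    have h4 : T ^ 2 / (2 * V) = T ^ 2 / V / 2 := by field_simp
    linarith
  refine (xuP_le (g := fun ω => Real.exp (-(T ^ 2 / V)) * Real.exp (T / V * ∑ i, Y i (ω i)) +
    Real.exp (-(T ^ 2 / V)) * Real.exp (-(T / V) * ∑ i, Y i (ω i)))
    (fun ω => by positivity) fun ω hω => ?_).trans ?_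
  · have h3 : T / V * T = T ^ 2 / V := by field_simp
    have h4 := mul_le_mul_of_nonneg_left hω.le (div_nonneg hT hV.le)
    rw [← Real.exp_add, ← Real.exp_add]
    rcases abs_choice (∑ i, Y i (ω i)) with e | e <;> rw [e] at h4
    · exact le_add_of_le_of_nonneg (Real.one_le_exp (by linarith)) (Real.exp_pos _).le
    · exact le_add_of_nonneg_of_le (Real.exp_pos _).le (Real.one_le_exp (by linarith))
  · rw [expect_add_distrib, two_mul]
    exact add_le_add (h1 _ rfl) (h1 _ (neg_sq _))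

theorem xu_half [Nonempty X] {E : X → Prop} (h : xuP E ≤ 1 / 16) [DecidablePred E] :
    xuP (fun ω : ι → X => 2 * #(univ.filter fun i => ¬E (ω i)) < Fintype.card ι) ≤
      (1 / 2) ^ Fintype.card ι := by
  refine (xuP_le (g := fun ω => ∏ i, if E (ω i) then 4 else 1 / 4)
    (fun ω => prod_nonneg fun i _ => by split_ifs <;> norm_num) fun ω hω => ?_).trans ?_
  · have h1 := card_filter_add_card_filter_not (s := univ) fun i => E (ω i)
    rw [card_univ] at h1
    rw [prod_ite, prod_const, prod_const, one_div, inv_pow, ← div_eq_mul_inv,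
      one_le_div (by positivity)]
    exact pow_le_pow_right₀ (by norm_num) (by omega)
  · rw [xu_prod fun (_ : ι) x => if E x then (4 : ℝ) else 1 / 4, prod_const, card_univ]
    have h2 : 𝔼 x, (if E x then (4 : ℝ) else 1 / 4) = 1 / 4 + 15 / 4 * xuP E := by
      rw [xuP, mul_expect, ← expect_const (univ_nonempty (α := X)) (1 / 4 : ℝ),
        ← expect_add_distrib]
      refine expect_congr rfl fun x _ => ?_
      split_ifs <;> norm_num
    exact pow_le_pow_left₀ (expect_nonneg fun x _ => by split_ifs <;> norm_num) (by linarith) _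

end

variable {m S N : ℕ}

/-- The sign vector of a bit vector. -/
def xuS (b : Fin m → Bool) : Pt m := fun k => if b k then 1 else -1

theorem xu_ph (η : ℕ) (δ : ℤ) : |ph1 η δ| ≤ 1 :=
  xu_abs zero_le_one fun _ => xu_abs zero_le_one fun _ => by
    rcases Int.sign_trichotomy _ with e | e | e <;> rw [e] <;> simp

theorem xu_one {w : Pt m} {T : ℝ} (hm : 1 ≤ m) (hT : 0 ≤ T)
    (hw : ∑ k, (w k : ℝ) ^ 2 ≤ (m : ℝ) ^ 2) :
    xuP (fun b : Fin m → Bool => T * m < |∑ k, (xuS b k : ℝ) * w k|) ≤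
      2 * Real.exp (-(T ^ 2 / 2)) := by
  have h0 : (0 : ℝ) < m := by exact_mod_cast hm
  refine (xu_hoeff (Y := fun k (b : Bool) => ((if b then 1 else -1 : ℤ) : ℝ) * w k)
    (c := fun k => |(w k : ℝ)|) (V := (m : ℝ) ^ 2) (T := T * m) (fun k => ?_) (fun k b => ?_)
    (by positivity) (by positivity) (by simpa only [sq_abs] using hw)).trans_eq ?_
  · simp [expect_eq_sum_div_card]
  · cases b <;> simp
  · congr 3
    field_simp

theorem xu_round (v : Fin m → ℝ) (hv : ∑ k, v k ^ 2 ≤ 1) : ∃ w : Pt m,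
    w ∈ Fintype.piFinset (fun _ => Icc (-(m : ℤ)) m) ∧ ∑ k, (w k : ℝ) ^ 2 ≤ (m : ℝ) ^ 2 ∧
      ∀ k, |m * v k - w k| ≤ 1 := by
  have h : ∀ x : ℝ, ∃ z : ℤ, |(z : ℝ)| ≤ |x| ∧ |x - z| ≤ 1 := fun x => by
    rcases le_total 0 x with h | h
    · have h1 : (0 : ℝ) ≤ ⌊x⌋ := by exact_mod_cast Int.floor_nonneg.2 h
      exact ⟨⌊x⌋, abs_le_abs (Int.floor_le x) (by linarith),
        abs_le.2 ⟨by linarith [Int.floor_le x], by linarith [Int.lt_floor_add_one x]⟩⟩
    · have h1 : (⌈x⌉ : ℝ) ≤ 0 := by exact_mod_cast Int.ceil_nonpos.2 h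
      rw [abs_of_nonpos h]
      exact ⟨⌈x⌉, abs_le.2 ⟨by linarith [Int.le_ceil x], by linarith⟩,
        abs_le.2 ⟨by linarith [Int.ceil_lt_add_one x], by linarith [Int.le_ceil x]⟩⟩
  choose z h1 h2 using h
  have h3 : ∑ k, (z (m * v k) : ℝ) ^ 2 ≤ (m : ℝ) ^ 2 := by
    refine (sum_le_sum fun k _ => sq_le_sq.2 (h1 _)).trans ?_
    simp only [mul_pow, ← mul_sum]
    exact mul_le_of_le_one_right (sq_nonneg _) hv
  refine ⟨fun k => z (m * v k), Fintype.mem_piFinset.2 fun k => mem_Icc.2 (abs_le.1 ?_), h3,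
    fun k => h2 _⟩
  have h4 := (single_le_sum (f := fun k => (z (m * v k) : ℝ) ^ 2) (fun k _ => sq_nonneg _)
    (mem_univ k)).trans h3
  exact_mod_cast abs_le_of_sq_le_sq h4 (Nat.cast_nonneg _)

theorem exists_dir {η B : ℕ} {ε K : ℝ} (hm : 1 ≤ m) (hS : 0 < S) (hN : 0 < N) (hε : 0 < ε)
    (hK : 1 ≤ K)
    (hUC : (S : ℝ) * ((2 * B + 1) ^ m * (m * (2 * Real.exp (-(N * ε ^ 2 / 128))))) < 1 / 2)
    (hG1 : (N : ℝ) * (2 * Real.exp (-((K - 1) ^ 2 / 2))) ≤ 1 / 16)
    (hG2 : (2 * m + 1 : ℝ) ^ m * (1 / 2) ^ S ≤ 1 / 2) :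
    ∃ u : Dir S N m, Sgn u ∧ UC u η B ε ∧ GC u K := by
  classical
  have hN' : (0 : ℝ) < N := by exact_mod_cast hN
  have hm' : (0 : ℝ) < m := by exact_mod_cast hm
  haveI : Nonempty (Fin S) := ⟨⟨0, hS⟩⟩
  have hs : ∀ (b : Fin m → Bool) k, |(xuS b k : ℝ)| = 1 := fun b k => by
    unfold xuS
    split_ifs <;> simp
  obtain ⟨g, hg⟩ : ∃ g : Pt m → Fin m → (Fin m → Bool) → ℝ,
      ∀ w k b, g w k b = ph1 η (dt (xuS b) w) * xuS b k := ⟨_, fun _ _ _ => rfl⟩
  have g1 : ∀ w k b, |g w k b| ≤ 1 := fun w k b => by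
    rw [hg, abs_mul, hs, mul_one]
    exact xu_ph _ _
  have card : ∀ n : ℕ, (#(Fintype.piFinset fun _ : Fin m => Icc (-(n : ℤ)) n) : ℝ) =
      (2 * n + 1) ^ m := fun n => by
    rw [Fintype.card_piFinset, prod_const, card_univ, Fintype.card_fin, Int.card_Icc,
      show ((n : ℤ) + 1 - -n).toNat = 2 * n + 1 by omega]
    push_cast
    rfl
  have h1 := xuP_ex (X := Fin S → Fin N → Fin m → Bool) univ (E := fun s ω =>
      ∃ w ∈ Fintype.piFinset fun _ : Fin m => Icc (-(B : ℤ)) B, ∃ k ∈ univ,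
        N * ε / 4 < |∑ i, (g w k (ω s i) - 𝔼 b, g w k b)|) fun s _ =>
    xuP_ex _ fun w _ => xuP_ex _ fun k _ => (xuP_marg s fun a : Fin N → Fin m → Bool =>
      N * ε / 4 < |∑ i, (g w k (a i) - 𝔼 b, g w k b)|).trans_le
      (xu_hoeff (Y := fun _ a => g w k a - 𝔼 b, g w k b) (c := fun _ => 2) (V := 4 * N)
        (fun _ => by rw [expect_sub_distrib, expect_const univ_nonempty, sub_self])
        (fun _ a => (abs_sub _ _).trans (by
          linarith [g1 w k a, xu_abs zero_le_one (g1 w k)])) (by positivity) (by positivity)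
        (by simp; linarith))
  have h2 := xuP_ex (X := Fin S → Fin N → Fin m → Bool)
    ((Fintype.piFinset fun _ : Fin m => Icc (-(m : ℤ)) m).filter fun w =>
      ∑ k, (w k : ℝ) ^ 2 ≤ (m : ℝ) ^ 2) (E := fun w ω => 2 * #(univ.filter fun s =>
        ¬∃ i ∈ univ, (K - 1) * m < |∑ k, (xuS (ω s i) k : ℝ) * w k|) < Fintype.card (Fin S))
    fun w hw => xu_half (E := fun a : Fin N → Fin m → Bool =>
      ∃ i ∈ univ, (K - 1) * m < |∑ k, (xuS (a i) k : ℝ) * w k|) ((xuP_ex _ fun i _ =>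
        (xuP_marg i fun b : Fin m → Bool => (K - 1) * m < |∑ k, (xuS b k : ℝ) * w k|).trans_le
          (xu_one hm (by linarith) (mem_filter.1 hw).2)).trans (by simpa using hG1))
  have h3 : (N * ε / 4) ^ 2 / (2 * (4 * N)) = N * ε ^ 2 / 128 := by
    field_simp
    norm_num
  rw [card, h3, card_univ, card_univ, Fintype.card_fin, Fintype.card_fin] at h1
  have h4 := h2.trans (mul_le_mul_of_nonneg_right (Nat.cast_le.2 (card_filter_le _ _))
    (by positivity))
  rw [card, Fintype.card_fin] at h4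
  obtain ⟨ω, a1, a2⟩ := xuP_two (add_lt_add_of_lt_of_le (h1.trans_lt hUC) (h4.trans hG2)
    |>.trans_eq (add_halves 1))
  push Not at a1 a2
  refine ⟨fun s i => xuS (ω s i), fun s i k => ?_, fun s w k hw => ?_, fun v hv => ?_⟩
  · simp only [xuS]
    split_ifs <;> simp
  · have a3 : ∀ s, |(𝔼 i, g w k (ω s i)) - 𝔼 b, g w k b| ≤ ε / 4 := fun s => by
      have := a1 s (mem_univ _) w (Fintype.mem_piFinset.2 fun l => mem_Icc.2 (abs_le.1 (hw l))) k
        (mem_univ _)
      rw [sum_sub_distrib, sum_const, card_univ, Fintype.card_fin, nsmul_eq_mul] at this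
      rw [expect_eq_sum_div_card, card_univ, Fintype.card_fin, div_sub' hN'.ne', abs_div,
        abs_of_pos hN', div_le_iff₀ hN']
      linarith
    have a4 := xu_abs (by positivity) a3
    rw [expect_sub_distrib, expect_const univ_nonempty] at a4
    simp only [← hg]
    linarith [abs_sub_le (𝔼 i, g w k (ω s i)) (𝔼 b, g w k b) (𝔼 s', 𝔼 i, g w k (ω s' i)), a3 s,
      abs_sub_comm (𝔼 b, g w k b) (𝔼 s', 𝔼 i, g w k (ω s' i))]
  · obtain ⟨w, b1, b2, b3⟩ := xu_round v hv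
    refine (a2 w (mem_filter.2 ⟨b1, b2⟩)).trans (Nat.mul_le_mul_left _ (card_le_card fun s hs' =>
      mem_filter.2 ⟨mem_univ _, fun i => ?_⟩))
    have b4 := (mem_filter.1 hs').2 i (mem_univ _)
    have b5 : |∑ k, (xuS (ω s i) k : ℝ) * (m * v k - w k)| ≤ m := by
      refine (abs_sum_le_sum_abs _ _).trans ((sum_le_card_nsmul _ _ 1 fun k _ => ?_).trans (by simp))
      rw [abs_mul, hs, one_mul]
      exact b3 k
    have b6 : m * ∑ k, (xuS (ω s i) k : ℝ) * v k = ∑ k, (xuS (ω s i) k : ℝ) * (m * v k - w k) +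
        ∑ k, (xuS (ω s i) k : ℝ) * w k := by
      rw [mul_sum, ← sum_add_distrib]
      exact sum_congr rfl fun k _ => by ring
    refine le_of_mul_le_mul_left ?_ hm'
    rw [← abs_of_pos hm', ← abs_mul, b6, abs_of_pos hm']
    linarith [abs_add_le (∑ k, (xuS (ω s i) k : ℝ) * (m * v k - w k))
      (∑ k, (xuS (ω s i) k : ℝ) * w k)]

end Vale.Agent.P318.N
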