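import Vale.Agent.P318.Fin

open Finset

noncomputable section

namespace Vale.Agent.P318N

open Vale.Agent.P318

/-- A weighted instance on `X` with vertex weights at least `1 / N` and gap at least `g`. -/
def Inst (N g : ℝ) : Prop :=
  ∃ (X : Type) (_ : Fintype X) (_ : DecidableEq X) (μ : X → ℝ) (w d : X → X → ℝ) (G E D : ℝ),
    ∑ x, μ x = 1 ∧ (∀ x, 1 ≤ N * μ x) ∧ (∀ x y, 0 ≤ w x y) ∧
    (∀ x y, d x y = d y x) ∧ (∀ x, d x x = 0) ∧ (∀ x y z, d x z ≤ d x y + d y z) ∧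
    (∀ c : X → ℝ, ∑ x, c x = 0 → ∑ x, ∑ y, c x * c y * d x y ≤ 0) ∧
    0 ≤ G ∧ 0 < E ∧ 0 < D ∧
    (∀ S : Finset X, G * ((∑ x ∈ S, μ x) * (1 - ∑ x ∈ S, μ x)) ≤
      ∑ x ∈ S, ∑ y ∈ Sᶜ, (w x y + w y x)) ∧
    ∑ x, ∑ y, w x y * d x y ≤ E ∧ D ≤ ∑ x, ∑ y, μ x * μ y * d x y ∧ g * E ≤ G * D

theorem negType_pull {X : Type} [Fintype X] [DecidableEq X] (d : X → X → ℝ)
    (hs : ∀ x y, d x y = d y x) (h0 : ∀ x, d x x = 0) (ht : ∀ x y z, d x z ≤ d x y + d y z)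
    (hn : ∀ c : X → ℝ, ∑ x, c x = 0 → ∑ x, ∑ y, c x * c y * d x y ≤ 0) {n : ℕ} (hn0 : 0 < n)
    (π : Fin n → X) : IsNegType fun i j => d (π i) (π j) := by
  refine ⟨neg_embed _ ⟨0, hn0⟩ (fun i j => hs _ _) (fun i => h0 _) fun c hc => ?_,
    fun i j k => ht _ _ _⟩
  have h1 := hn (fun y => ∑ v ∈ univ.filter fun v => π v = y, c v) (by
    have := fin_push π c (fun _ => (1 : ℝ))
    simpa [hc] using this)
  have h2 := fin_push2 π (fun v v' => c v * c v') d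
  simp only [← h2]
  refine le_of_eq_of_le ?_ h1
  refine sum_congr rfl fun y _ => sum_congr rfl fun y' _ => ?_
  rw [sum_mul_sum]

theorem sparsity_nonneg' {n : ℕ} {c : Fin n → Fin n → ℝ} (hc : IsCap c) : 0 ≤ sparsity c := by
  refine Real.sInf_nonneg ?_
  rintro _ ⟨S, -, -, rfl⟩
  refine div_nonneg (sum_nonneg fun i _ => sum_nonneg fun j _ => hc.1 i j)
    (mul_nonneg (Nat.cast_nonneg _) (sub_nonneg.2 ?_))
  exact_mod_cast (card_le_univ S).trans_eq (Fintype.card_fin n)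

theorem Inst.gap {N g : ℝ} (h : Inst N g) (hN : 0 < N) (n : ℕ) (hn2 : 2 ≤ n) (hn : N ≤ n) :
    ∃ c : Fin n → Fin n → ℝ, IsCap c ∧ 0 < glValue c ∧ g / 64 ≤ sparsity c / glValue c := by
  obtain ⟨X, _, _, μ, w, d, G, E, D, hs, hμ, hw, hsy, h0, ht, hng, hG, hE, hD, hcut, hen, hav,
    hg⟩ := h
  have hμ' : ∀ x, 1 ≤ n * μ x := fun x => by
    have h1 := hμ x
    have h2 : 0 ≤ μ x := by
      by_contra hc
      have := mul_neg_of_pos_of_neg hN (not_le.1 hc)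
      linarith
    exact h1.trans (mul_le_mul_of_nonneg_right hn h2)
  obtain ⟨c, hc, hgl, hle⟩ := gap_of_weighted μ hs n hn2 hμ' w hw d
    (negType_pull d hsy h0 ht hng (by omega)) hG hE hD hcut hen hav
  refine ⟨c, hc, hgl, (le_div_iff₀ hgl).2 ?_⟩
  have h1 : g * E * glValue c ≤ 64 * E * sparsity c :=
    (mul_le_mul_of_nonneg_right hg hgl.le).trans hle
  have h2 : E * (g / 64 * glValue c) ≤ E * sparsity c := by nlinarith
  exact le_of_mul_le_mul_left h2 hE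

theorem Inst.mono {N g N' g' : ℝ} (h : Inst N g) (hN : 0 < N) (h1 : N ≤ N') (h2 : g' ≤ g) :
    Inst N' g' := by
  obtain ⟨X, _, _, μ, w, d, G, E, D, hs, hμ, hw, hsy, h0, ht, hng, hG, hE, hD, hcut, hen, hav,
    hg⟩ := h
  refine ⟨X, inferInstance, inferInstance, μ, w, d, G, E, D, hs, fun x => ?_, hw, hsy, h0, ht, hng,
    hG, hE, hD, hcut, hen, hav, (mul_le_mul_of_nonneg_right h2 hE.le).trans hg⟩
  have h3 : 0 ≤ μ x := by
    by_contra hc
    have := mul_neg_of_pos_of_neg hN (not_le.1 hc)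
    linarith [hμ x]
  exact (hμ x).trans (mul_le_mul_of_nonneg_right h1 h3)

/-- uniform vertex weights -/
theorem inst_of_unif {X : Type} [Fintype X] [DecidableEq X] [Nonempty X] (w d : X → X → ℝ)
    {N g G E D : ℝ} (hN : (Fintype.card X : ℝ) ≤ N) (hw : ∀ x y, 0 ≤ w x y)
    (hs : ∀ x y, d x y = d y x) (h0 : ∀ x, d x x = 0) (ht : ∀ x y z, d x z ≤ d x y + d y z)
    (hn : ∀ c : X → ℝ, ∑ x, c x = 0 → ∑ x, ∑ y, c x * c y * d x y ≤ 0)
    (hG : 0 ≤ G) (hE : 0 < E) (hD : 0 < D)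
    (hcut : ∀ S : Finset X, G * ((S.card : ℝ) / Fintype.card X * (1 - S.card / Fintype.card X)) ≤
      ∑ x ∈ S, ∑ y ∈ Sᶜ, (w x y + w y x))
    (hen : ∑ x, ∑ y, w x y * d x y ≤ E)
    (hav : D * (Fintype.card X : ℝ) ^ 2 ≤ ∑ x, ∑ y, d x y) (hg : g * E ≤ G * D) : Inst N g := by
  have hc : (0 : ℝ) < Fintype.card X := by exact_mod_cast Fintype.card_pos
  refine ⟨X, inferInstance, inferInstance, fun _ => 1 / Fintype.card X, w, d, G, E, D, ?_,
    fun x => ?_, hw, hs, h0, ht, hn, hG, hE, hD, fun S => ?_, hen, ?_, hg⟩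
  · rw [sum_const, card_univ, nsmul_eq_mul]; field_simp
  · rw [mul_one_div, le_div_iff₀ hc]; linarith
  · simpa only [sum_const, nsmul_eq_mul, mul_one_div] using hcut S
  · simp only [← mul_sum]
    rw [show 1 / (Fintype.card X : ℝ) * (1 / Fintype.card X) = 1 / (Fintype.card X : ℝ) ^ 2 by
      field_simp, one_div, ← div_eq_inv_mul, le_div_iff₀ (by positivity)]
    exact hav

theorem glue_pick {A : ℝ} (hA : 1 ≤ A) (m0 : ℕ) : ∃ n0 : ℕ, ∀ n : ℕ, n0 ≤ n → ∃ m : ℕ,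
    m0 ≤ m ∧ 3 ≤ m ∧ Real.exp (A * m * Real.log m) ≤ n ∧
      Real.log n ≤ A * (m + 1) * Real.log (m + 1) := by
  set N1 := max m0 3 with hN1
  refine ⟨⌈Real.exp (A * N1 * Real.log N1)⌉₊, fun n hn => ?_⟩
  have h3 : (3 : ℝ) ≤ N1 := by exact_mod_cast le_max_right m0 3
  have hex : ∃ j : ℕ, (n : ℝ) <
      Real.exp (A * ((N1 + j : ℕ) + 1 : ℝ) * Real.log ((N1 + j : ℕ) + 1 : ℝ)) := by
    refine ⟨n, ?_⟩
    have hn0 : (0 : ℝ) ≤ n := Nat.cast_nonneg _
    have a0 : 1 ≤ Real.log ((N1 + n : ℕ) + 1 : ℝ) := by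
      rw [Real.le_log_iff_exp_le (by positivity)]
      push_cast
      linarith [Real.exp_one_lt_d9]
    have a1 : ((N1 + n : ℕ) + 1 : ℝ) ≤
        A * ((N1 + n : ℕ) + 1 : ℝ) * Real.log ((N1 + n : ℕ) + 1 : ℝ) := by
      have : (0 : ℝ) ≤ ((N1 + n : ℕ) + 1 : ℝ) := by positivity
      calc ((N1 + n : ℕ) + 1 : ℝ) = 1 * ((N1 + n : ℕ) + 1 : ℝ) * 1 := by ring
        _ ≤ _ := by gcongr
    have a2 := Real.add_one_le_exp (A * ((N1 + n : ℕ) + 1 : ℝ) * Real.log ((N1 + n : ℕ) + 1 : ℝ))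
    push_cast at a1 a2 ⊢
    linarith
  have hn0 : (0 : ℝ) < n := (Real.exp_pos _).trans_le (Nat.ceil_le.1 hn)
  refine ⟨N1 + Nat.find hex, (le_max_left _ _).trans (Nat.le_add_right _ _),
    (le_max_right _ _).trans (Nat.le_add_right _ _), ?_, ?_⟩
  · rcases h : Nat.find hex with _ | j
    · simpa using Nat.ceil_le.1 hn
    · have := Nat.find_min hex (m := j) (by omega)
      rw [not_lt] at this
      push_cast at this ⊢
      rwa [← add_assoc]
  · exact (Real.log_le_iff_le_exp hn0).2 (Nat.find_spec hex).le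

/-- from instances of size `exp (A m log m)` and gap `B √m / (log m) ^ p` to every `n` -/
theorem glue {A B p : ℝ} (hA : 1 ≤ A) (hB : 0 < B) (hp : 0 ≤ p) (m0 : ℕ)
    (h : ∀ m : ℕ, m0 ≤ m → Inst (Real.exp (A * m * Real.log m)) (B * √m / Real.log m ^ p)) :
    ∃ c0 : ℝ, 0 < c0 ∧ ∃ n0 : ℕ, ∀ n : ℕ, n0 ≤ n → ∃ c : Fin n → Fin n → ℝ, IsCap c ∧
      0 < glValue c ∧ c0 * √(Real.log n) / Real.log (Real.log n) ^ (p + 1 / 2) ≤
        sparsity c / glValue c := by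
  obtain ⟨n0, hn0⟩ := glue_pick hA m0
  have hA0 : 0 < A := by linarith
  have hsA : 0 < √A := Real.sqrt_pos.2 hA0
  refine ⟨B / (128 * √A), by positivity, n0, fun n hn => ?_⟩
  obtain ⟨m, hm0, hm3, hlo, hhi⟩ := hn0 n hn
  have h3 : (3 : ℝ) ≤ m := by exact_mod_cast hm3
  have hl1 : 1 ≤ Real.log m := by
    rw [Real.le_log_iff_exp_le (by linarith)]
    linarith [Real.exp_one_lt_d9]
  have hm : (m : ℝ) ≤ A * m * Real.log m := by
    calc (m : ℝ) = 1 * m * 1 := by ring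
      _ ≤ _ := by gcongr
  have hn3 : (3 : ℝ) ≤ n := by
    linarith [Real.add_one_le_exp (A * m * Real.log m)]
  obtain ⟨c, hc, hgl, hle⟩ := (h m hm0).gap (Real.exp_pos _) n
    (by exact_mod_cast (by linarith : (2 : ℝ) ≤ n)) hlo
  refine ⟨c, hc, hgl, le_trans ?_ hle⟩
  have hlo' : (m : ℝ) ≤ Real.log n :=
    hm.trans ((Real.le_log_iff_exp_le (by linarith)).2 hlo)
  have hll : Real.log m ≤ Real.log (Real.log n) := Real.log_le_log (by linarith) hlo'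
  have h2 : Real.log (m + 1) ≤ 2 * Real.log m := by
    rw [show 2 * Real.log m = Real.log ((m : ℝ) ^ 2) by rw [Real.log_pow]; norm_num]
    exact Real.log_le_log (by linarith) (by nlinarith)
  have hhi' : Real.log n ≤ 4 * (A * (m * Real.log m)) := by
    have hp1 : 0 ≤ Real.log ((m : ℝ) + 1) := Real.log_nonneg (by linarith)
    calc Real.log n ≤ A * (m + 1) * Real.log (m + 1) := hhi
      _ ≤ A * (2 * m) * (2 * Real.log m) := by gcongr; linarith
      _ = _ := by ring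
  have hs : √(Real.log n) ≤ 2 * (√A * (√m * √(Real.log m))) := by
    refine (Real.sqrt_le_sqrt hhi').trans (le_of_eq ?_)
    rw [Real.sqrt_mul (by norm_num), Real.sqrt_mul hA0.le, Real.sqrt_mul (by linarith),
      show (4 : ℝ) = 2 ^ 2 by norm_num, Real.sqrt_sq (by norm_num)]
  have hl0 : 0 < Real.log m := by linarith
  have hsl : 0 < √(Real.log m) := Real.sqrt_pos.2 hl0
  have hd : Real.log m ^ p * √(Real.log m) ≤ Real.log (Real.log n) ^ (p + 1 / 2) := by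
    rw [Real.sqrt_eq_rpow, ← Real.rpow_add hl0]
    exact Real.rpow_le_rpow hl0.le hll (by linarith)
  have hpp : 0 < Real.log m ^ p := Real.rpow_pos_of_pos hl0 p
  calc B / (128 * √A) * √(Real.log n) / Real.log (Real.log n) ^ (p + 1 / 2)
      ≤ B / (128 * √A) * (2 * (√A * (√m * √(Real.log m)))) /
          (Real.log m ^ p * √(Real.log m)) := by gcongr
    _ = B * √m / Real.log m ^ p / 64 := by field_simp; norm_num

/-- the case `p = 3 / 2` -/
theorem glue2 {A B : ℝ} (hA : 1 ≤ A) (hB : 0 < B) (m0 : ℕ)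
    (h : ∀ m : ℕ, m0 ≤ m →
      Inst (Real.exp (A * m * Real.log m)) (B * √m / (Real.log m * √(Real.log m)))) :
    ∃ c0 : ℝ, 0 < c0 ∧ ∃ n0 : ℕ, ∀ n : ℕ, n0 ≤ n → ∃ c : Fin n → Fin n → ℝ, IsCap c ∧
      0 < glValue c ∧ c0 * √(Real.log n) / Real.log (Real.log n) ^ 2 ≤
        sparsity c / glValue c := by
  have := glue (p := 3 / 2) hA hB (by norm_num) (max m0 2) fun m hm => by
    have h2 : (2 : ℝ) ≤ m := by exact_mod_cast (le_max_right _ _).trans hm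
    have hl0 : 0 < Real.log m := Real.log_pos (by linarith)
    have e : Real.log m ^ (3 / 2 : ℝ) = Real.log m * √(Real.log m) := by
      rw [Real.sqrt_eq_rpow, show (3 / 2 : ℝ) = 1 + 1 / 2 by norm_num, Real.rpow_add hl0,
        Real.rpow_one]
    rw [e]
    exact h m ((le_max_left _ _).trans hm)
  rw [show (3 / 2 + 1 / 2 : ℝ) = 2 by norm_num] at this
  simpa only [Real.rpow_two] using this

end Vale.Agent.P318N
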