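import Vale.Agent.P318N.Glue
import Vale.Agent.P318N.D

open Finset
open scoped BigOperators

noncomputable section

namespace Vale.Agent.P318.N

open Vale.Agent.P318N

theorem Pos.zero {V : Type} {R : Set V} {C : (V → V → ℝ) → ℝ} (h : Pos R C) : C 0 = 0 := by
  simpa using h.smul 0 0

theorem Pos.congr {V : Type} {R : Set V} {C : (V → V → ℝ) → ℝ} (h : Pos R C) {k k' : V → V → ℝ}
    (e : ∀ p ∈ R, ∀ q ∈ R, k p q = k' p q) : C k = C k' :=
  le_antisymm (h.mono _ _ fun p hp q hq => (e p hp q hq).le)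
    (h.mono _ _ fun p hp q hq => (e p hp q hq).ge)

theorem Pos.sum {V I : Type} {R : Set V} {C : (V → V → ℝ) → ℝ} (h : Pos R C) (T : Finset I)
    (k : I → V → V → ℝ) : C (∑ i ∈ T, k i) = ∑ i ∈ T, C (k i) := by
  classical
  induction T using Finset.induction_on with
  | empty => simpa using h.zero
  | insert a T ha ih => rw [sum_insert ha, sum_insert ha, h.add, ih]

/-- a positive functional is given by edge weights -/
theorem Pos.weights {V : Type} {R : Set V} {C : (V → V → ℝ) → ℝ} (h : Pos R C) [Fintype R] :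
    ∃ w : R → R → ℝ, (∀ x y, 0 ≤ w x y) ∧ ∀ k : V → V → ℝ,
      C k = ∑ x : R, ∑ y : R, w x y * k x y := by
  classical
  refine ⟨fun x y => C fun p q => if p = x.1 ∧ q = y.1 then 1 else 0, fun x y => ?_, fun k => ?_⟩
  · refine h.zero.ge.trans (h.mono _ _ fun p _ q _ => ?_)
    simp only [Pi.zero_apply]
    split_ifs <;> norm_num
  · have e : C k = C (∑ x : R, ∑ y : R,
        k x y • fun p q => if p = x.1 ∧ q = y.1 then (1 : ℝ) else 0) := by
      refine h.congr fun p hp q hq => ?_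
      simp only [Finset.sum_apply, Pi.smul_apply, smul_eq_mul]
      rw [sum_eq_single ⟨p, hp⟩, sum_eq_single ⟨q, hq⟩]
      · simp
      · intro y _ hy
        rw [if_neg, mul_zero]
        rintro ⟨-, h2⟩
        exact hy (Subtype.ext h2.symm)
      · simp
      · intro x _ hx
        refine sum_eq_zero fun y _ => ?_
        rw [if_neg, mul_zero]
        rintro ⟨h1, -⟩
        exact hx (Subtype.ext h1.symm)
      · simp
    rw [e, h.sum]
    refine sum_congr rfl fun x _ => ?_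
    rw [h.sum]
    refine sum_congr rfl fun y _ => ?_
    rw [h.smul, mul_comm]

/-- from a positive functional and demand samples to a weighted instance -/
theorem inst_of_pos {V Ω : Type} [Fintype Ω] [Nonempty Ω] {R : Set V} {C : (V → V → ℝ) → ℝ}
    (hC : Pos R C) (a : Ω → V) (ha : ∀ o, a o ∈ R) (hsur : ∀ p ∈ R, ∃ o, a o = p)
    (d : V → V → ℝ) (hs : ∀ p ∈ R, ∀ q ∈ R, d p q = d q p) (h0 : ∀ p ∈ R, d p p = 0)
    (ht : ∀ p ∈ R, ∀ q ∈ R, ∀ r ∈ R, d p r ≤ d p q + d q r) (hn : CND d)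
    {M g G E D : ℝ} (hM : (Fintype.card Ω : ℝ) ≤ M) (hG : 0 ≤ G) (hE : 0 < E) (hD : 0 < D)
    (hcut : ∀ F : V → ℝ, (∀ p, F p = 0 ∨ F p = 1) →
      G * ((𝔼 o, F (a o)) * (1 - 𝔼 o, F (a o))) ≤ C (ck F))
    (hen : C d ≤ E) (hav : D ≤ 𝔼 o, 𝔼 o', d (a o) (a o')) (hg : g * E ≤ G * D) : Inst M g := by
  classical
  have hfin : R.Finite := (Set.finite_range a).subset fun p hp => hsur p hp
  let _ : Fintype R := hfin.fintype
  obtain ⟨w, hw, hwk⟩ := hC.weights
  have hc : (0 : ℝ) < Fintype.card Ω := by exact_mod_cast Fintype.card_pos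
  let b : Ω → R := fun o => ⟨a o, ha o⟩
  let μ : R → ℝ := fun y => ∑ o ∈ univ.filter fun o => b o = y, (1 / Fintype.card Ω : ℝ)
  have hμ : ∀ F : R → ℝ, ∑ y, μ y * F y = 𝔼 o, F (b o) := fun F => by
    rw [fin_push b (fun _ => (1 / Fintype.card Ω : ℝ)) F, expect_eq_sum_div_card, card_univ,
      ← mul_sum]
    ring
  refine ⟨R, inferInstance, inferInstance, μ, w, fun x y => d x y, G, E, D, ?_, fun x => ?_, hw,
    fun x y => hs _ x.2 _ y.2, fun x => h0 _ x.2, fun x y z => ht _ x.2 _ y.2 _ z.2,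
    fun c hc0 => ?_, hG, hE, hD, fun T => ?_, ?_, ?_, hg⟩
  · simpa using hμ fun _ => 1
  · obtain ⟨o, ho⟩ := hsur x x.2
    have h1 : (1 / Fintype.card Ω : ℝ) ≤ μ x :=
      single_le_sum (f := fun _ : Ω => (1 / Fintype.card Ω : ℝ)) (fun _ _ => by positivity)
        (mem_filter.2 ⟨mem_univ o, Subtype.ext ho⟩)
    calc (1 : ℝ) = Fintype.card Ω * (1 / Fintype.card Ω) := by field_simp
      _ ≤ M * μ x := by gcongr; linarith
  · let e := (Fintype.equivFin R).symm
    have h1 := hn _ (fun i => (e i : V)) (fun i => c (e i)) (by rw [e.sum_comp c]; exact hc0)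
    rw [← e.sum_comp]
    simpa only [← e.sum_comp fun y => c (e _) * c y * d (e _) y] using h1
  · let F : V → ℝ := fun p => if ∃ x ∈ T, x.1 = p then 1 else 0
    have hF : ∀ x : R, F x = if x ∈ T then 1 else 0 := fun x => by
      have : (∃ y ∈ T, y.1 = x.1) ↔ x ∈ T :=
        ⟨fun ⟨y, hy, e⟩ => Subtype.ext e ▸ hy, fun hx => ⟨x, hx, rfl⟩⟩
      simp only [F, this]
    have h1 := hcut F fun p => by
      simp only [F]
      split_ifs <;> simp
    have h2 : ∑ x ∈ T, μ x = 𝔼 o, F (a o) := by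
      rw [← hμ fun x => F x]
      simp [hF]
    rw [h2, ← fin_cut_eq]
    refine h1.trans (le_of_eq ?_)
    rw [hwk]
    simp only [ck, hF]
  · rw [← hwk]; exact hen
  · refine hav.trans (le_of_eq ?_)
    rw [← hμ fun x => 𝔼 o', d x (a o')]
    refine sum_congr rfl fun x _ => ?_
    rw [← hμ fun y => d x y, mul_sum]
    exact sum_congr rfl fun y _ => by ring

end Vale.Agent.P318.N
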