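import Vale.Agent.P318N.D

/-! Bessel bound. With π y = ∏ j, kap lam (z j) (y j) (a probability on the product) and sc k b = cc (z k) b / kap lam (z k) b one has aa k = ∑ y, π y * sc k (y k) * H y, ∑ b, kap b * sc k b = ∑ b, cc = 0 and ∑ b, kap b * sc k b ^ 2 = ∑ b, cc² / kap ≤ Q * (Q / lam) (|cc| ≤ 1, kap ≥ lam / Q). So with A = ∑ k, aa k ^ 2 = ∑ y, π y * H y * (∑ k, aa k * sc k (y k)), Cauchy-Schwarz gives A² ≤ ∑ y, π y * (∑ k, aa k * sc k (y k))² = ∑ k, aa k ² * (∑ b, kap * sc²) ≤ A Q² / lam (orthogonality by prod_univ_sum / Fintype.piFinset_univ). -/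

open Finset
open scoped BigOperators

noncomputable section

namespace Vale.Agent.P318.N

variable {m S N τ η J B Q ρ : ℕ} {ε K : ℝ} {u : Dir S N m} {th : Fin S → Fin N → Fin τ}

/-- The resampling kernel. -/
def kap (lam : ℝ) (a b : Fin Q) : ℝ := (if a = b then 1 - lam else 0) + lam / Q

/-- The coefficients of the telescoping sum. -/
def cc (t b : Fin Q) : ℝ := (if b ≤ t then 1 else 0) - ((t : ℕ) + 1) / Q

/-- The dual vector field. -/
def aa (lam : ℝ) (H : (Fin m → Fin Q) → ℝ) (z : Fin m → Fin Q) (k : Fin m) : ℝ :=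
  ∑ y : Fin m → Fin Q, cc (z k) (y k) * (∏ j ∈ univ.erase k, kap lam (z j) (y j)) * H y

/-- The interpolation. -/
def gg (f H : (Fin m → Fin Q) → ℝ) (lam : ℝ) : ℝ :=
  𝔼 z : Fin m → Fin Q, f z * ∑ y : Fin m → Fin Q, (∏ j, kap lam (z j) (y j)) * H y

theorem lp1_orth {ι β : Type} [Fintype ι] [DecidableEq ι] [Fintype β] {p s : ι → β → ℝ}
    (h1 : ∀ j, ∑ b, p j b = 1) (h2 : ∀ k, ∑ b, p k b * s k b = 0) (k l : ι) :
    ∑ y : ι → β, (∏ j, p j (y j)) * (s k (y k) * s l (y l)) =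
      if k = l then ∑ b, p k b * s k b ^ 2 else 0 := by
  have e : ∀ y : ι → β, (∏ j, p j (y j)) * (s k (y k) * s l (y l)) =
      ∏ j, p j (y j) * ((if j = k then s k (y j) else 1) * if j = l then s l (y j) else 1) :=
    fun y => by simp only [prod_mul_distrib, prod_ite_eq', mem_univ, if_true]
  rw [sum_congr rfl fun y _ => e y, ← Fintype.prod_sum fun j b =>
    p j b * ((if j = k then s k b else 1) * if j = l then s l b else 1)]
  split_ifs with h
  · subst h
    rw [prod_eq_single k (fun j _ hj => by simp [hj, h1]) (by simp)]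
    simp [sq]
  · exact prod_eq_zero (mem_univ k) (by simp [h, h2])

theorem lp1_bessel {ι β : Type} [Fintype ι] [DecidableEq ι] [Fintype β] {p s : ι → β → ℝ} {C : ℝ}
    (hC : 0 < C) (h0 : ∀ j b, 0 ≤ p j b) (h1 : ∀ j, ∑ b, p j b = 1)
    (h2 : ∀ k, ∑ b, p k b * s k b = 0) (h3 : ∀ k, ∑ b, p k b * s k b ^ 2 ≤ C) {H : (ι → β) → ℝ}
    (hH : ∀ y, |H y| ≤ 1) {a : ι → ℝ}
    (ha : ∀ k, a k = ∑ y : ι → β, (∏ j, p j (y j)) * s k (y k) * H y) : ∑ k, a k ^ 2 ≤ C := by
  have e0 : ∑ y : ι → β, ∏ j, p j (y j) = 1 := by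
    rw [← Fintype.prod_sum]
    simp [h1]
  have e1 : ∑ y : ι → β, (∏ j, p j (y j)) * (H y * ∑ k, a k * s k (y k)) = ∑ k, a k ^ 2 := by
    simp only [mul_sum]
    rw [sum_comm]
    refine sum_congr rfl fun k _ => ?_
    rw [sq]
    nth_rewrite 2 [ha k]
    rw [sum_mul]
    exact sum_congr rfl fun y _ => by ring
  have e2 : ∑ y : ι → β, (∏ j, p j (y j)) * (∑ k, a k * s k (y k)) ^ 2 ≤ C * ∑ k, a k ^ 2 := by
    have e : ∀ y : ι → β, (∏ j, p j (y j)) * (∑ k, a k * s k (y k)) ^ 2 =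
        ∑ k, ∑ l, a k * a l * ((∏ j, p j (y j)) * (s k (y k) * s l (y l))) := fun y => by
      rw [sq, sum_mul_sum, mul_sum]
      refine sum_congr rfl fun k _ => ?_
      rw [mul_sum]
      exact sum_congr rfl fun l _ => by ring
    rw [sum_congr rfl fun y _ => e y, sum_comm, mul_sum]
    refine sum_le_sum fun k _ => ?_
    rw [sum_comm]
    simp only [← mul_sum, lp1_orth h1 h2, mul_ite, mul_zero, sum_ite_eq, mem_univ, if_true]
    rw [← sq, mul_comm]
    exact mul_le_mul_of_nonneg_right (h3 k) (sq_nonneg _)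
  have e3 : 2 * C * ∑ k, a k ^ 2 ≤ C ^ 2 + C * ∑ k, a k ^ 2 := by
    refine le_trans ?_ (add_le_add_right e2 _)
    rw [← e1, ← mul_one (C ^ 2), ← e0, mul_sum, mul_sum, ← sum_add_distrib]
    refine sum_le_sum fun y _ => ?_
    have k1 : 0 ≤ ∏ j, p j (y j) := prod_nonneg fun j _ => h0 j _
    have k2 : H y ^ 2 ≤ 1 := (sq_le_one_iff_abs_le_one _).2 (hH y)
    generalize ∑ k, a k * s k (y k) = T
    have k3 : 2 * C * (H y * T) ≤ C ^ 2 + T ^ 2 := by
      nlinarith [sq_nonneg (C * H y - T), mul_le_mul_of_nonneg_left k2 (sq_nonneg C)]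
    linarith [mul_le_mul_of_nonneg_left k3 k1]
  exact le_of_mul_le_mul_left (by linarith) hC

theorem lp1_cc (hQ : 0 < Q) (t : Fin Q) : ∑ b, cc t b = 0 ∧ ∀ b, cc t b ^ 2 ≤ 1 := by
  have q0 : (0 : ℝ) < Q := Nat.cast_pos.2 hQ
  constructor
  · have e : (univ.filter fun b : Fin Q => b ≤ t) = Iic t := by
      ext b
      simp
    simp only [cc, sum_sub_distrib, sum_boole, sum_const, card_univ, Fintype.card_fin, nsmul_eq_mul,
      e, Fin.card_Iic]
    push_cast
    field_simp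
    ring
  · intro b
    have k1 : (0 : ℝ) ≤ ((t : ℕ) + 1) / Q := by positivity
    have k2 : (((t : ℕ) : ℝ) + 1) / Q ≤ 1 := (div_le_one q0).2 (by exact_mod_cast t.2)
    unfold cc
    split_ifs <;> nlinarith

theorem aa_bessel {lam : ℝ} (h0 : 0 < lam) (h1 : lam ≤ 1) {H : (Fin m → Fin Q) → ℝ}
    (hH : ∀ y, |H y| ≤ 1) (z : Fin m → Fin Q) : ∑ k, aa lam H z k ^ 2 ≤ Q ^ 2 / lam := by
  rcases isEmpty_or_nonempty (Fin m) with hm | ⟨⟨k₀⟩⟩
  · rw [univ_eq_empty, sum_empty]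
    positivity
  have hQ : 0 < Q := (z k₀).pos
  have q0 : (0 : ℝ) < Q := Nat.cast_pos.2 hQ
  have k1 : ∀ a b : Fin Q, lam / Q ≤ kap lam a b := fun a b =>
    le_add_of_nonneg_left (by split_ifs <;> linarith)
  have k2 : ∀ a b : Fin Q, 0 < kap lam a b := fun a b => (div_pos h0 q0).trans_le (k1 a b)
  refine lp1_bessel (p := fun j b => kap lam (z j) b) (s := fun k b => cc (z k) b / kap lam (z k) b)
    (by positivity) (fun j b => (k2 _ _).le) (fun j => ?_) (fun k => ?_) (fun k => ?_) hH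
    fun k => ?_
  · simp only [kap, sum_add_distrib, sum_ite_eq, mem_univ, if_true, sum_const, card_univ,
      Fintype.card_fin, nsmul_eq_mul]
    field_simp
    ring
  · rw [← (lp1_cc hQ (z k)).1]
    exact sum_congr rfl fun b _ => mul_div_cancel₀ _ (k2 _ _).ne'
  · refine (sum_le_card_nsmul _ _ (Q / lam) fun b _ => ?_).trans_eq ?_
    · have e : kap lam (z k) b * (cc (z k) b / kap lam (z k) b) ^ 2 =
          cc (z k) b ^ 2 / kap lam (z k) b := by
        have := (k2 (z k) b).ne'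
        field_simp
      rw [e, ← one_div_div lam Q]
      exact div_le_div₀ zero_le_one ((lp1_cc hQ _).2 b) (div_pos h0 q0) (k1 _ _)
    · rw [card_univ, Fintype.card_fin, nsmul_eq_mul, sq, mul_div_assoc]
  · refine sum_congr rfl fun y _ => ?_
    have := (k2 (z k) (y k)).ne'
    rw [← mul_prod_erase univ (fun j => kap lam (z j) (y j)) (mem_univ k)]
    field_simp

end Vale.Agent.P318.N
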