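import Vale.Agent.P318N.LP1

/-! The derivative of the interpolation. d/dlam kap = 1/Q - [a = b]; HasDerivAt.finset_prod (fun_finsetProd). One dimensional identity (tele): for φ : Fin Q → ℝ, ∑ a, φ a * (1/Q - [a = b]) = ∑ t, (if t+1 < Q then φ (t+1) - φ t else 0) * cc t b (summation by parts / φ a - φ b as a telescoping sum). Sum over z by splitting off the coordinate k (Equiv.piSplitAt, Fin.insertNthEquiv, or the involution-free trick sum over z of F z = (1/Q) ∑ z, ∑ a, F (update z k a)). -/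

open Finset
open scoped BigOperators

noncomputable section

namespace Vale.Agent.P318.N

variable {m S N τ η J B Q ρ : ℕ} {ε K : ℝ} {u : Dir S N m} {th : Fin S → Fin N → Fin τ}

theorem lp2_key (φ : Fin Q → ℝ) : ∃ L : ℝ, ∀ a : Fin Q, ∑ t : Fin Q,
    (if h : (t : ℕ) + 1 < Q then φ ⟨t + 1, h⟩ - φ t else 0) * (if a ≤ t then 1 else 0) =
      L - φ a := by
  obtain ⟨ψ, hψ⟩ : ∃ ψ : ℕ → ℝ, ∀ n (h : n < Q), ψ n = φ ⟨n, h⟩ :=
    ⟨fun n => if h : n < Q then φ ⟨n, h⟩ else 0, fun n h => dif_pos h⟩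
  refine ⟨ψ (Q - 1), fun a => ?_⟩
  have ha := a.2
  calc _ = ∑ t : Fin Q, (fun n : ℕ => if n ∈ Ico (a : ℕ) (Q - 1) then ψ (n + 1) - ψ n else 0) t := by
        refine sum_congr rfl fun t _ => ?_
        simp only [mem_Ico, Fin.le_def]
        by_cases h : (t : ℕ) + 1 < Q
        · by_cases h' : (a : ℕ) ≤ t
          · rw [dif_pos h, if_pos h', if_pos ⟨h', by omega⟩, hψ _ h, hψ _ t.2, mul_one]
          · rw [if_neg h', if_neg fun k => h' k.1, mul_zero]
        · rw [dif_neg h, zero_mul, if_neg fun k => h (by omega)]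
    _ = _ := by
        rw [Fin.sum_univ_eq_sum_range
          (fun n : ℕ => if n ∈ Ico (a : ℕ) (Q - 1) then ψ (n + 1) - ψ n else 0) Q, sum_ite_mem,
          inter_eq_right.2 fun n hn => mem_range.2 (by have := (mem_Ico.1 hn).2; omega),
          sum_Ico_sub _ (by omega), hψ _ ha]

theorem lp2_cnt (t : Fin Q) : ∑ a : Fin Q, (if a ≤ t then (1 : ℝ) else 0) = (t : ℕ) + 1 := by
  rw [sum_boole, filter_ge_eq_Iic, Fin.card_Iic]
  push_cast
  rfl

theorem tele (φ : Fin Q → ℝ) (b : Fin Q) :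
    ∑ a, φ a * (1 / (Q : ℝ) - if a = b then 1 else 0) =
      ∑ t : Fin Q, (if h : (t : ℕ) + 1 < Q then φ ⟨t + 1, h⟩ - φ t else 0) * cc t b := by
  obtain ⟨L, hL⟩ := lp2_key φ
  have hQ : (Q : ℝ) ≠ 0 := Nat.cast_ne_zero.2 b.pos.ne'
  have h1 := sum_congr (rfl : (univ : Finset (Fin Q)) = univ) fun a _ => hL a
  rw [sum_comm, sum_sub_distrib, sum_const, card_univ, Fintype.card_fin, nsmul_eq_mul] at h1
  simp only [← mul_sum, lp2_cnt] at h1
  simp only [cc, mul_sub, sum_sub_distrib, hL, ← mul_div_assoc, ← sum_div, h1]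
  simp only [mul_ite, mul_one, mul_zero, sum_ite_eq', mem_univ, if_true]
  field_simp
  ring

theorem lp2_upd (k : Fin m) (F : (Fin m → Fin Q) → ℝ) :
    ∑ z, ∑ a, F (Function.update z k a) = Q * ∑ z, F z := by
  have inv : Function.Involutive fun p : (Fin m → Fin Q) × Fin Q =>
      (Function.update p.1 k p.2, p.1 k) := fun p => by simp
  have := Equiv.sum_comp inv.toPerm fun p => F p.1
  simpa [Fintype.sum_prod_type, mul_sum] using this

theorem lp2_one (f : (Fin m → Fin Q) → ℝ) (lam : ℝ) (k : Fin m) (y : Fin m → Fin Q) :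
    ∑ z, f z * ((∏ j ∈ univ.erase k, kap lam (z j) (y j)) *
        (1 / (Q : ℝ) - if z k = y k then 1 else 0)) =
      ∑ z, dk f z k * (cc (z k) (y k) * ∏ j ∈ univ.erase k, kap lam (z j) (y j)) := by
  have hQ : (Q : ℝ) ≠ 0 := Nat.cast_ne_zero.2 (y k).pos.ne'
  refine mul_left_cancel₀ hQ ?_
  rw [← lp2_upd k, ← lp2_upd k]
  refine sum_congr rfl fun z _ => ?_
  have e : ∀ a, ∏ j ∈ univ.erase k, kap lam (Function.update z k a j) (y j) =
      ∏ j ∈ univ.erase k, kap lam (z j) (y j) := fun a =>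
    prod_congr rfl fun j hj => by rw [Function.update_of_ne (ne_of_mem_erase hj)]
  have h := congrArg (· * ∏ j ∈ univ.erase k, kap lam (z j) (y j))
    (tele (fun a => f (Function.update z k a)) (y k))
  simp only [sum_mul] at h
  simp only [e, dk, Function.update_self, Function.update_idem]
  refine (sum_congr rfl fun a _ => ?_).trans (h.trans (sum_congr rfl fun a _ => ?_)) <;> ring

theorem lp2_kap (a b : Fin Q) (lam : ℝ) :
    HasDerivAt (fun l => kap l a b) (1 / (Q : ℝ) - if a = b then 1 else 0) lam := by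
  unfold kap
  split_ifs
  · exact (((hasDerivAt_id lam).const_sub 1).add ((hasDerivAt_id lam).div_const _)).congr_deriv
      (by ring)
  · exact (((hasDerivAt_id lam).div_const _).const_add 0).congr_deriv (by ring)

theorem gg_deriv (f H : (Fin m → Fin Q) → ℝ) (lam : ℝ) :
    HasDerivAt (gg f H) (𝔼 z, ∑ k, dk f z k * aa lam H z k) lam := by
  have h := (HasDerivAt.fun_sum (u := univ) fun z _ => (HasDerivAt.fun_sum (u := univ) fun y _ =>
    (HasDerivAt.fun_finsetProd (u := univ) fun j _ => lp2_kap (z j) (y j) lam).mul_const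
      (H y)).const_mul (f z)).div_const (#(univ : Finset (Fin m → Fin Q)) : ℝ)
  unfold gg
  simp only [expect_eq_sum_div_card]
  refine h.congr_deriv ?_
  congr 1
  simp only [aa, smul_eq_mul, sum_mul, mul_sum, ← mul_assoc _ _ (H _)]
  rw [sum_comm, sum_congr rfl fun y _ => sum_comm]
  conv_rhs => rw [sum_congr rfl fun z _ => sum_comm, sum_comm, sum_congr rfl fun y _ => sum_comm]
  simp only [← sum_mul, lp2_one]

end Vale.Agent.P318.N
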