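import Vale.Agent.P318N.D

/-! Conditionally negative definite kernels. cnd_abs: neg_type with ι = Unit, α = 1/2 (nsq ^ (1/2) = |a - b|). cnd_th1: apply cnd_abs to the points y i + j indexed by Fin n × Fin η (finProdFinEquiv) with weights c i; note |δ + j - j'| = |(y i + j) - (y i' + j')|; the second term does not depend on i, i' and ∑ c = 0. cnd_exp: neg_embed (n = 0 trivial) gives points in EuclideanSpace, then neg_gauss_psd (EuclideanSpace.real_norm_sq_eq). -/

open Finset
open scoped BigOperators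

noncomputable section

namespace Vale.Agent.P318.N

variable {m S N τ η J B Q ρ : ℕ} {ε K : ℝ} {u : Dir S N m} {th : Fin S → Fin N → Fin τ}

theorem cnd_abs : CND fun a b : ℝ => |a - b| := by
  intro n x c hc
  refine Eq.trans_le ?_ (neg_type (ι := Unit) (fun i _ => x i) (α := 1 / 2) (by norm_num)
    (by norm_num) c hc)
  refine sum_congr rfl fun i _ => sum_congr rfl fun j _ => ?_
  rw [← Real.sqrt_eq_rpow, nsq, Fintype.sum_unique, Real.sqrt_sq_eq_abs]
  rfl

theorem CND.comp {V W : Type} {d : V → V → ℝ} (h : CND d) (f : W → V) :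
    CND fun a b => d (f a) (f b) :=
  fun n x c hc => h n (fun i => f (x i)) c hc

theorem CND.add {V : Type} {d d' : V → V → ℝ} (h : CND d) (h' : CND d') :
    CND fun a b => d a b + d' a b := by
  intro n x c hc
  simp only [mul_add, sum_add_distrib]
  exact add_nonpos (h n x c hc) (h' n x c hc)

theorem CND.smul {V : Type} {d : V → V → ℝ} (h : CND d) {c : ℝ} (hc : 0 ≤ c) :
    CND fun a b => c * d a b := by
  intro n x e he
  simp only [mul_left_comm _ c, ← mul_sum]
  exact mul_nonpos_of_nonneg_of_nonpos hc (h n x e he)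

theorem cnd_sum {V I : Type} (s : Finset I) {d : I → V → V → ℝ} (h : ∀ i ∈ s, CND (d i)) :
    CND fun a b => ∑ i ∈ s, d i a b := by
  classical
  induction s using Finset.induction_on with
  | empty => exact fun n x c _ => by simp
  | insert a s ha ih =>
    simp only [sum_insert ha]
    exact (h a (mem_insert_self _ _)).add (ih fun i hi => h i (mem_insert_of_mem hi))

theorem cnd_expect {V I : Type} [Fintype I] {d : I → V → V → ℝ} (h : ∀ i, CND (d i)) :
    CND fun a b => 𝔼 i, d i a b := by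
  simp only [Fintype.expect_eq_sum_div_card, div_eq_inv_mul]
  exact (cnd_sum univ fun i _ => h i).smul (by positivity)

theorem nt1_fin {V I : Type} [Fintype I] {d : V → V → ℝ} (h : CND d) (x : I → V) (c : I → ℝ)
    (hc : ∑ i, c i = 0) : ∑ i, ∑ j, c i * c j * d (x i) (x j) ≤ 0 := by
  let e := (Fintype.equivFin I).symm
  have h1 := h _ (fun i => x (e i)) (fun i => c (e i)) ((e.sum_comp c).trans hc)
  refine Eq.trans_le ?_ h1
  rw [← e.sum_comp]
  exact sum_congr rfl fun i _ => (e.sum_comp _).symm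

theorem nt1_const {V : Type} (k : ℝ) : CND fun _ _ : V => k := by
  intro n x c hc
  simp only [← sum_mul, ← mul_sum, hc, zero_mul, le_refl]

theorem nt1_sum (η : ℕ) : CND fun a b : ℤ =>
    ∑ j : Fin η, ∑ j' : Fin η, |((a - b : ℤ) : ℝ) + (j : ℕ) - (j' : ℕ)| := by
  intro n x c hc
  have h := nt1_fin (I := Fin n × Fin η) cnd_abs (fun p => (x p.1 : ℝ) + (p.2 : ℕ))
    (fun p => c p.1) (by
      rw [Fintype.sum_prod_type_right]
      simp [hc])
  refine Eq.trans_le ?_ h
  simp only [Fintype.sum_prod_type, mul_sum]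
  refine sum_congr rfl fun i _ => ?_
  rw [sum_comm]
  refine sum_congr rfl fun j _ => sum_congr rfl fun i' _ => sum_congr rfl fun j' _ => ?_
  congr 2
  push_cast
  ring

theorem cnd_th1 : CND fun a b : ℤ => th1 η (a - b) := by
  have h := (((nt1_sum η).smul (c := (η : ℝ)⁻¹) (by positivity)).smul (c := (η : ℝ)⁻¹)
    (by positivity)).add
    (nt1_const (-𝔼 j : Fin η, 𝔼 j' : Fin η, |((j : ℕ) : ℝ) - (j' : ℕ)|))
  have e : ∀ δ : ℤ, th1 η δ = (η : ℝ)⁻¹ * ((η : ℝ)⁻¹ *
      ∑ j : Fin η, ∑ j' : Fin η, |(δ : ℝ) + (j : ℕ) - (j' : ℕ)|) +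
      -𝔼 j : Fin η, 𝔼 j' : Fin η, |((j : ℕ) : ℝ) - (j' : ℕ)| := fun δ => by
    simp only [th1, expect_sub_distrib]
    rw [← sub_eq_add_neg]
    congr 1
    simp only [Fintype.expect_eq_sum_div_card, Fintype.card_fin, div_eq_inv_mul, ← mul_sum]
  simp only [e]
  exact h

theorem cnd_exp {V : Type} {d : V → V → ℝ} (h : CND d) (hs : ∀ a b, d a b = d b a)
    (h0 : ∀ a, d a a = 0) {t : ℝ} (ht : 0 ≤ t) (n : ℕ) (x : Fin n → V) (c : Fin n → ℝ) :
    0 ≤ ∑ i, ∑ j, c i * c j * Real.exp (-(t * d (x i) (x j))) := by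
  rcases Nat.eq_zero_or_pos n with rfl | hn
  · simp
  obtain ⟨y, hy⟩ := neg_embed (fun i j => d (x i) (x j)) ⟨0, hn⟩ (fun i j => hs _ _)
    (fun i => h0 _) (h n x)
  refine (neg_gauss_psd (fun i l => y i l) c ht).trans_eq ?_
  refine sum_congr rfl fun i _ => sum_congr rfl fun j _ => ?_
  rw [hy, EuclideanSpace.real_norm_sq_eq]
  rfl

end Vale.Agent.P318.N
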