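import Vale.Agent.P318N.D

/-! A dimension free Poincare inequality on the discrete cube (resampling and Bessel). -/

open Finset
open scoped BigOperators

noncomputable section

namespace Vale.Agent.P318.N

variable {m Q : ℕ}

theorem poin_upd (k : Fin m) (φ : (Fin m → Fin Q) → ℝ) :
    ∑ x, ∑ a, φ (Function.update x k a) = Q * ∑ x, φ x := by
  have hi : Function.Involutive
      fun p : (Fin m → Fin Q) × Fin Q => (Function.update p.1 k p.2, p.1 k) := fun p => by simp
  have h := Equiv.sum_comp hi.toPerm fun p => φ p.1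
  simp only [Function.Involutive.coe_toPerm, Fintype.sum_prod_type, sum_const, card_univ,
    Fintype.card_fin, nsmul_eq_mul] at h
  rw [h, mul_sum]

theorem poin_tel (f : (Fin m → Fin Q) → ℝ) (x : Fin m → Fin Q) (k : Fin m) (n : ℕ) (h : n < Q) :
    f (Function.update x k ⟨n, h⟩) = f (Function.update x k ⟨0, by omega⟩) +
      ∑ c : Fin Q, (if (c : ℕ) < n then 1 else 0) * dk f (Function.update x k c) k := by
  induction n with
  | zero => simp
  | succ n ih =>
    have e : ∀ c : Fin Q, (if (c : ℕ) < n + 1 then (1 : ℝ) else 0) =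
        (if (c : ℕ) < n then 1 else 0) + if c = ⟨n, by omega⟩ then 1 else 0 := fun c => by
      simp only [Fin.ext_iff]
      split_ifs <;> first | omega | norm_num
    simp only [e, add_mul, sum_add_distrib, ite_mul, one_mul, zero_mul, sum_ite_eq', mem_univ,
      if_true] at ih ⊢
    rw [← add_assoc, ← ih (by omega), dk]
    simp only [Function.update_self, Function.update_idem, h, dif_pos]
    ring

theorem poin_sbp (f P : (Fin m → Fin Q) → ℝ) (k : Fin m) (hQ : 0 < Q)
    (hP : ∀ x a, P (Function.update x k a) = P x) (g : Fin Q → ℝ) (hg : ∑ a, g a = 0) :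
    ∑ x, f x * g (x k) * P x =
      ∑ x, dk f x k * (∑ a : Fin Q, (if (x k : ℕ) < a then 1 else 0) * g a) * P x := by
  have hQ' : (Q : ℝ) ≠ 0 := by positivity
  refine mul_left_cancel₀ hQ' ?_
  rw [← poin_upd k, ← poin_upd k]
  refine sum_congr rfl fun x _ => ?_
  simp only [Function.update_self, hP, ← sum_mul]
  congr 1
  have e : ∀ a : Fin Q, f (Function.update x k a) * g a =
      f (Function.update x k ⟨0, hQ⟩) * g a + ∑ c : Fin Q,
        dk f (Function.update x k c) k * ((if (c : ℕ) < a then 1 else 0) * g a) := fun a => by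
    rw [show f (Function.update x k a) = _ from poin_tel f x k a a.2, add_mul, sum_mul]
    congr 1
    exact sum_congr rfl fun c _ => by ring
  simp only [e, sum_add_distrib, ← mul_sum, hg, mul_zero, zero_add]
  simp only [mul_sum]
  exact sum_comm

theorem poin_orth (w ψ : Fin m → Fin Q → ℝ) (hw : ∀ l, ∑ b, w l b = 1)
    (hψ : ∀ l, ∑ b, w l b * ψ l b = 0) (k j : Fin m) :
    ∑ y : Fin m → Fin Q, (∏ l, w l (y l)) * (ψ k (y k) * ψ j (y j)) =
      if k = j then ∑ b, w k b * ψ k b ^ 2 else 0 := by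
  have e : ∀ y : Fin m → Fin Q, (∏ l, w l (y l)) * (ψ k (y k) * ψ j (y j)) =
      ∏ l, (w l (y l) * ((if l = k then ψ l (y l) else 1) * if l = j then ψ l (y l) else 1)) :=
    fun y => by simp only [prod_mul_distrib, prod_ite_eq', mem_univ, if_true]
  simp only [e]
  rw [← Fintype.prod_sum fun l b =>
    w l b * ((if l = k then ψ l b else 1) * if l = j then ψ l b else 1)]
  split_ifs with h
  · subst h
    rw [prod_eq_single k (fun l _ hl => by simp [hl, hw]) (by simp)]
    simp only [if_true, sq]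
  · exact prod_eq_zero (mem_univ k) (by simp [h, hψ])

theorem poin_bessel (w ψ : Fin m → Fin Q → ℝ) (hw0 : ∀ l b, 0 ≤ w l b) (hw : ∀ l, ∑ b, w l b = 1)
    (hψ : ∀ l, ∑ b, w l b * ψ l b = 0) {C : ℝ} (hC0 : 0 ≤ C)
    (hC : ∀ l, ∑ b, w l b * ψ l b ^ 2 ≤ C ^ 2) (f : (Fin m → Fin Q) → ℝ) (hf : ∀ z, |f z| ≤ 1)
    (a : Fin m → ℝ) :
    ∑ y : Fin m → Fin Q, (∏ l, w l (y l)) * (f y * ∑ k, a k * ψ k (y k)) ≤
      C * √(∑ k, a k ^ 2) := by
  have hW : ∀ y : Fin m → Fin Q, 0 ≤ ∏ l, w l (y l) := fun y => prod_nonneg fun l _ => hw0 l _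
  have h1 : ∑ y : Fin m → Fin Q, ∏ l, w l (y l) = 1 := by
    rw [← Fintype.prod_sum]; simp [hw]
  have h2 : ∑ y : Fin m → Fin Q, (∏ l, w l (y l)) * (∑ k, a k * ψ k (y k)) ^ 2 ≤
      C ^ 2 * ∑ k, a k ^ 2 := by
    have e : ∀ y : Fin m → Fin Q, (∏ l, w l (y l)) * (∑ k, a k * ψ k (y k)) ^ 2 =
        ∑ k, ∑ j, a k * a j * ((∏ l, w l (y l)) * (ψ k (y k) * ψ j (y j))) := fun y => by
      rw [sq, sum_mul_sum, mul_sum]
      refine sum_congr rfl fun k _ => ?_
      rw [mul_sum]
      exact sum_congr rfl fun j _ => by ring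
    simp only [e]
    rw [sum_comm, mul_sum]
    refine sum_le_sum fun k _ => ?_
    rw [sum_comm]
    simp only [← mul_sum, poin_orth w ψ hw hψ, mul_ite, mul_zero, sum_ite_eq, mem_univ, if_true]
    nlinarith [mul_le_mul_of_nonneg_left (hC k) (sq_nonneg (a k))]
  have h3 : ∑ y : Fin m → Fin Q, (∏ l, w l (y l)) * f y ^ 2 ≤ 1 := by
    rw [← h1]
    exact sum_le_sum fun y _ => mul_le_of_le_one_right (hW y) ((sq_le_one_iff_abs_le_one _).2 (hf y))
  have h4 := sum_sq_le_sum_mul_sum_of_sq_le_mul univ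
    (r := fun y : Fin m → Fin Q => (∏ l, w l (y l)) * (f y * ∑ k, a k * ψ k (y k)))
    (f := fun y => (∏ l, w l (y l)) * f y ^ 2)
    (g := fun y => (∏ l, w l (y l)) * (∑ k, a k * ψ k (y k)) ^ 2)
    (fun y _ => mul_nonneg (hW y) (sq_nonneg _)) (fun y _ => mul_nonneg (hW y) (sq_nonneg _))
    (fun y _ => le_of_eq (by ring))
  refine le_trans (le_abs_self _) (abs_le_of_sq_le_sq' ?_ (by positivity) |> abs_le.2)
  rw [mul_pow, Real.sq_sqrt (sum_nonneg fun k _ => sq_nonneg _)]
  refine h4.trans ((mul_le_mul h3 h2 (sum_nonneg fun y _ => mul_nonneg (hW y) (sq_nonneg _))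
    zero_le_one).trans (one_mul _).le)

/-- The resampling weights. -/
def poinW (Q : ℕ) (t : ℝ) (a b : Fin Q) : ℝ := (1 - t ^ 2) * (if a = b then 1 else 0) + t ^ 2 / Q

/-- The generator. -/
def poinG (Q : ℕ) (a b : Fin Q) : ℝ := (if a = b then 1 else 0) - 1 / Q

/-- The primitive of the generator. -/
def poinH (Q : ℕ) (c b : Fin Q) : ℝ := ∑ a : Fin Q, (if (c : ℕ) < a then 1 else 0) * poinG Q a b

theorem poinH_eq (c b : Fin Q) : poinH Q c b =
    (if (c : ℕ) < b then 1 else 0) - (∑ a : Fin Q, if (c : ℕ) < a then (1 : ℝ) else 0) / Q := by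
  simp only [poinH, poinG, mul_sub, sum_sub_distrib, mul_ite, mul_one, mul_zero, sum_ite_eq',
    mem_univ, if_true, sum_div, mul_one_div]

theorem poinH_sq (hQ : 0 < Q) (c b : Fin Q) : poinH Q c b ^ 2 ≤ 1 := by
  have hQ' : (0 : ℝ) < Q := by positivity
  have h0 : 0 ≤ (∑ a : Fin Q, if (c : ℕ) < a then (1 : ℝ) else 0) / Q :=
    div_nonneg (sum_nonneg fun a _ => by split_ifs <;> norm_num) hQ'.le
  have h1 : (∑ a : Fin Q, if (c : ℕ) < a then (1 : ℝ) else 0) / Q ≤ 1 := by
    rw [div_le_one hQ']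
    refine (sum_le_sum (g := fun _ => (1 : ℝ)) fun a _ => by split_ifs <;> norm_num).trans ?_
    simp
  rw [poinH_eq]
  split_ifs <;> nlinarith

theorem poinH_sum (hQ : 0 < Q) (c : Fin Q) : ∑ b, poinH Q c b = 0 := by
  have hQ' : (Q : ℝ) ≠ 0 := by positivity
  simp only [poinH_eq, sum_sub_distrib, sum_const, card_univ, Fintype.card_fin, nsmul_eq_mul]
  field_simp
  ring

theorem poin_step (hQ : 0 < Q) (f g : (Fin m → Fin Q) → ℝ) (hf : ∀ z, |g z| ≤ 1) {t : ℝ}
    (ht : 0 < t) (ht1 : t < 1) :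
    t * ∑ x : Fin m → Fin Q, ∑ y : Fin m → Fin Q, f x * g y *
      ∑ k, (∏ l ∈ univ.erase k, poinW Q t (x l) (y l)) * poinG Q (x k) (y k) ≤
      Q * ∑ x, √(∑ k, dk f x k ^ 2) := by
  have hQ' : (0 : ℝ) < Q := by positivity
  have hw : ∀ a b, t ^ 2 / Q ≤ poinW Q t a b := fun a b =>
    le_add_of_nonneg_left (mul_nonneg (by nlinarith) (by split_ifs <;> norm_num))
  have hw0 : ∀ a b, 0 < poinW Q t a b := fun a b => lt_of_lt_of_le (by positivity) (hw a b)
  have h1 : ∀ (y : Fin m → Fin Q) (k : Fin m),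
      ∑ x : Fin m → Fin Q, f x * poinG Q (x k) (y k) * ∏ l ∈ univ.erase k, poinW Q t (x l) (y l) =
      ∑ x : Fin m → Fin Q, dk f x k * poinH Q (x k) (y k) *
        ∏ l ∈ univ.erase k, poinW Q t (x l) (y l) := fun y k =>
    poin_sbp f _ k hQ (fun x a => prod_congr rfl fun l hl => by
      rw [Function.update_of_ne (ne_of_mem_erase hl)]) (fun a => poinG Q a (y k)) (by
        simp only [poinG, sum_sub_distrib, sum_ite_eq', mem_univ, if_true, sum_const, card_univ,
          Fintype.card_fin, nsmul_eq_mul]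
        field_simp
        ring)
  have h2 : ∑ x : Fin m → Fin Q, ∑ y : Fin m → Fin Q, f x * g y *
      ∑ k, (∏ l ∈ univ.erase k, poinW Q t (x l) (y l)) * poinG Q (x k) (y k) =
      ∑ x : Fin m → Fin Q, ∑ y : Fin m → Fin Q, (∏ l, poinW Q t (x l) (y l)) *
        (g y * ∑ k, dk f x k * (poinH Q (x k) (y k) / poinW Q t (x k) (y k))) := by
    rw [sum_comm, sum_comm (f := fun x y : Fin m → Fin Q => (∏ l, poinW Q t (x l) (y l)) * _)]
    refine sum_congr rfl fun y _ => ?_
    calc _ = g y * ∑ k, ∑ x : Fin m → Fin Q,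
          f x * poinG Q (x k) (y k) * ∏ l ∈ univ.erase k, poinW Q t (x l) (y l) := by
          rw [sum_comm, mul_sum]
          refine sum_congr rfl fun x _ => ?_
          rw [mul_sum, mul_sum]
          exact sum_congr rfl fun k _ => by ring
      _ = _ := by
          simp only [h1]
          rw [sum_comm, mul_sum]
          refine sum_congr rfl fun x _ => ?_
          rw [mul_sum, mul_sum, mul_sum]
          refine sum_congr rfl fun k _ => ?_
          rw [← mul_prod_erase univ _ (mem_univ k)]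
          have := (hw0 (x k) (y k)).ne'
          field_simp
  rw [h2, mul_sum, mul_sum]
  refine sum_le_sum fun x _ => ?_
  have h3 := poin_bessel (fun l b => poinW Q t (x l) b)
    (fun l b => poinH Q (x l) b / poinW Q t (x l) b) (fun l b => (hw0 _ _).le) (fun l => by
      simp only [poinW, sum_add_distrib, ← mul_sum, sum_ite_eq, mem_univ, if_true, sum_const,
        card_univ, Fintype.card_fin, nsmul_eq_mul]
      field_simp
      ring) (fun l => by
      rw [← poinH_sum hQ (x l)]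
      exact sum_congr rfl fun b _ => mul_div_cancel₀ _ (hw0 _ _).ne') (C := Q / t) (by positivity)
    (fun l => by
      refine (sum_le_sum (g := fun _ => Q / t ^ 2) fun b _ => ?_).trans (le_of_eq ?_)
      · have h5 := hw0 (x l) b
        rw [div_pow, sq (poinW Q t (x l) b), ← mul_div_assoc, mul_div_mul_left _ _ h5.ne',
          div_le_div_iff₀ h5 (by positivity)]
        have h6 := (div_le_iff₀ hQ').1 (hw (x l) b)
        nlinarith [mul_le_mul_of_nonneg_right (poinH_sq hQ (x l) b) (sq_nonneg t)]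
      · simp only [sum_const, card_univ, Fintype.card_fin, nsmul_eq_mul]
        ring) g hf (dk f x)
  refine (mul_le_mul_of_nonneg_left h3 ht.le).trans (le_of_eq ?_)
  field_simp

theorem poin_sum (hQ : 0 < Q) (f g : (Fin m → Fin Q) → ℝ) (hf : ∀ z, |g z| ≤ 1) :
    ∑ x, f x * g x - (∑ x, f x) * (∑ x, g x) / (Q : ℝ) ^ m ≤
      2 * Q * ∑ x, √(∑ k, dk f x k ^ 2) := by
  have hd : ∀ t : ℝ, HasDerivAt (fun t => ∑ x : Fin m → Fin Q, ∑ y : Fin m → Fin Q,
      f x * g y * ∏ l, poinW Q t (x l) (y l)) (∑ x : Fin m → Fin Q, ∑ y : Fin m → Fin Q,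
      f x * g y * ∑ k, (∏ l ∈ univ.erase k, poinW Q t (x l) (y l)) •
        (-(2 * t) * poinG Q (x k) (y k))) t := fun t =>
    HasDerivAt.fun_sum fun x _ => HasDerivAt.fun_sum fun y _ => HasDerivAt.const_mul _
      (HasDerivAt.fun_finsetProd fun l _ => by
        have h := (((hasDerivAt_pow 2 t).const_sub 1).mul_const
          (if x l = y l then (1 : ℝ) else 0)).add ((hasDerivAt_pow 2 t).div_const (Q : ℝ))
        refine h.congr_deriv ?_
        simp only [poinG]
        ring)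
  obtain ⟨t, ⟨ht, ht1⟩, h⟩ := exists_hasDerivAt_eq_slope _ _ zero_lt_one
    (fun t _ => (hd t).continuousAt.continuousWithinAt) fun t _ => hd t
  have h0 : ∀ x y : Fin m → Fin Q, ∏ l, poinW Q 0 (x l) (y l) = if x = y then 1 else 0 :=
    fun x y => by simp [poinW, prod_ite_zero, funext_iff]
  have h1 : ∀ x y : Fin m → Fin Q, ∏ l, poinW Q 1 (x l) (y l) = 1 / (Q : ℝ) ^ m :=
    fun x y => by simp [poinW]
  have h2 := poin_step hQ f g hf ht ht1
  have h3 : ∀ x y : Fin m → Fin Q, f x * g y * ∑ k, (∏ l ∈ univ.erase k, poinW Q t (x l) (y l)) •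
      (-(2 * t) * poinG Q (x k) (y k)) = -(2 * t) * (f x * g y *
        ∑ k, (∏ l ∈ univ.erase k, poinW Q t (x l) (y l)) * poinG Q (x k) (y k)) := fun x y => by
    simp only [mul_sum, smul_eq_mul]
    exact sum_congr rfl fun k _ => by ring
  simp only [h0, h1, h3, ← mul_sum, mul_ite, mul_one, mul_zero, sum_ite_eq, mem_univ, if_true,
    sub_zero, div_one] at h
  have h4 : ∑ x : Fin m → Fin Q, ∑ y : Fin m → Fin Q, f x * g y * (1 / (Q : ℝ) ^ m) =
      (∑ x, f x) * (∑ x, g x) / (Q : ℝ) ^ m := by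
    simp only [sum_mul_sum, sum_div, mul_one_div]
  linarith

theorem poin_l1 (hQ : 0 < Q) (f : (Fin m → Fin Q) → ℝ) :
    𝔼 z, 𝔼 z', |f z - f z'| ≤ 4 * Q * 𝔼 z, √(∑ k, dk f z k ^ 2) := by
  have hQ' : (0 : ℝ) < (Q : ℝ) ^ m := by positivity
  obtain ⟨μ, hμ⟩ : ∃ μ, μ = (∑ x, f x) / (Q : ℝ) ^ m := ⟨_, rfl⟩
  have h := poin_sum hQ f (fun z => if μ ≤ f z then 1 else -1) fun z => by
    split_ifs <;> norm_num
  have h1 : ∑ x, |f x - μ| = ∑ x, f x * (if μ ≤ f x then 1 else -1) -
      (∑ x, f x) * (∑ x, if μ ≤ f x then (1 : ℝ) else -1) / (Q : ℝ) ^ m := by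
    rw [mul_div_right_comm, ← hμ, mul_sum, ← sum_sub_distrib]
    refine sum_congr rfl fun x _ => ?_
    split_ifs with hx
    · rw [abs_of_nonneg (by linarith)]; ring
    · rw [abs_of_neg (by linarith)]; ring
  have h2 : ∑ z, ∑ z', |f z - f z'| ≤ 2 * (Q : ℝ) ^ m * ∑ x, |f x - μ| := by
    refine (sum_le_sum fun z _ => sum_le_sum fun z' _ => abs_sub_le (f z) μ (f z')).trans ?_
    simp only [sum_add_distrib, sum_const, card_univ, Fintype.card_pi, Fintype.card_fin,
      prod_const, nsmul_eq_mul, Nat.cast_pow, ← mul_sum, abs_sub_comm μ]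
    exact le_of_eq (by ring)
  simp only [Fintype.expect_eq_sum_div_card, Fintype.card_pi, Fintype.card_fin, prod_const,
    card_univ, Nat.cast_pow, ← sum_div]
  rw [← mul_div_assoc]
  refine div_le_div_of_nonneg_right ?_ hQ'.le
  rw [div_le_iff₀ hQ']
  nlinarith [mul_le_mul_of_nonneg_left (h1.trans_le h) hQ'.le]

end Vale.Agent.P318.N
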