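import Vale.Agent.P318N.D

/-! Hoeffding inequality and a majority bound by counting. 𝔼 x, exp (l * g x) ≤ cosh (l c) ≤ exp (l² c² / 2) (convexity of exp on [-c, c], Real.cosh_le_exp_half_sq); 𝔼 over ω of a product is the product (prod_univ_sum); l = t / V; both signs. majority: indicator ≤ (∏ s, if p (ω s) then 16 else 1) / 4 ^ S, and each factor has mean ≤ 2. -/

open Finset
open scoped BigOperators

noncomputable section

namespace Vale.Agent.P318.N

variable {m S N τ η J B Q ρ : ℕ} {ε K : ℝ} {u : Dir S N m} {th : Fin S → Fin N → Fin τ}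

/-- The sign vector of a bit vector. -/
def sg (b : Fin m → Bool) : Pt m := fun k => if b k then 1 else -1

theorem rc1_prod {I X : Type} [Fintype I] [DecidableEq I] [Fintype X] (f : I → X → ℝ) :
    𝔼 ω : I → X, ∏ i, f i (ω i) = ∏ i, 𝔼 x, f i x := by
  simp only [Fintype.expect_eq_sum_div_card]
  rw [prod_div_distrib, prod_univ_sum, Fintype.piFinset_univ, prod_const, card_univ,
    Fintype.card_fun, Nat.cast_pow]

theorem rc1_mgf {X : Type} [Fintype X] [Nonempty X] {g : X → ℝ} {c : ℝ} (h0 : 𝔼 x, g x = 0)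
    (hc : ∀ x, |g x| ≤ c) (l : ℝ) : 𝔼 x, Real.exp (l * g x) ≤ Real.exp ((l * c) ^ 2 / 2) := by
  have h1 : ∀ x, Real.exp (l * g x) ≤ Real.cosh (l * c) + g x * (Real.sinh (l * c) / c) := by
    intro x
    have hc0 : 0 ≤ c := (abs_nonneg _).trans (hc x)
    rcases hc0.eq_or_lt with rfl | hc0
    · simp [abs_nonpos_iff.1 (hc x)]
    · have h2 := Real.exp_mul_le_cosh_add_mul_sinh (t := g x / c)
        (by rw [abs_div, abs_of_pos hc0, div_le_one hc0]; exact hc x) (l * c)
      have e1 : g x / c * (l * c) = l * g x := by field_simp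
      have e2 : g x / c * Real.sinh (l * c) = g x * (Real.sinh (l * c) / c) := by ring
      rwa [e1, e2] at h2
  refine (expect_le_expect fun x _ => h1 x).trans ?_
  rw [expect_add_distrib, ← expect_mul, h0, zero_mul, add_zero, expect_const univ_nonempty]
  exact Real.cosh_le_exp_half_sq _

theorem rc1_one {I X : Type} [Fintype I] [DecidableEq I] [Fintype X] [Nonempty X] (g : I → X → ℝ)
    (c : I → ℝ) (h0 : ∀ i, 𝔼 x, g i x = 0) (hc : ∀ i x, |g i x| ≤ c i) {V : ℝ} (t : ℝ)
    (hV : 0 < V) (hcV : ∑ i, c i ^ 2 ≤ V) :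
    𝔼 ω : I → X, Real.exp (t / V * (∑ i, g i (ω i) - t)) ≤ Real.exp (-(t ^ 2 / (2 * V))) := by
  have e : ∀ ω : I → X, Real.exp (t / V * (∑ i, g i (ω i) - t)) =
      (∏ i, Real.exp (t / V * g i (ω i))) * Real.exp (-(t / V * t)) := fun ω => by
    rw [← Real.exp_sum, ← Real.exp_add, ← mul_sum]
    congr 1
    ring
  simp only [e]
  rw [← expect_mul, rc1_prod fun i x => Real.exp (t / V * g i x)]
  have h1 : ∏ i, 𝔼 x, Real.exp (t / V * g i x) ≤ ∏ i, Real.exp ((t / V * c i) ^ 2 / 2) :=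
    prod_le_prod (fun i _ => expect_nonneg fun x _ => (Real.exp_pos _).le)
      fun i _ => rc1_mgf (h0 i) (hc i) _
  refine (mul_le_mul_of_nonneg_right h1 (Real.exp_pos _).le).trans ?_
  rw [← Real.exp_sum, ← Real.exp_add, Real.exp_le_exp]
  have h2 : ∑ i, (t / V * c i) ^ 2 / 2 = (t / V) ^ 2 / 2 * ∑ i, c i ^ 2 := by
    rw [mul_sum]
    exact sum_congr rfl fun i _ => by ring
  have h3 := mul_le_mul_of_nonneg_left hcV (by positivity : 0 ≤ (t / V) ^ 2 / 2)
  have h4 : (t / V) ^ 2 / 2 * V + -(t / V * t) = -(t ^ 2 / (2 * V)) := by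
    field_simp
    ring
  linarith

open Classical in
theorem hoeff {I X : Type} [Fintype I] [DecidableEq I] [Fintype X] [Nonempty X] (g : I → X → ℝ)
    (c : I → ℝ)
    (h0 : ∀ i, 𝔼 x, g i x = 0) (hc : ∀ i x, |g i x| ≤ c i) {V t : ℝ} (hV : 0 < V)
    (hcV : ∑ i, c i ^ 2 ≤ V) (ht : 0 ≤ t) :
    𝔼 ω : I → X, (if t ≤ |∑ i, g i (ω i)| then (1 : ℝ) else 0) ≤
      2 * Real.exp (-(t ^ 2 / (2 * V))) := by
  have h1 := rc1_one g c h0 hc t hV hcV
  have h2 := rc1_one (fun i x => -g i x) c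
    (fun i => by rw [expect_neg_distrib, h0 i, neg_zero]) (fun i x => by rw [abs_neg]; exact hc i x)
    t hV hcV
  rw [two_mul]
  refine le_trans ?_ (add_le_add h1 h2)
  rw [← expect_add_distrib]
  refine expect_le_expect fun ω _ => ?_
  have hl : 0 ≤ t / V := div_nonneg ht hV.le
  have p1 := Real.exp_pos (t / V * (∑ i, g i (ω i) - t))
  have p2 := Real.exp_pos (t / V * (∑ i, -g i (ω i) - t))
  split_ifs with h
  · rcases le_abs.1 h with h | h
    · have := Real.one_le_exp (mul_nonneg hl (sub_nonneg.2 h))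
      linarith
    · rw [← sum_neg_distrib] at h
      have := Real.one_le_exp (mul_nonneg hl (sub_nonneg.2 h))
      linarith
  · linarith

open Classical in
theorem majority {X : Type} [Fintype X] [Nonempty X] (p : X → Prop)
    (hp : 𝔼 x, (if p x then (1 : ℝ) else 0) ≤ 1 / 16) :
    𝔼 ω : Fin S → X, (if S ≤ 2 * #(univ.filter fun s => p (ω s)) then (1 : ℝ) else 0) ≤
      1 / 2 ^ S := by
  have h1 : 𝔼 x, (if p x then (16 : ℝ) else 1) ≤ 2 := by
    have e : ∀ x, (if p x then (16 : ℝ) else 1) = 1 + (if p x then (1 : ℝ) else 0) * 15 :=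
      fun x => by split_ifs <;> norm_num
    simp only [e]
    rw [expect_add_distrib, ← expect_mul, expect_const univ_nonempty]
    linarith
  have h2 : ∀ ω : Fin S → X,
      (if S ≤ 2 * #(univ.filter fun s => p (ω s)) then (1 : ℝ) else 0) ≤
        (∏ s, if p (ω s) then (16 : ℝ) else 1) * (1 / 4 ^ S) := fun ω => by
    rw [prod_ite, prod_const, prod_const_one, mul_one]
    split_ifs with h
    · rw [mul_one_div, one_le_div (by positivity), show (16 : ℝ) = 4 ^ 2 by norm_num, ← pow_mul]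
      exact pow_le_pow_right₀ (by norm_num) h
    · positivity
  refine (expect_le_expect fun ω _ => h2 ω).trans ?_
  rw [← expect_mul, rc1_prod fun (_ : Fin S) x => if p x then (16 : ℝ) else 1, prod_const,
    card_univ, Fintype.card_fin]
  have h3 : (𝔼 x, if p x then (16 : ℝ) else 1) ^ S ≤ 2 ^ S :=
    pow_le_pow_left₀ (expect_nonneg fun x _ => by split_ifs <;> norm_num) h1 S
  refine (mul_le_mul_of_nonneg_right h3 (by positivity)).trans (le_of_eq ?_)
  rw [show (4 : ℝ) = 2 * 2 by norm_num, mul_pow]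
  field_simp

end Vale.Agent.P318.N
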