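import Vale.Agent.P318N.RC1

/-! Uniform concentration. M w k = 𝔼 b, ph1 η (dt (sg b) w) * sg b k. If |𝔼 i, ph1 η (dt (u s i) w) * u s i k - M w k| < ε / 4 for all s, k and w in Fintype.piFinset fun _ => Icc (-B) B then UC holds. Union bound; a function of ω s averages over ω s; hoeff with g i b = ph1 .. * sg b k - M, c = 2, V = 4 N, t = N ε / 4 (|ph1| ≤ 1: prove it locally or import H1). -/

open Finset
open scoped BigOperators

noncomputable section

namespace Vale.Agent.P318.N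

variable {m S N τ η J B Q ρ : ℕ} {ε K : ℝ} {u : Dir S N m} {th : Fin S → Fin N → Fin τ}

theorem rc2_abs {ι : Type} [Fintype ι] (f : ι → ℝ) {c : ℝ} (hc : 0 ≤ c) (h : ∀ i, |f i| ≤ c) :
    |𝔼 i, f i| ≤ c := by
  rcases isEmpty_or_nonempty ι with _ | _
  · simpa using hc
  · exact abs_le.2 ⟨le_expect univ_nonempty fun i _ => (abs_le.1 (h i)).1,
      expect_le univ_nonempty fun i _ => (abs_le.1 (h i)).2⟩

theorem rc2_marg {I X : Type} [Fintype I] [DecidableEq I] [Fintype X] [Nonempty X] (s : I)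
    (f : X → ℝ) : 𝔼 ω : I → X, f (ω s) = 𝔼 x, f x := by
  rw [Fintype.expect_equiv (Equiv.funSplitAt s X) (fun ω => f (ω s)) (fun p => f p.1) (fun ω => rfl),
    ← univ_product_univ, expect_product]
  simp

theorem rc2_hoeff {I X : Type} [Fintype I] [dI : DecidableEq I] [Fintype X] [Nonempty X]
    (g : I → X → ℝ) (c : I → ℝ)
    (h0 : ∀ i, 𝔼 x, g i x = 0) (hc : ∀ i x, |g i x| ≤ c i) {V t : ℝ} (hV : 0 < V)
    (hcV : ∑ i, c i ^ 2 ≤ V) (ht : 0 ≤ t) :
    𝔼 ω : I → X, (if t ≤ |∑ i, g i (ω i)| then (1 : ℝ) else 0) ≤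
      2 * Real.exp (-(t ^ 2 / (2 * V))) := by
  first
  | exact hoeff g c h0 hc hV hcV ht
  | (obtain rfl : dI = fun a b => Classical.propDecidable (a = b) := Subsingleton.elim _ _
     exact hoeff g c h0 hc hV hcV ht)

/-- The sampled field. -/
def rc2_f (η : ℕ) (w : Pt m) (k : Fin m) (b : Fin m → Bool) : ℝ := ph1 η (dt (sg b) w) * sg b k

theorem rc2_f_le (η : ℕ) (w : Pt m) (k : Fin m) (b : Fin m → Bool) : |rc2_f η w k b| ≤ 1 := by
  have h1 : |ph1 η (dt (sg b) w)| ≤ 1 := by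
    refine rc2_abs _ zero_le_one fun j => rc2_abs _ zero_le_one fun j' => ?_
    generalize dt (sg b) w + (j : ℕ) - (j' : ℕ) = z
    rcases Int.sign_trichotomy z with h | h | h <;> simp [h]
  have h2 : |((sg b k : ℤ) : ℝ)| = 1 := by
    unfold sg
    cases b k <;> simp
  unfold rc2_f
  rw [abs_mul, h2, mul_one]
  exact h1

theorem rc2_one (hN : 0 < N) (hε : 0 < ε) (w : Pt m) (k : Fin m) :
    𝔼 ω : Fin N → Fin m → Bool,
      (if N * ε / 4 ≤ |∑ i, (rc2_f η w k (ω i) - 𝔼 b, rc2_f η w k b)| then (1 : ℝ) else 0) ≤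
      2 * Real.exp (-(N * ε ^ 2 / 128)) := by
  have hN' : (0 : ℝ) < N := by exact_mod_cast hN
  have hM := rc2_abs (rc2_f η w k) zero_le_one (rc2_f_le η w k)
  have h := rc2_hoeff (I := Fin N) (fun _ b => rc2_f η w k b - 𝔼 b, rc2_f η w k b) (fun _ => 2)
    (fun _ => by rw [expect_sub_distrib, Fintype.expect_const, sub_self])
    (fun _ b => (abs_sub _ _).trans (by linarith [rc2_f_le η w k b])) (V := 4 * N) (t := N * ε / 4)
    (by positivity) (by simp; linarith) (by positivity)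
  have e : (N * ε / 4) ^ 2 / (2 * (4 * N)) = N * ε ^ 2 / 128 := by field_simp; ring
  rwa [e] at h

theorem rc2_uc (hN : 0 < N) (ω : Fin S → Fin N → Fin m → Bool)
    (h : ∀ (s : Fin S) (k : Fin m), ∀ w ∈ Fintype.piFinset fun _ : Fin m => Icc (-(B : ℤ)) B,
      ¬N * ε / 4 ≤ |∑ i, (rc2_f η w k (ω s i) - 𝔼 b, rc2_f η w k b)|) :
    UC (fun s i => sg (ω s i)) η B ε := by
  intro s w k hw
  have hN' : (0 : ℝ) < N := by exact_mod_cast hN
  have hW : w ∈ Fintype.piFinset fun _ : Fin m => Icc (-(B : ℤ)) B :=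
    Fintype.mem_piFinset.2 fun l => mem_Icc.2 (abs_le.1 (hw l))
  have h1 : ∀ s', |(𝔼 i, rc2_f η w k (ω s' i)) - 𝔼 b, rc2_f η w k b| ≤ ε / 4 := by
    intro s'
    have h2 := not_le.1 (h s' k w hW)
    have e : ∑ i, (rc2_f η w k (ω s' i) - 𝔼 b, rc2_f η w k b) =
        N * ((𝔼 i, rc2_f η w k (ω s' i)) - 𝔼 b, rc2_f η w k b) := by
      generalize (𝔼 b, rc2_f η w k b) = M
      rw [Fintype.expect_eq_sum_div_card, sum_sub_distrib, Fintype.card_fin, sum_const, card_univ,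
        Fintype.card_fin, nsmul_eq_mul]
      field_simp
    rw [e, abs_mul, abs_of_pos hN', mul_div_assoc] at h2
    exact (lt_of_mul_lt_mul_left h2 hN'.le).le
  have : Nonempty (Fin S) := ⟨s⟩
  have h3 : (𝔼 b, rc2_f η w k b) - ε / 4 ≤ 𝔼 s', 𝔼 i, rc2_f η w k (ω s' i) :=
    le_expect univ_nonempty fun s' _ => by linarith [(abs_le.1 (h1 s')).1]
  have h4 : (𝔼 s', 𝔼 i, rc2_f η w k (ω s' i)) ≤ (𝔼 b, rc2_f η w k b) + ε / 4 :=
    expect_le univ_nonempty fun s' _ => by linarith [(abs_le.1 (h1 s')).2]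
  have h5 := abs_le.1 (h1 s)
  change |(𝔼 i, rc2_f η w k (ω s i)) - 𝔼 s', 𝔼 i, rc2_f η w k (ω s' i)| ≤ ε / 2
  exact abs_le.2 ⟨by linarith [h5.1], by linarith [h5.2]⟩

open Classical in
theorem uc_prob (hN : 0 < N) (hε : 0 < ε) :
    𝔼 ω : Fin S → Fin N → Fin m → Bool,
      (if UC (fun s i => sg (ω s i)) η B ε then (0 : ℝ) else 1) ≤
      S * m * (2 * B + 1) ^ m * (2 * Real.exp (-(N * ε ^ 2 / 128))) := by
  have h1 : ∀ ω : Fin S → Fin N → Fin m → Bool,
      (if UC (fun s i => sg (ω s i)) η B ε then (0 : ℝ) else 1) ≤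
        ∑ s : Fin S, ∑ k : Fin m, ∑ w ∈ Fintype.piFinset fun _ : Fin m => Icc (-(B : ℤ)) B,
          (if N * ε / 4 ≤ |∑ i, (rc2_f η w k (ω s i) - 𝔼 b, rc2_f η w k b)| then (1 : ℝ) else 0) := by
    intro ω
    have p0 : ∀ (s : Fin S) (k : Fin m) (w : Pt m), (0 : ℝ) ≤
        (if N * ε / 4 ≤ |∑ i, (rc2_f η w k (ω s i) - 𝔼 b, rc2_f η w k b)| then (1 : ℝ) else 0) :=
      fun s k w => by split_ifs <;> norm_num
    by_cases hu : UC (fun s i => sg (ω s i)) η B ε
    · rw [if_pos hu]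
      exact sum_nonneg fun s _ => sum_nonneg fun k _ => sum_nonneg fun w _ => p0 s k w
    · rw [if_neg hu]
      have h2 := mt (rc2_uc (η := η) (B := B) (ε := ε) hN ω) hu
      simp only [not_forall, not_not] at h2
      obtain ⟨s, k, w, hw, h3⟩ := h2
      refine le_trans ?_ (single_le_sum
        (fun s _ => sum_nonneg fun k _ => sum_nonneg fun w _ => p0 s k w) (mem_univ s))
      refine le_trans ?_ (single_le_sum (fun k _ => sum_nonneg fun w _ => p0 s k w) (mem_univ k))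
      refine le_trans ?_ (single_le_sum (fun w _ => p0 s k w) hw)
      rw [if_pos h3]
  refine (expect_le_expect fun ω _ => h1 ω).trans ?_
  simp only [expect_sum_comm]
  have h4 : ∀ (s : Fin S) (k : Fin m) (w : Pt m), 𝔼 ω : Fin S → Fin N → Fin m → Bool,
      (if N * ε / 4 ≤ |∑ i, (rc2_f η w k (ω s i) - 𝔼 b, rc2_f η w k b)| then (1 : ℝ) else 0) ≤
      2 * Real.exp (-(N * ε ^ 2 / 128)) := fun s k w =>
    (rc2_marg s fun x : Fin N → Fin m → Bool =>
      if N * ε / 4 ≤ |∑ i, (rc2_f η w k (x i) - 𝔼 b, rc2_f η w k b)| then (1 : ℝ) else 0).trans_le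
      (rc2_one hN hε w k)
  refine (sum_le_sum fun s _ => sum_le_sum fun k _ => sum_le_sum fun w _ => h4 s k w).trans (le_of_eq ?_)
  have hc : #(Icc (-(B : ℤ)) B) = 2 * B + 1 := by rw [Int.card_Icc]; omega
  simp only [sum_const, card_univ, Fintype.card_fin, nsmul_eq_mul, Fintype.card_piFinset, hc, prod_const]
  push_cast
  ring

end Vale.Agent.P318.N
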