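import Vale.Agent.P318N.D

open Finset
open scoped BigOperators

noncomputable section

namespace Vale.Agent.P318.N

theorem s1_exp_le {ι : Type} [Fintype ι] [Nonempty ι] {f : ι → ℝ} {c : ℝ} (h : ∀ i, f i ≤ c) :
    𝔼 i, f i ≤ c := expect_le univ_nonempty fun i _ => h i

theorem s1_exp_mono {ι : Type} [Fintype ι] {f g : ι → ℝ} (h : ∀ i, f i ≤ g i) :
    𝔼 i, f i ≤ 𝔼 i, g i := expect_le_expect fun i _ => h i

theorem s1_abs_exp {ι : Type} [Fintype ι] [Nonempty ι] {f : ι → ℝ} {c : ℝ} (h : ∀ i, |f i| ≤ c) :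
    |𝔼 i, f i| ≤ c :=
  abs_le.2 ⟨le_expect univ_nonempty fun i _ => (abs_le.1 (h i)).1,
    s1_exp_le fun i => (abs_le.1 (h i)).2⟩

variable {η : ℕ}

theorem th1_zero (η : ℕ) : th1 η 0 = 0 := by simp [th1]

theorem th1_neg (η : ℕ) (δ : ℤ) : th1 η (-δ) = th1 η δ := by
  unfold th1
  rw [expect_comm]
  refine expect_congr rfl fun j _ => expect_congr rfl fun j' _ => ?_
  rw [abs_sub_comm ((j' : ℕ) : ℝ), ← abs_neg]
  push_cast
  congr 2
  ring

theorem th1_sub_comm (η : ℕ) (a b : ℤ) : th1 η (a - b) = th1 η (b - a) := by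
  rw [← th1_neg, neg_sub]

theorem s1_sign (A B : ℤ) : |(A : ℝ)| - |(B : ℝ)| ≤ (Int.sign A : ℝ) * (A - B) := by
  have h1 := le_abs_self (B : ℝ)
  have h2 := neg_abs_le (B : ℝ)
  rcases lt_trichotomy A 0 with h | h | h
  · rw [Int.sign_eq_neg_one_of_neg h, abs_of_neg (by exact_mod_cast h : (A : ℝ) < 0)]
    push_cast
    linarith
  · subst h
    simp
  · rw [Int.sign_eq_one_of_pos h, abs_of_pos (by exact_mod_cast h : (0 : ℝ) < A)]
    push_cast
    linarith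

theorem th1_cvx (η : ℕ) (a b : ℤ) : th1 η a - th1 η b ≤ ph1 η a * ((a : ℝ) - b) := by
  unfold th1 ph1
  rw [← expect_sub_distrib, expect_mul]
  refine s1_exp_mono fun j => ?_
  rw [← expect_sub_distrib, expect_mul]
  refine s1_exp_mono fun j' => ?_
  have := s1_sign (a + (j : ℕ) - (j' : ℕ)) (b + (j : ℕ) - (j' : ℕ))
  push_cast at this
  linarith

theorem s1_abs_sign (A : ℤ) : |(Int.sign A : ℝ)| ≤ 1 := by
  rcases lt_trichotomy A 0 with h | h | h
  · rw [Int.sign_eq_neg_one_of_neg h]; simp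
  · subst h; simp
  · rw [Int.sign_eq_one_of_pos h]; simp

theorem abs_ph1_le (hη : 0 < η) (δ : ℤ) : |ph1 η δ| ≤ 1 := by
  have : Nonempty (Fin η) := ⟨⟨0, hη⟩⟩
  exact s1_abs_exp fun _ => s1_abs_exp fun _ => s1_abs_sign _

theorem ph1_zero (η : ℕ) : ph1 η 0 = 0 := by
  have h : ph1 η 0 = -ph1 η 0 := by
    conv_lhs => rw [ph1, expect_comm]
    rw [ph1, ← expect_neg_distrib]
    refine expect_congr rfl fun j _ => ?_
    rw [← expect_neg_distrib]
    refine expect_congr rfl fun j' _ => ?_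
    rw [← Int.cast_neg, ← Int.sign_neg]
    congr 2
    ring
  linarith

theorem th1_nonneg (η : ℕ) (δ : ℤ) : 0 ≤ th1 η δ := by
  have := th1_cvx η 0 δ
  rw [th1_zero, ph1_zero] at this
  linarith

theorem th1_le_abs (hη : 0 < η) (δ : ℤ) : th1 η δ ≤ |(δ : ℝ)| := by
  have : Nonempty (Fin η) := ⟨⟨0, hη⟩⟩
  refine s1_exp_le fun j => s1_exp_le fun j' => ?_
  have := abs_add_le (δ : ℝ) (((j : ℕ) : ℝ) - (j' : ℕ))
  rw [← add_sub_assoc] at this
  linarith

theorem abs_sub_le_th1 (hη : 0 < η) (δ : ℤ) : |(δ : ℝ)| - 2 * η ≤ th1 η δ := by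
  have : Nonempty (Fin η) := ⟨⟨0, hη⟩⟩
  refine le_expect univ_nonempty fun j _ => le_expect univ_nonempty fun j' _ => ?_
  have h1 : ((j : ℕ) : ℝ) < η := by exact_mod_cast j.2
  have h2 : ((j' : ℕ) : ℝ) < η := by exact_mod_cast j'.2
  have h3 : (0 : ℝ) ≤ (j : ℕ) := Nat.cast_nonneg _
  have h4 : (0 : ℝ) ≤ (j' : ℕ) := Nat.cast_nonneg _
  have h5 : |((j : ℕ) : ℝ) - (j' : ℕ)| ≤ η := abs_le.2 ⟨by linarith, by linarith⟩
  have := abs_sub ((δ : ℝ) + (j : ℕ) - (j' : ℕ)) (((j : ℕ) : ℝ) - (j' : ℕ))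
  rw [show (δ : ℝ) + (j : ℕ) - (j' : ℕ) - (((j : ℕ) : ℝ) - (j' : ℕ)) = δ by ring] at this
  linarith

theorem ph1_step (hη : 0 < η) (b : ℤ) : |ph1 η (b + 1) - ph1 η b| ≤ 2 / η := by
  have : Nonempty (Fin η) := ⟨⟨0, hη⟩⟩
  have hη' : (0 : ℝ) < η := by exact_mod_cast hη
  unfold ph1
  rw [expect_comm, expect_comm (f := fun j j' : Fin η =>
    ((Int.sign (b + (j : ℕ) - (j' : ℕ)) : ℤ) : ℝ)), ← expect_sub_distrib]
  refine s1_abs_exp fun j' => ?_
  rw [← expect_sub_distrib, Fintype.expect_eq_sum_div_card, Fintype.card_fin, abs_div,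
    abs_of_pos hη']
  refine div_le_div_of_nonneg_right ?_ hη'.le
  have e := sum_range_sub (fun j : ℕ => ((Int.sign (b + j - (j' : ℕ)) : ℤ) : ℝ)) η
  rw [← Fin.sum_univ_eq_sum_range (fun j : ℕ => ((Int.sign (b + (j + 1 : ℕ) - (j' : ℕ)) : ℤ) : ℝ) -
    ((Int.sign (b + j - (j' : ℕ)) : ℤ) : ℝ))] at e
  have e2 : ∀ j : Fin η, b + 1 + (j : ℕ) - (j' : ℕ) = b + ((j : ℕ) + 1 : ℕ) - (j' : ℕ) := fun j => by
    push_cast; ring
  simp only [e2]
  rw [e]
  have h1 := s1_abs_sign (b + η - (j' : ℕ))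
  have h2 := s1_abs_sign (b + (0 : ℕ) - (j' : ℕ))
  exact (abs_sub _ _).trans (by linarith)

theorem ph1_nat (hη : 0 < η) (b : ℤ) (n : ℕ) : |ph1 η (b + n) - ph1 η b| ≤ 2 * n / η := by
  induction n with
  | zero => simp
  | succ n ih =>
    have h := ph1_step hη (b + n)
    have := abs_sub_le (ph1 η (b + n + 1)) (ph1 η (b + n)) (ph1 η b)
    push_cast
    rw [← add_assoc, mul_add, add_div]
    linarith

theorem ph1_lip (hη : 0 < η) (a b : ℤ) : |ph1 η a - ph1 η b| ≤ 2 * |(a : ℝ) - b| / η := by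
  rcases le_total b a with h | h
  · obtain ⟨n, rfl⟩ := Int.le.dest h
    have := ph1_nat hη b n
    push_cast
    rwa [add_sub_cancel_left, Nat.abs_cast]
  · obtain ⟨n, rfl⟩ := Int.le.dest h
    have := ph1_nat hη a n
    push_cast
    rwa [abs_sub_comm, abs_sub_comm (a : ℝ), add_sub_cancel_left, Nat.abs_cast]

theorem abs_cnd {ι : Type} [Fintype ι] (y c : ι → ℝ) (hc : ∑ i, c i = 0) :
    ∑ i, ∑ j, c i * c j * |y i - y j| ≤ 0 := by
  let e := (Fintype.equivFin ι).symm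
  have h := neg_type (ι := Unit) (fun i _ => y (e i)) (α := 1 / 2) (by norm_num) (by norm_num)
    (fun i => c (e i)) (by rw [e.sum_comp c, hc])
  refine le_of_eq_of_le ?_ h
  rw [← e.sum_comp]
  refine sum_congr rfl fun i _ => ?_
  rw [← e.sum_comp]
  refine sum_congr rfl fun j _ => ?_
  simp only [nsq, Pi.sub_apply, univ_unique, sum_singleton]
  rw [← Real.sqrt_eq_rpow, Real.sqrt_sq_eq_abs]

theorem th1_cnd (η : ℕ) {n : ℕ} (y : Fin n → ℤ) (c : Fin n → ℝ) (hc : ∑ i, c i = 0) :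
    ∑ i, ∑ j, c i * c j * th1 η (y i - y j) ≤ 0 := by
  have h := abs_cnd (ι := Fin n × Fin η) (fun p => (y p.1 : ℝ) + (p.2 : ℕ)) (fun p => c p.1)
    (by rw [Fintype.sum_prod_type, sum_comm]; simp [hc])
  have e : ∑ i, ∑ j, c i * c j * th1 η (y i - y j) =
      (∑ p : Fin n × Fin η, ∑ q : Fin n × Fin η,
        c p.1 * c q.1 * |(y p.1 : ℝ) + (p.2 : ℕ) - ((y q.1 : ℝ) + (q.2 : ℕ))|) / η / η -
      (𝔼 j : Fin η, 𝔼 j' : Fin η, |((j : ℕ) : ℝ) - (j' : ℕ)|) * ((∑ i, c i) * ∑ j, c j) := by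
    rw [sum_mul_sum, Fintype.sum_prod_type]
    simp only [th1, expect_sub_distrib, mul_sum, mul_sub, sum_sub_distrib]
    congr 1
    · simp only [Fintype.expect_eq_sum_div_card, Fintype.card_fin, sum_div, mul_sum,
        Fintype.sum_prod_type]
      refine sum_congr rfl fun i _ => ?_
      rw [sum_comm]
      refine sum_congr rfl fun a _ => sum_congr rfl fun j _ => sum_congr rfl fun b _ => ?_
      push_cast
      rw [show (y i : ℝ) - y j + (a : ℕ) - (b : ℕ) = y i + (a : ℕ) - (y j + (b : ℕ)) by ring]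
      ring
    · exact sum_congr rfl fun i _ => sum_congr rfl fun j _ => by ring
  rw [e, hc, mul_zero, mul_zero, sub_zero]
  exact div_nonpos_of_nonpos_of_nonneg (div_nonpos_of_nonpos_of_nonneg h (Nat.cast_nonneg _))
    (Nat.cast_nonneg _)

end Vale.Agent.P318.N
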