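import Vale.Agent.P318N.S1

open Finset
open scoped BigOperators

noncomputable section

namespace Vale.Agent.P318.N

variable {m S N τ η B : ℕ} {u : Dir S N m} {th : Fin S → Fin N → Fin τ} {ε : ℝ}

theorem dt_sub (a x y : Pt m) : dt a (x - y) = dt a x - dt a y := by
  simp only [dt, Pi.sub_apply, mul_sub, sum_sub_distrib]

theorem res_eq (u : Dir S N m) (th : Fin S → Fin N → Fin τ) (s : Fin S) (i : Fin N) (x : Pt m) :
    res u th s i x = dt (u s i) x + (th s i : ℕ) - τ * lab u th s i x := Int.emod_def _ _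

theorem res_nonneg (u : Dir S N m) (th : Fin S → Fin N → Fin τ) (s : Fin S) (i : Fin N) (x : Pt m) :
    0 ≤ res u th s i x :=
  Int.emod_nonneg _ (by have := (th s i).pos; omega)

theorem res_lt (u : Dir S N m) (th : Fin S → Fin N → Fin τ) (s : Fin S) (i : Fin N) (x : Pt m) :
    res u th s i x < τ :=
  Int.emod_lt_of_pos _ (by exact_mod_cast (th s i).pos)

theorem yy_near (u : Dir S N m) (th : Fin S → Fin N → Fin τ) (p q : Vx S m) (s : Fin S)
    (i : Fin N) :
    |((yy u th p s i - yy u th q s i : ℤ) : ℝ) - (dt (u s i) (p.2 - q.2) : ℤ)| ≤ S * τ := by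
  have key : ∀ x : Pt m, 0 ≤ (S : ℤ) * res u th s i x ∧ (S : ℤ) * res u th s i x ≤ S * τ := fun x =>
    ⟨mul_nonneg (Nat.cast_nonneg _) (res_nonneg u th s i x),
      mul_le_mul_of_nonneg_left (res_lt u th s i x).le (Nat.cast_nonneg _)⟩
  have h0 : (0 : ℤ) ≤ S * τ := by positivity
  have : |yy u th p s i - yy u th q s i - dt (u s i) (p.2 - q.2)| ≤ S * τ := by
    have h1 := key p.2
    have h2 := key q.2
    rw [dt_sub, abs_le]
    unfold yy
    split_ifs <;> constructor <;> linarith [h1.1, h1.2, h2.1, h2.2]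
  exact_mod_cast this

theorem s2_avg_ite (s0 : Fin S) (g : Fin S → ℝ) :
    𝔼 s, (if s = s0 then (S : ℝ) * g s else 0) = g s0 := by
  have : (S : ℝ) ≠ 0 := by exact_mod_cast s0.pos.ne'
  rw [Fintype.expect_eq_sum_div_card, Fintype.card_fin, sum_ite_eq' univ s0, if_pos (mem_univ _),
    mul_div_cancel_left₀ _ this]

theorem s2_grad (hη : 0 < η) (hN : 0 < N) (hu : Sgn u) (hUC : UC u η B ε)
    (hε : 8 * S * τ ≤ ε * η) {p q : Vx S m} (hp : p ∈ Box S m B) (hq : q ∈ Box S m B)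
    (s0 : Fin S) (k : Fin m) :
    |(𝔼 s, 𝔼 i, ph1 η (yy u th p s i - yy u th q s i) * u s i k) -
      𝔼 i, ph1 η (yy u th p s0 i - yy u th q s0 i) * u s0 i k| ≤ ε := by
  have : Nonempty (Fin N) := ⟨⟨0, hN⟩⟩
  have : Nonempty (Fin S) := ⟨s0⟩
  have hη' : (0 : ℝ) < η := by exact_mod_cast hη
  have h1 : ∀ s, |(𝔼 i, ph1 η (yy u th p s i - yy u th q s i) * u s i k) -
      𝔼 i, ph1 η (dt (u s i) (p.2 - q.2)) * u s i k| ≤ ε / 4 := fun s => by
    rw [← expect_sub_distrib]
    refine s1_abs_exp fun i => ?_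
    have e : |((u s i k : ℤ) : ℝ)| = 1 := by rcases hu s i k with h | h <;> simp [h]
    rw [← sub_mul, abs_mul, e, mul_one]
    refine (ph1_lip hη _ _).trans ?_
    rw [div_le_iff₀ hη']
    linarith [yy_near u th p q s i]
  have h2 : |(𝔼 s, 𝔼 i, ph1 η (yy u th p s i - yy u th q s i) * u s i k) -
      𝔼 s, 𝔼 i, ph1 η (dt (u s i) (p.2 - q.2)) * u s i k| ≤ ε / 4 := by
    rw [← expect_sub_distrib]
    exact s1_abs_exp h1
  have h3 := hUC s0 (p.2 - q.2) k fun l => by
    have a1 := hp l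
    have a2 := hq l
    rw [Pi.sub_apply, abs_le]
    constructor <;> linarith [a1.1, a1.2, a2.1, a2.2]
  have h4 := h1 s0
  rw [abs_le] at h2 h3 h4 ⊢
  constructor <;> linarith [h2.1, h2.2, h3.1, h3.2, h4.1, h4.2]

/-- The common part is Lipschitz for the metric of a chart. -/
theorem sm_lip (hη : 0 < η) (hN : 0 < N) (hu : Sgn u) (hUC : UC u η B ε)
    (hε : 8 * S * τ ≤ ε * η) {p p' q : Vx S m} (hp : p ∈ Box S m B) (hq : q ∈ Box S m B)
    (h : p.1 = p'.1) : sm u th η p q - sm u th η p' q ≤ ds u th ε p.1 p.2 p'.2 := by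
  set φ : Fin S → Fin N → ℝ := fun s i => ph1 η (yy u th p s i - yy u th q s i) with hφ
  set Δ : Fin m → ℝ := fun k => (p.2 k : ℝ) - p'.2 k with hΔ
  set L : Fin N → ℝ := fun i => (lab u th p.1 i p.2 : ℝ) - lab u th p.1 i p'.2 with hL
  have e1 : ∀ s i, ((yy u th p s i : ℤ) : ℝ) - yy u th p' s i = ∑ k, (u s i k : ℝ) * Δ k -
      if s = p.1 then S * (∑ k, (u s i k : ℝ) * Δ k - τ * L i) else 0 := fun s i => by
    have e0 : ∑ k, (u s i k : ℝ) * Δ k = (dt (u s i) p.2 : ℝ) - dt (u s i) p'.2 := by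
      simp only [dt, hΔ, mul_sub, sum_sub_distrib]
      push_cast
      rfl
    rw [e0]
    unfold yy
    rw [← h]
    split_ifs with hs
    · subst hs
      simp only [res_eq, hL]
      push_cast
      ring
    · push_cast
      ring
  have a1 : sm u th η p q - sm u th η p' q ≤
      𝔼 s, 𝔼 i, φ s i * (((yy u th p s i : ℤ) : ℝ) - yy u th p' s i) := by
    unfold sm
    rw [← expect_sub_distrib]
    refine s1_exp_mono fun s => ?_
    rw [← expect_sub_distrib]
    refine s1_exp_mono fun i => (th1_cvx η _ _).trans (le_of_eq ?_)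
    simp only [hφ]
    push_cast
    ring
  have e2 : ∀ s, 𝔼 i, φ s i * ∑ k, (u s i k : ℝ) * Δ k = ∑ k, Δ k * 𝔼 i, φ s i * u s i k :=
    fun s => by
      simp only [mul_sum, mul_expect]
      rw [expect_sum_comm]
      exact sum_congr rfl fun k _ => expect_congr rfl fun i _ => by ring
  have e3 : ∀ s, 𝔼 i, φ s i * (((yy u th p s i : ℤ) : ℝ) - yy u th p' s i) =
      ∑ k, Δ k * (𝔼 i, φ s i * u s i k) - if s = p.1 then
        S * (∑ k, Δ k * (𝔼 i, φ s i * u s i k) - τ * 𝔼 i, φ s i * L i) else 0 := fun s => by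
    simp only [e1, ← e2]
    split_ifs with hs
    · rw [mul_expect, ← expect_sub_distrib, mul_expect, ← expect_sub_distrib]
      exact expect_congr rfl fun i _ => by ring
    · simp only [sub_zero]
  have e4 : 𝔼 s, ∑ k, Δ k * (𝔼 i, φ s i * u s i k) = ∑ k, Δ k * 𝔼 s, 𝔼 i, φ s i * u s i k := by
    rw [expect_sum_comm]
    exact sum_congr rfl fun k _ => (mul_expect _ _ _).symm
  simp only [e3] at a1
  rw [expect_sub_distrib, e4, s2_avg_ite p.1 fun s =>
    ∑ k, Δ k * (𝔼 i, φ s i * u s i k) - τ * 𝔼 i, φ s i * L i] at a1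
  have a2 : ∑ k, Δ k * (𝔼 s, 𝔼 i, φ s i * u s i k) - ∑ k, Δ k * (𝔼 i, φ p.1 i * u p.1 i k) ≤
      ε * ∑ k, |Δ k| := by
    rw [← sum_sub_distrib, mul_sum]
    refine sum_le_sum fun k _ => ?_
    rw [← mul_sub, mul_comm ε]
    refine (le_abs_self _).trans ?_
    rw [abs_mul]
    exact mul_le_mul_of_nonneg_left (s2_grad hη hN hu hUC hε hp hq p.1 k) (abs_nonneg _)
  have a3 : 𝔼 i, φ p.1 i * L i ≤ 𝔼 i, |L i| := s1_exp_mono fun i => (le_abs_self _).trans (by
    rw [abs_mul]; exact mul_le_of_le_one_left (abs_nonneg _) (abs_ph1_le hη _))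
  have a4 := mul_le_mul_of_nonneg_left a3 (Nat.cast_nonneg τ : (0 : ℝ) ≤ τ)
  unfold ds
  linarith

theorem sm_symm (p q : Vx S m) : sm u th η p q = sm u th η q p :=
  expect_congr rfl fun _ _ => expect_congr rfl fun _ _ => th1_sub_comm _ _ _

theorem sm_self (p : Vx S m) : sm u th η p p = 0 := by simp [sm, th1_zero]

theorem sm_nonneg (p q : Vx S m) : 0 ≤ sm u th η p q :=
  expect_nonneg fun _ _ => expect_nonneg fun _ _ => th1_nonneg _ _

theorem sm_tri (hη : 0 < η) (hN : 0 < N) (p q r : Vx S m) :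
    sm u th η p r ≤ sm u th η p q + sm u th η q r + 4 * η := by
  have : Nonempty (Fin N) := ⟨⟨0, hN⟩⟩
  have : Nonempty (Fin S) := ⟨p.1⟩
  have h : sm u th η p r - sm u th η p q - sm u th η q r ≤ 4 * η := by
    unfold sm
    rw [← expect_sub_distrib, ← expect_sub_distrib]
    refine s1_exp_le fun s => ?_
    rw [← expect_sub_distrib, ← expect_sub_distrib]
    refine s1_exp_le fun i => ?_
    have a1 := th1_le_abs hη (yy u th p s i - yy u th r s i)
    have a2 := abs_sub_le_th1 hη (yy u th p s i - yy u th q s i)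
    have a3 := abs_sub_le_th1 hη (yy u th q s i - yy u th r s i)
    have a4 := abs_sub_le ((yy u th p s i : ℤ) : ℝ) (yy u th q s i : ℤ) (yy u th r s i : ℤ)
    push_cast at a1 a2 a3
    linarith
  linarith

theorem sm_cnd : CND (sm u th η) := fun n x c hc => by
  have e : ∑ a, ∑ b, c a * c b * sm u th η (x a) (x b) =
      𝔼 s, 𝔼 i, ∑ a, ∑ b, c a * c b * th1 η (yy u th (x a) s i - yy u th (x b) s i) := by
    simp only [sm, mul_expect, expect_sum_comm]
  rw [e]
  exact neg_nonneg.1 (by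
    rw [← expect_neg_distrib]
    refine expect_nonneg fun s _ => ?_
    rw [← expect_neg_distrib]
    exact expect_nonneg fun i _ => neg_nonneg.2 (th1_cnd η (fun a => yy u th (x a) s i) c hc))

end Vale.Agent.P318.N
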