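import Vale.Agent.P318N.GluePos

/-! Transfer to a weighted instance. -/

open Finset
open scoped BigOperators

noncomputable section

namespace Vale.Agent.P318.N

theorem transfer {V Ω : Type} [Fintype Ω] [Nonempty Ω] (a : Ω → V) {R : Set V} (hR : ∀ o, a o ∈ R)
    (hR' : ∀ p ∈ R, ∃ o, a o = p) {C : (V → V → ℝ) → ℝ} (hC : Pos R C) {d : V → V → ℝ}
    (hs : ∀ p q, d p q = d q p) (h0 : ∀ p, d p p = 0)
    (ht : ∀ p ∈ R, ∀ q ∈ R, ∀ r ∈ R, d p r ≤ d p q + d q r) (hn : CND d) {G E D g : ℝ}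
    (hG : 0 ≤ G) (hE : 0 < E) (hD : 0 < D)
    (hcut : ∀ F : V → ℝ, G * (𝔼 o, 𝔼 o', ck F (a o) (a o')) ≤ C (ck F)) (hen : C d ≤ E)
    (hav : D ≤ 𝔼 o, 𝔼 o', d (a o) (a o')) (hg : g * E ≤ G * D) :
    Vale.Agent.P318N.Inst (Fintype.card Ω) g := by
  refine inst_of_pos hC a hR hR' d (fun p _ q _ => hs p q) (fun p _ => h0 p) ht hn le_rfl hG hE hD
    (fun F hF => le_trans (mul_le_mul_of_nonneg_left ?_ hG) (hcut F)) hen hav hg
  have h1 : ∀ o o', F (a o) * (1 - F (a o')) ≤ ck F (a o) (a o') := fun o o' => by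
    unfold ck
    rcases hF (a o) with h | h <;> rcases hF (a o') with h' | h' <;> simp [h, h']
  refine le_trans (le_of_eq ?_) (expect_le_expect fun o _ => expect_le_expect fun o' _ => h1 o o')
  simp only [← mul_expect, ← expect_mul, expect_sub_distrib]
  rw [expect_const univ_nonempty]

end Vale.Agent.P318.N
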