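import Vale.Agent.P318.Neg

open Finset MeasureTheory

noncomputable section

namespace Vale.Agent.P318N

open Vale.Agent.P318

/-- smoothed absolute value -/
def th (J d : ℝ) : ℝ := √(d ^ 2 + J ^ 2) - J

/-- its derivative -/
def dth (J d : ℝ) : ℝ := d / √(d ^ 2 + J ^ 2)

variable {J : ℝ}

theorem th_rt_ge (hJ : 0 < J) (d : ℝ) : J ≤ √(d ^ 2 + J ^ 2) :=
  Real.le_sqrt_of_sq_le (by nlinarith [sq_nonneg d])

theorem th_rt_pos (hJ : 0 < J) (d : ℝ) : 0 < √(d ^ 2 + J ^ 2) := hJ.trans_le (th_rt_ge hJ d)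

theorem th_rt_abs (J d : ℝ) : |d| ≤ √(d ^ 2 + J ^ 2) :=
  Real.le_sqrt_of_sq_le (by rw [sq_abs]; nlinarith [sq_nonneg J])

theorem th_rt_sq (J d : ℝ) : √(d ^ 2 + J ^ 2) * √(d ^ 2 + J ^ 2) = d ^ 2 + J ^ 2 :=
  Real.mul_self_sqrt (by positivity)

theorem th_zero (hJ : 0 < J) : th J 0 = 0 := by
  simp [th, Real.sqrt_sq hJ.le]

theorem th_neg (J d : ℝ) : th J (-d) = th J d := by simp [th]

theorem th_sub_comm (J a b : ℝ) : th J (a - b) = th J (b - a) := by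
  rw [← th_neg, neg_sub]

theorem th_nonneg (hJ : 0 < J) (d : ℝ) : 0 ≤ th J d := sub_nonneg.2 (th_rt_ge hJ d)

theorem th_le_abs (hJ : 0 < J) (d : ℝ) : th J d ≤ |d| := by
  have : √(d ^ 2 + J ^ 2) ≤ |d| + J :=
    Real.sqrt_le_iff.2 ⟨by positivity, by nlinarith [sq_abs d, abs_nonneg d]⟩
  unfold th
  linarith

theorem abs_sub_le_th (J d : ℝ) : |d| - J ≤ th J d := sub_le_sub_right (th_rt_abs J d) _

theorem th_cvx (hJ : 0 < J) (a b : ℝ) : th J a - th J b ≤ dth J a * (a - b) := by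
  have hA := th_rt_pos hJ a
  have hB := th_rt_pos hJ b
  have e1 := th_rt_sq J a
  have e2 := th_rt_sq J b
  set A := √(a ^ 2 + J ^ 2)
  set B := √(b ^ 2 + J ^ 2)
  have h1 : a * b + J ^ 2 ≤ A * B := by
    refine le_trans (le_abs_self _) (abs_le_of_sq_le_sq' ?_ (by positivity)).2
    rw [sq_abs]
    have : (A * B) ^ 2 = (a ^ 2 + J ^ 2) * (b ^ 2 + J ^ 2) := by
      rw [← e1, ← e2]; ring
    rw [this]
    nlinarith [sq_nonneg (J * (a - b))]
  unfold th dth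
  rw [div_mul_eq_mul_div, le_div_iff₀ hA]
  nlinarith

theorem abs_dth_le (hJ : 0 < J) (d : ℝ) : |dth J d| ≤ 1 := by
  have hA := th_rt_pos hJ d
  rw [dth, abs_div, abs_of_pos hA, div_le_one hA]
  exact th_rt_abs J d

theorem dth_lip (hJ : 0 < J) (a b : ℝ) : |dth J a - dth J b| ≤ 2 * |a - b| / J := by
  have hA := th_rt_pos hJ a
  have hB := th_rt_pos hJ b
  have hJA := th_rt_ge hJ a
  have c1 := th_cvx hJ a b
  have c2 := th_cvx hJ b a
  have d1 := abs_dth_le hJ a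
  have d2 := abs_dth_le hJ b
  have h1 : |√(b ^ 2 + J ^ 2) - √(a ^ 2 + J ^ 2)| ≤ |a - b| := by
    unfold th at c1 c2
    have f1 : dth J a * (a - b) ≤ |a - b| :=
      (le_abs_self _).trans (by rw [abs_mul]; exact mul_le_of_le_one_left (abs_nonneg _) d1)
    have f2 : dth J b * (b - a) ≤ |a - b| :=
      (le_abs_self _).trans (by
        rw [abs_mul, abs_sub_comm b a]; exact mul_le_of_le_one_left (abs_nonneg _) d2)
    rw [abs_le]
    constructor <;> linarith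
  have e : dth J a - dth J b = ((a - b) + dth J b * (√(b ^ 2 + J ^ 2) - √(a ^ 2 + J ^ 2))) /
      √(a ^ 2 + J ^ 2) := by
    unfold dth
    field_simp
    ring
  rw [e, abs_div, abs_of_pos hA]
  refine div_le_div₀ (by positivity) ?_ hJ hJA
  refine (abs_add_le _ _).trans ?_
  rw [abs_mul]
  have := mul_le_mul d2 h1 (abs_nonneg _) zero_le_one
  linarith

theorem abs_cnd {n : ℕ} (y c : Fin n → ℝ) (hc : ∑ i, c i = 0) :
    ∑ i, ∑ j, c i * c j * |y i - y j| ≤ 0 := by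
  have h := neg_type (ι := Unit) (fun i _ => y i) (α := 1 / 2) (by norm_num) (by norm_num) c hc
  refine le_of_eq_of_le ?_ h
  refine sum_congr rfl fun i _ => sum_congr rfl fun j _ => ?_
  simp only [nsq, Pi.sub_apply, univ_unique, sum_singleton]
  rw [← Real.sqrt_eq_rpow, Real.sqrt_sq_eq_abs]

theorem th_cnd (hJ : 0 < J) {n : ℕ} (y c : Fin n → ℝ) (hc : ∑ i, c i = 0) :
    ∑ i, ∑ j, c i * c j * th J (y i - y j) ≤ 0 := by
  obtain ⟨μ, hμ⟩ := Real.exists_measure_rpow_eq_integral_rpowIntegrand₀₁ (p := 1 / 2)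
    ⟨by norm_num, by norm_num⟩
  have e : ∀ i j, √((y i - y j) ^ 2 + J ^ 2) =
      ∫ t in Set.Ioi 0, Real.rpowIntegrand₀₁ (1 / 2) t ((y i - y j) ^ 2 + J ^ 2) ∂μ := fun i j => by
    rw [Real.sqrt_eq_rpow]
    exact (hμ _ (by positivity : (0 : ℝ) ≤ (y i - y j) ^ 2 + J ^ 2)).2
  have e0 : ∑ i, ∑ j, c i * c j * th J (y i - y j) =
      ∑ i, ∑ j, c i * c j * √((y i - y j) ^ 2 + J ^ 2) - J * ((∑ i, c i) * ∑ j, c j) := by
    rw [sum_mul_sum]
    simp only [th, mul_sum, ← sum_sub_distrib]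
    exact sum_congr rfl fun i _ => sum_congr rfl fun j _ => by ring
  rw [e0, hc, mul_zero, mul_zero, sub_zero]
  simp only [e]
  rw [neg_int_sum c _ _ fun i j =>
    (hμ _ (by positivity : (0 : ℝ) ≤ (y i - y j) ^ 2 + J ^ 2)).1]
  refine setIntegral_nonpos measurableSet_Ioi fun t ht => ?_
  have ht' : 0 < t := ht
  have e2 : ∑ i, ∑ j, c i * c j * Real.rpowIntegrand₀₁ (1 / 2) t ((y i - y j) ^ 2 + J ^ 2) =
      t ^ (1 / 2 : ℝ) * t⁻¹ * ((∑ i, c i) * ∑ j, c j) - t ^ (1 / 2 : ℝ) *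
        ∑ i, ∑ j, c i * c j * (t + J ^ 2 + nsq ((fun _ : Unit => y i) - fun _ => y j))⁻¹ := by
    rw [sum_mul_sum]
    simp only [Real.rpowIntegrand₀₁, mul_sum, ← sum_sub_distrib, nsq, Pi.sub_apply, univ_unique,
      sum_singleton]
    exact sum_congr rfl fun i _ => sum_congr rfl fun j _ => by
      rw [add_comm ((y i - y j) ^ 2), ← add_assoc]; ring
  rw [e2, hc, mul_zero, mul_zero, zero_sub, neg_nonpos]
  exact mul_nonneg (by positivity)
    (neg_inv_psd (ι := Unit) (fun i _ => y i) c (by positivity : 0 < t + J ^ 2))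

end Vale.Agent.P318N
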