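import Vale.Agent.P318N.Core
import Vale.Agent.P318N.ExB

/-! Parameters: S = m², N = m⁵, ε = 1/(8m), τ = m^12, η = m^16, ρ = m^18, Q = m^20, J = 15 * (Nat.log 2 m + 1), m ≥ max m0 1000. K ≤ 8 √(log m), 16 J + 17 ≤ 500 log m, S Q^m (ρ+2)^m ≤ m^(41 m) = exp (41 m log m). Inst.mono, glue2. -/

open Finset
open scoped BigOperators

noncomputable section

namespace Vale.Agent.P318.N

variable {m S N τ η J B Q ρ : ℕ} {ε K : ℝ} {u : Dir S N m} {th : Fin S → Fin N → Fin τ}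

theorem top_pow {m : ℕ} (hm : 1000 ≤ m) (a b : ℕ) (h : a + 1 = b) : 1000 * m ^ a ≤ m ^ b := by
  rw [← h, pow_succ']
  exact Nat.mul_le_mul_right _ hm

theorem top_J {m : ℕ} (hm : 1000 ≤ m) : 10 * (((m ^ 2 : ℕ) : ℝ) / (1 / (8 * m)) +
    (m ^ 2 : ℕ) * (m ^ 5 : ℕ)) ^ 2 ≤ 2 ^ (15 * (Nat.log 2 m + 1)) := by
  have p : ∀ a b, a ≤ b → m ^ a ≤ m ^ b := fun a b => Nat.pow_le_pow_right (by omega)
  have h1 : 8 * m ^ 3 + m ^ 7 ≤ 2 * m ^ 7 := by
    have := top_pow hm 3 4 rfl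
    have := p 4 7 (by omega)
    omega
  have h2 : 10 * (8 * m ^ 3 + m ^ 7) ^ 2 ≤ 2 ^ (15 * (Nat.log 2 m + 1)) := by
    have h3 := Nat.pow_le_pow_left h1 2
    have h4 := top_pow hm 14 15 rfl
    have h5 := Nat.pow_le_pow_left (Nat.lt_pow_succ_log_self one_lt_two m).le 15
    rw [← pow_mul, mul_comm] at h5
    have h6 : (2 * m ^ 7) ^ 2 = 4 * m ^ 14 := by ring
    exact le_trans (by omega) h5
  have e : ((m ^ 2 : ℕ) : ℝ) / (1 / (8 * m)) + (m ^ 2 : ℕ) * (m ^ 5 : ℕ) =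
      ((8 * m ^ 3 + m ^ 7 : ℕ) : ℝ) := by
    rw [div_div_eq_mul_div, div_one]
    push_cast
    ring
  rw [e]
  exact_mod_cast h2

theorem top_N {m : ℕ} (hm : 1000 ≤ m) : ((m ^ 2 * ((m ^ 20) ^ m * (m ^ 18 + 2) ^ m) : ℕ) : ℝ) ≤
    Real.exp (41 * m * Real.log m) := by
  have h0 : (0 : ℝ) < m := by exact_mod_cast (by omega : 0 < m)
  have h1 : m ^ 18 + 2 ≤ m ^ 19 := by
    have := top_pow hm 18 19 rfl
    have : 1 ≤ m ^ 18 := Nat.one_le_pow _ _ (by omega)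
    omega
  have h2 : m ^ 2 * ((m ^ 20) ^ m * (m ^ 18 + 2) ^ m) ≤ m ^ (41 * m) := by
    refine (Nat.mul_le_mul (Nat.pow_le_pow_right (by omega) (by omega : 2 ≤ 2 * m))
      (Nat.mul_le_mul_left _ (Nat.pow_le_pow_left h1 m))).trans_eq ?_
    ring
  have e : (41 * m : ℝ) = ((41 * m : ℕ) : ℝ) := by push_cast; ring
  rw [e, Real.exp_nat_mul, Real.exp_log h0]
  exact_mod_cast h2

theorem top_g {m : ℕ} (hm : 1000 ≤ m) : 1 / 10 ^ 7 * √m / (Real.log m * √(Real.log m)) ≤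
    √m / (640 * (2 * √(12 * Real.log m) + 1) * (16 * ((15 * (Nat.log 2 m + 1) : ℕ) : ℝ) + 17)) := by
  have h0 : (1000 : ℝ) ≤ m := by exact_mod_cast hm
  have h1 : 1 ≤ Real.log m := (Real.le_log_iff_exp_le (by linarith)).2
    (by linarith [Real.exp_one_lt_d9])
  have h2 : 1 ≤ √(Real.log m) := Real.one_le_sqrt.2 h1
  have h3 : √(12 * Real.log m) ≤ 7 / 2 * √(Real.log m) := by
    rw [Real.sqrt_mul (by norm_num)]
    exact mul_le_mul_of_nonneg_right (Real.sqrt_le_iff.2 (by norm_num)) (by linarith)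
  have h4 : (Nat.log 2 m : ℝ) * Real.log 2 ≤ Real.log m := by
    rw [← Real.log_pow]
    refine Real.log_le_log (by positivity) ?_
    exact_mod_cast Nat.pow_log_le_self 2 (by omega : m ≠ 0)
  have h5 : (Nat.log 2 m : ℝ) ≤ 2 * Real.log m := by
    have := mul_le_mul_of_nonneg_left Real.log_two_gt_d9.le (Nat.cast_nonneg (Nat.log 2 m))
    have : (0 : ℝ) ≤ Nat.log 2 m := Nat.cast_nonneg _
    linarith
  have h6 : 16 * ((15 * (Nat.log 2 m + 1) : ℕ) : ℝ) + 17 ≤ 1000 * Real.log m := by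
    push_cast
    linarith
  have h7 := mul_le_mul (show 640 * (2 * √(12 * Real.log m) + 1) ≤ 10 ^ 4 * √(Real.log m) by
    linarith) h6 (by positivity) (by positivity)
  rw [one_div, inv_mul_eq_div, div_div]
  refine div_le_div_of_nonneg_left (Real.sqrt_nonneg _) (by positivity) (h7.trans_eq ?_)
  ring

theorem inst_m : ∃ m0 : ℕ, ∀ m : ℕ, m0 ≤ m → Vale.Agent.P318N.Inst (Real.exp (41 * m * Real.log m))
    (1 / 10 ^ 7 * √m / (Real.log m * √(Real.log m))) := by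
  obtain ⟨m0, H⟩ := ex_dirB
  refine ⟨max m0 1000, fun m hm => ?_⟩
  have h : 1000 ≤ m := (le_max_right _ _).trans hm
  have h0 : 0 < m := by omega
  have hr : (0 : ℝ) < m := by exact_mod_cast h0
  have p : ∀ a b, a ≤ b → m ^ a ≤ m ^ b := fun a b => Nat.pow_le_pow_right h0
  obtain ⟨u, u1, u2, u3⟩ := H m ((le_max_left _ _).trans hm) (m ^ 16) (m ^ 20 + m ^ 18)
    (by have := p 18 20 (by omega); omega)
  refine (core (τ := m ^ 12) (J := 15 * (Nat.log 2 m + 1)) h0 u1 (by positivity) (by positivity)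
    (by positivity) (by positivity) (by positivity) (le_add_of_nonneg_left (by positivity)) u3 u2
    ?_ (top_J h) ?_ ?_ ?_ ?_).mono (by positivity) (top_N h) (top_g h)
  · have : 320 * m ^ 15 ≤ m ^ 16 := by have := top_pow h 15 16 rfl; omega
    have : (320 * m ^ 15 : ℝ) ≤ m ^ 16 := by exact_mod_cast this
    rw [one_div, inv_mul_eq_div, le_div_iff₀ (by positivity)]
    push_cast
    linarith
  · exact (mul_one_div_cancel (by positivity)).le
  · have := top_pow h 11 12 rfl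
    have e : 64 * m * (m ^ 5) ^ 2 = 64 * m ^ 11 := by ring
    omega
  · have := top_pow h 19 20 rfl
    have := p 1 19 (by omega)
    have := p 14 19 (by omega)
    have := p 16 19 (by omega)
    have e : 20 * (m * (m ^ 18 + 1) + 2 * m ^ 2 * m ^ 12 + 32 * m ^ 16) =
      20 * m ^ 19 + 20 * m ^ 1 + 40 * m ^ 14 + 640 * m ^ 16 := by ring
    omega
  · have := top_pow h 17 18 rfl
    have := p 1 17 (by omega)
    have := p 15 17 (by omega)
    have e : 4 * m * (1 + 2 * m ^ 2 * m ^ 12 + 32 * m ^ 16) =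
      4 * m ^ 1 + 8 * m ^ 15 + 128 * m ^ 17 := by ring
    omega

theorem top : ∃ c0 : ℝ, 0 < c0 ∧ ∃ n0 : ℕ, ∀ n : ℕ, n0 ≤ n → ∃ c : Fin n → Fin n → ℝ, IsCap c ∧
    0 < glValue c ∧ c0 * √(Real.log n) / Real.log (Real.log n) ^ 2 ≤ sparsity c / glValue c := by
  obtain ⟨m0, h⟩ := inst_m
  exact Vale.Agent.P318N.glue2 (by norm_num) (by norm_num) m0 h

end Vale.Agent.P318.N
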