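import Vale.Agent.P318N.ExU

/-! Existence of the directions for S = m², N = m^a, B ≤ m^b, precision ε ≥ 1/m^c. -/

open Finset
open scoped BigOperators

noncomputable section

namespace Vale.Agent.P318.N

theorem ex_gen (a b c : ℕ) (hac : 2 * c + 3 ≤ a) : ∃ m0 : ℕ, ∀ m ≥ m0, ∀ (η B : ℕ) (ε K : ℝ),
    B ≤ m ^ b → 1 / (m : ℝ) ^ c ≤ ε → √(2 * (a + 1) * Real.log m) + 1 ≤ K →
    ∃ u : Dir (m ^ 2) (m ^ a) m, Sgn u ∧ UC u η B ε ∧ GC u K := by
  refine ⟨128 * (b + 5), fun m hm η B ε K hB hε hK => ?_⟩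
  have hx : (128 * (b + 5) : ℝ) ≤ m := by exact_mod_cast hm
  have hb : (0 : ℝ) ≤ b := b.cast_nonneg
  have h0 : (0 : ℝ) < m := by linarith
  have h1 : (1 : ℝ) ≤ m := by linarith
  have he : (m : ℝ) ≤ Real.exp m := by linarith [Real.add_one_le_exp (m : ℝ)]
  have hs := Real.sqrt_nonneg (2 * (a + 1) * Real.log m)
  have hm0 : 0 < m := by omega
  refine exists_dir hm0 (by positivity) (by positivity) (lt_of_lt_of_le (by positivity) hε)
    (by linarith) ?_ ?_ ?_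
  · have hB' : (B : ℝ) ≤ m ^ b := by exact_mod_cast hB
    have h20 : (1 : ℝ) ≤ m ^ b := one_le_pow₀ h1
    have hA : (2 * B + 1 : ℝ) ≤ Real.exp ((b + 1 : ℕ) * m) := by
      rw [Real.exp_nat_mul]
      calc (2 * B + 1 : ℝ) ≤ m ^ b * m := by nlinarith
        _ = m ^ (b + 1) := by ring
        _ ≤ _ := pow_le_pow_left₀ h0.le he _
    have hP : (2 * B + 1 : ℝ) ^ m ≤ Real.exp (m * ((b + 1 : ℕ) * m)) := by
      rw [Real.exp_nat_mul]
      exact pow_le_pow_left₀ (by positivity) hA m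
    have h4 : (m : ℝ) ^ 4 ≤ Real.exp ((4 : ℕ) * m) := by
      rw [Real.exp_nat_mul]
      exact pow_le_pow_left₀ h0.le he 4
    have hE : (m : ℝ) ^ 3 / 128 ≤ ((m ^ a : ℕ) : ℝ) * ε ^ 2 / 128 := by
      rw [Nat.cast_pow]
      calc (m : ℝ) ^ 3 / 128 = m ^ (2 * c + 3) * (1 / m ^ c) ^ 2 / 128 := by field_simp; ring
        _ ≤ _ := by gcongr
    have hF : Real.exp (m * ((b + 1 : ℕ) * m)) * Real.exp (-(m ^ 3 / 128)) *
        Real.exp ((4 : ℕ) * m) ≤ 1 := by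
      rw [← Real.exp_add, ← Real.exp_add, Real.exp_le_one_iff]
      push_cast
      nlinarith [mul_le_mul_of_nonneg_right hx (sq_nonneg (m : ℝ)),
        mul_le_mul_of_nonneg_right h1 h0.le]
    have hG : Real.exp (m * ((b + 1 : ℕ) * m)) * Real.exp (-(m ^ 3 / 128)) * m ^ 4 ≤ 1 :=
      le_trans (by gcongr) hF
    calc _ ≤ ((m ^ 2 : ℕ) : ℝ) * (Real.exp (m * ((b + 1 : ℕ) * m)) *
          (m * (2 * Real.exp (-(m ^ 3 / 128))))) := by gcongr
      _ = 2 / m * (Real.exp (m * ((b + 1 : ℕ) * m)) * Real.exp (-(m ^ 3 / 128)) * m ^ 4) := by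
          rw [Nat.cast_pow]; field_simp
      _ ≤ 2 / m * 1 := by gcongr
      _ < 1 / 2 := by rw [mul_one, div_lt_iff₀ h0]; linarith
  · have hl : 0 ≤ 2 * (a + 1) * Real.log m := mul_nonneg (by positivity) (Real.log_nonneg h1)
    have hE : (a + 1 : ℕ) * Real.log m ≤ (K - 1) ^ 2 / 2 := by
      have := pow_le_pow_left₀ hs (le_sub_iff_add_le.2 hK) 2
      rw [Real.sq_sqrt hl] at this
      push_cast
      linarith
    calc _ ≤ ((m ^ a : ℕ) : ℝ) * (2 * Real.exp (-((a + 1 : ℕ) * Real.log m))) := by gcongr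
      _ = 2 / m := by
          rw [Real.exp_neg, Real.exp_nat_mul, Real.exp_log h0, Nat.cast_pow]; field_simp; ring
      _ ≤ 1 / 16 := by rw [div_le_iff₀ h0]; linarith
  · have h2 : (2 * m + 1) * 2 ≤ 2 ^ m := by
      have h3 : m - 3 < 2 ^ (m - 3) := Nat.lt_two_pow_self
      have h4 : 2 ^ m = 2 ^ (m - 3) * 8 := by
        rw [show (8 : ℕ) = 2 ^ 3 from rfl, ← pow_add, Nat.sub_add_cancel (by omega)]
      omega
    have h5 : (2 * m + 1) ^ m * 2 ≤ 2 ^ m ^ 2 := by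
      calc (2 * m + 1) ^ m * 2 ≤ (2 * m + 1) ^ m * 2 ^ m :=
            Nat.mul_le_mul_left _ (by omega)
        _ = ((2 * m + 1) * 2) ^ m := (mul_pow _ _ _).symm
        _ ≤ (2 ^ m) ^ m := Nat.pow_le_pow_left h2 m
        _ = _ := by rw [← pow_mul, sq]
    have h6 : (2 * m + 1 : ℝ) ^ m * 2 ≤ 2 ^ m ^ 2 := by exact_mod_cast h5
    rw [one_div, inv_pow, ← div_eq_mul_inv, div_le_iff₀ (by positivity)]
    linarith

end Vale.Agent.P318.N
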