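import Vale.Agent.P318N.Glue

noncomputable section

namespace Vale.Agent.P318N

open Vale.Agent.P318

/-- the case `p = 1 / 2` -/
theorem glue1 {A B : ℝ} (hA : 1 ≤ A) (hB : 0 < B) (m0 : ℕ)
    (h : ∀ m : ℕ, m0 ≤ m → Inst (Real.exp (A * m * Real.log m)) (B * √m / √(Real.log m))) :
    ∃ c0 : ℝ, 0 < c0 ∧ ∃ n0 : ℕ, ∀ n : ℕ, n0 ≤ n → ∃ c : Fin n → Fin n → ℝ, IsCap c ∧
      0 < glValue c ∧ c0 * √(Real.log n) / Real.log (Real.log n) ≤ sparsity c / glValue c := by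
  have := glue (p := 1 / 2) hA hB (by norm_num) m0 fun m hm => by
    rw [← Real.sqrt_eq_rpow]
    exact h m hm
  rw [show (1 / 2 + 1 / 2 : ℝ) = 1 by norm_num] at this
  simpa only [Real.rpow_one] using this

end Vale.Agent.P318N
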