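import Vale.Agent.P318N.Lip

/-! The common part minus the label part is Lipschitz with a small constant. -/

open Finset
open scoped BigOperators

noncomputable section

namespace Vale.Agent.P318.N

variable {m S N τ η J B Q ρ : ℕ} {ε K : ℝ} {u : Dir S N m} {th : Fin S → Fin N → Fin τ}

/-- The label part of the common distance in a chart. -/
def gg (u : Dir S N m) (th : Fin S → Fin N → Fin τ) (η : ℕ) (s : Fin S) (x z : Pt m) : ℝ :=
  𝔼 i, th1 η (τ * (lab u th s i x - lab u th s i z))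

theorem vr_lip (hu : Sgn u) (hτ : 0 < τ) (hη : 0 < η) (hN : 0 < N) (hU : UC u η B ε)
    (h : 40 * S * τ ≤ ε * η) (s : Fin S) {x x' : Pt m} {r : Vx S m} (hx : (s, x) ∈ Box S m B)
    (hr : r ∈ Box S m B) : sm u th η (s, x) r - sm u th η (s, x') r ≤
      τ * (𝔼 i, ph1 η (yy u th (s, x) s i - yy u th r s i) *
        ((lab u th s i x : ℝ) - lab u th s i x')) + ε * ∑ k, |(x k : ℝ) - x' k| := by
  have : Nonempty (Fin N) := ⟨⟨0, hN⟩⟩
  have : Nonempty (Fin S) := ⟨s⟩
  have hη' : (0 : ℝ) < η := by exact_mod_cast hη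
  have hτ' : (1 : ℝ) ≤ τ := by exact_mod_cast hτ
  have hS : (1 : ℝ) ≤ S := by exact_mod_cast s.pos
  obtain ⟨L, hL⟩ : ∃ L : ℝ, L = ∑ k, |(x k : ℝ) - x' k| := ⟨_, rfl⟩
  obtain ⟨ψ, hψ⟩ : ∃ ψ : Fin S → Fin N → ℝ, ∀ s' i, ψ s' i = ph1 η (dt (u s' i) (x - r.2)) :=
    ⟨_, fun _ _ => rfl⟩
  obtain ⟨φ, hφ⟩ : ∃ φ : Fin S → Fin N → ℝ,
      ∀ s' i, φ s' i = ph1 η (yy u th (s, x) s' i - yy u th r s' i) := ⟨_, fun _ _ => rfl⟩
  obtain ⟨D, hD⟩ : ∃ D : Fin S → Fin N → ℝ, ∀ s' i, D s' i = dt (u s' i) (x - x') :=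
    ⟨_, fun _ _ => rfl⟩
  obtain ⟨Δ, hΔ⟩ : ∃ Δ : Fin N → ℝ, ∀ i, Δ i = (lab u th s i x : ℝ) - lab u th s i x' :=
    ⟨_, fun _ => rfl⟩
  have c1 : ∀ s' i, |φ s' i - ψ s' i| ≤ ε / 4 := fun s' i => by
    rw [hφ, hψ]
    refine (ph1_lip hη _ _).trans ?_
    have a1 := abs_le.1 (yy_close (u := u) (th := th) hτ (s, x) s' i)
    have a2 := abs_le.1 (yy_close (u := u) (th := th) hτ r s' i)
    have a3 : |((yy u th (s, x) s' i - yy u th r s' i : ℤ) : ℝ) - dt (u s' i) (x - r.2)| ≤
        2 * (S * τ) := by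
      rw [lip_dt, abs_le]
      push_cast
      constructor <;> linarith [a1.1, a1.2, a2.1, a2.2]
    have a4 : (1 : ℝ) ≤ S * τ := one_le_mul_of_one_le_of_one_le hS hτ'
    rw [div_le_iff₀ hη']
    linarith
  have c2 : ∀ s' i, |D s' i| ≤ L := fun s' i => by
    rw [hD, hL, lip_dt, Int.cast_sub]
    exact dt_sub_le hu s' i x x'
  have c3 : ∀ s' i, |φ s' i * D s' i - ψ s' i * D s' i| ≤ ε / 4 * L := fun s' i => by
    rw [← sub_mul, abs_mul]
    exact mul_le_mul (c1 s' i) (c2 s' i) (abs_nonneg _) ((abs_nonneg _).trans (c1 s' i))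
  have c5 : ∀ s' i, th1 η (yy u th (s, x) s' i - yy u th r s' i) -
      th1 η (yy u th (s, x') s' i - yy u th r s' i) ≤ ψ s' i * D s' i + ε / 4 * L +
        if s' = s then S * (τ * (φ s i * Δ i) - ψ s i * D s i + ε / 4 * L) else 0 := fun s' i => by
    refine (th1_conv _ _).trans ?_
    have e := congrArg (Int.cast : ℤ → ℝ) (yy_sub (u := u) (th := th) s s' i x x')
    rw [← hφ, Int.cast_sub, Int.cast_sub, sub_sub_sub_cancel_right]
    have a1 := abs_le.1 (c3 s' i)
    split_ifs at e ⊢ with h1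
    · subst h1
      push_cast at e
      rw [e, ← hD, ← hΔ]
      have a3 : τ * (φ s' i * Δ i) - φ s' i * D s' i ≤
          τ * (φ s' i * Δ i) - ψ s' i * D s' i + ε / 4 * L := by linarith [a1.1]
      have a4 := mul_le_mul_of_nonneg_left a3 (zero_le_one.trans hS)
      linarith [a1.2]
    · push_cast at e
      rw [e, ← hD]
      linarith [a1.2]
  have c6 : ∀ s', (𝔼 i, ψ s' i * D s' i) =
      ∑ k, ((x k : ℝ) - x' k) * 𝔼 i, ψ s' i * u s' i k := fun s' => by
    simp only [Finset.mul_expect]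
    rw [← Finset.expect_sum_comm]
    refine Finset.expect_congr rfl fun i _ => ?_
    rw [hD, dt]
    push_cast
    rw [Finset.mul_sum]
    refine Finset.sum_congr rfl fun k _ => ?_
    simp only [Pi.sub_apply, Int.cast_sub]
    ring
  have c7 : (𝔼 s', 𝔼 i, ψ s' i * D s' i) - 𝔼 i, ψ s i * D s i ≤ ε / 2 * L := by
    simp only [c6]
    rw [Finset.expect_sum_comm, ← Finset.sum_sub_distrib, hL, Finset.mul_sum]
    refine Finset.sum_le_sum fun k _ => (le_abs_self _).trans ?_
    rw [← Finset.mul_expect, ← mul_sub, abs_mul, mul_comm, abs_sub_comm]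
    refine mul_le_mul_of_nonneg_right ?_ (abs_nonneg _)
    simp only [hψ]
    refine hU s (x - r.2) k fun l => abs_le.2 ?_
    have a1 := hx l
    have a2 := hr l
    simp only [Pi.sub_apply] at a1 ⊢
    constructor <;> linarith [a1.1, a1.2, a2.1, a2.2]
  have c8 : ∀ s', (𝔼 i, th1 η (yy u th (s, x) s' i - yy u th r s' i)) -
      (𝔼 i, th1 η (yy u th (s, x') s' i - yy u th r s' i)) ≤ (𝔼 i, ψ s' i * D s' i) + ε / 4 * L +
        if s' = s then S * (τ * (𝔼 i, φ s i * Δ i) - (𝔼 i, ψ s i * D s i) + ε / 4 * L) else 0 :=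
    fun s' => by
    rw [← Finset.expect_sub_distrib]
    refine (Finset.expect_le_expect fun i _ => c5 s' i).trans_eq ?_
    split_ifs
    · simp only [Finset.expect_add_distrib, Finset.expect_sub_distrib, ← Finset.mul_expect,
        Fintype.expect_const]
    · simp only [Finset.expect_add_distrib, Fintype.expect_const]
  unfold sm
  rw [← Finset.expect_sub_distrib]
  refine (Finset.expect_le_expect fun s' _ => c8 s').trans ?_
  rw [Finset.expect_add_distrib, Finset.expect_add_distrib, lip_ite, Fintype.expect_const, ← hL]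
  simp only [← hΔ, ← hφ]
  linarith

theorem vr_lab (s : Fin S) (i : Fin N) (x : Pt m) :
    (τ : ℝ) * lab u th s i x = dt (u s i) x + (th s i : ℕ) - res u th s i x := by
  have h : (τ : ℤ) * lab u th s i x = dt (u s i) x + (th s i : ℕ) - res u th s i x := by
    simp only [res, lab, Int.emod_def]
    ring
  exact_mod_cast h

theorem vr_res (hτ : 0 < τ) (s : Fin S) (i : Fin N) (x : Pt m) :
    (0 : ℝ) ≤ res u th s i x ∧ (res u th s i x : ℝ) ≤ τ := by
  have h0 : (0 : ℤ) < τ := by exact_mod_cast hτ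
  exact ⟨by exact_mod_cast Int.emod_nonneg _ h0.ne',
    by exact_mod_cast (Int.emod_lt_of_pos _ h0).le⟩

theorem vr_step (hu : Sgn u) (hτ : 0 < τ) (hη : 0 < η) (hN : 0 < N) (hU : UC u η B ε)
    (h : 40 * S * τ ^ 2 ≤ ε * η) (s : Fin S) {x x' z : Pt m} (hx : (s, x) ∈ Box S m B)
    (hz : (s, z) ∈ Box S m B) (h1 : ∑ k, |(x k : ℝ) - x' k| ≤ 1) :
    (sm u th η (s, x) (s, z) - gg u th η s x z) -
      (sm u th η (s, x') (s, z) - gg u th η s x' z) ≤ 2 * ε := by
  have : Nonempty (Fin N) := ⟨⟨0, hN⟩⟩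
  have hη' : (0 : ℝ) < η := by exact_mod_cast hη
  have hτ' : (1 : ℝ) ≤ τ := by exact_mod_cast hτ
  have hS : (1 : ℝ) ≤ S := by exact_mod_cast s.pos
  have hSτ : (1 : ℝ) ≤ S * τ := one_le_mul_of_one_le_of_one_le hS hτ'
  have h40 : 40 * S * τ ≤ ε * η := le_trans (by nlinarith) h
  have hε : 0 ≤ ε := by
    by_contra hn
    nlinarith [mul_pos (neg_pos.2 (not_le.1 hn)) hη']
  have a1 := vr_lip (th := th) hu hτ hη hN hU h40 s (x' := x') hx hz
  have a2 : gg u th η s x' z - gg u th η s x z ≤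
      𝔼 i, -(ph1 η (τ * (lab u th s i x' - lab u th s i z)) *
        (τ * ((lab u th s i x : ℝ) - lab u th s i x'))) := by
    rw [gg, gg, ← expect_sub_distrib]
    refine expect_le_expect fun i _ => (th1_conv _ _).trans_eq ?_
    push_cast
    ring
  have a3 : τ * (𝔼 i, ph1 η (yy u th (s, x) s i - yy u th (s, z) s i) *
        ((lab u th s i x : ℝ) - lab u th s i x')) +
      (𝔼 i, -(ph1 η (τ * (lab u th s i x' - lab u th s i z)) *
        (τ * ((lab u th s i x : ℝ) - lab u th s i x')))) ≤ ε := by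
    rw [mul_expect, ← expect_add_distrib]
    refine expect_le univ_nonempty fun i _ => ?_
    have b1 := abs_le.1 ((dt_sub_le hu s i x x').trans h1)
    have b2 := vr_res (u := u) (th := th) hτ s i x
    have b3 := vr_res (u := u) (th := th) hτ s i x'
    have b4 := vr_res (u := u) (th := th) hτ s i z
    have b5 : |(τ : ℝ) * ((lab u th s i x : ℝ) - lab u th s i x')| ≤ 2 * τ := by
      rw [mul_sub, vr_lab, vr_lab, abs_le]
      constructor <;> linarith [b1.1, b1.2, b2.1, b2.2, b3.1, b3.2]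
    have b6 : |((yy u th (s, x) s i - yy u th (s, z) s i : ℤ) : ℝ) -
        ((τ * (lab u th s i x' - lab u th s i z) : ℤ) : ℝ)| ≤ 3 * (S * τ) := by
      simp only [yy, if_true]
      push_cast
      rw [mul_sub, vr_lab, vr_lab, abs_le]
      have c1 := mul_le_mul_of_nonneg_left b2.2 (zero_le_one.trans hS)
      have c2 := mul_le_mul_of_nonneg_left b4.2 (zero_le_one.trans hS)
      have c3 := mul_nonneg (zero_le_one.trans hS) b2.1
      have c4 := mul_nonneg (zero_le_one.trans hS) b4.1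
      have c5 : (τ : ℝ) ≤ S * τ := le_mul_of_one_le_left (zero_le_one.trans hτ') hS
      constructor <;> linarith [b1.1, b1.2, b3.1, b3.2, b4.1, b4.2]
    have b7 := (ph1_lip hη (yy u th (s, x) s i - yy u th (s, z) s i)
      (τ * (lab u th s i x' - lab u th s i z))).trans
      (div_le_div_of_nonneg_right (b := 14 * ((S : ℝ) * τ)) (by linarith) hη'.le)
    have b8 := mul_le_mul b7 b5 (abs_nonneg _) (by positivity)
    rw [← abs_mul] at b8
    have b9 : 14 * ((S : ℝ) * τ) / η * (2 * τ) ≤ ε := by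
      rw [div_mul_eq_mul_div, div_le_iff₀ hη']
      nlinarith
    have b10 := (le_abs_self _).trans (b8.trans b9)
    linarith
  linarith [mul_le_mul_of_nonneg_left h1 hε]

theorem vr_path {f : Pt m → ℝ} {c : ℝ} (s : Fin S)
    (h : ∀ x x', (s, x) ∈ Box S m B → ∑ k, |(x k : ℝ) - x' k| ≤ 1 → f x - f x' ≤ c)
    {x' : Pt m} (hx' : (s, x') ∈ Box S m B) (n : ℕ) : ∀ x, (s, x) ∈ Box S m B →
      ∑ k, |x k - x' k| = n → f x - f x' ≤ c * n := by
  induction n with
  | zero =>
    intro x _ e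
    obtain rfl : x = x' := funext fun k => sub_eq_zero.1 (abs_eq_zero.1
      ((sum_eq_zero_iff_of_nonneg fun _ _ => abs_nonneg _).1 e k (mem_univ k)))
    simp
  | succ n ih =>
    intro x hx e
    obtain ⟨k, hk⟩ : ∃ k, x k ≠ x' k := by
      by_contra hn
      push Not at hn
      simp only [hn, sub_self, abs_zero, sum_const_zero] at e
      omega
    obtain ⟨a, a1, a2, a3⟩ : ∃ a : ℤ, |x k - a| = 1 ∧ |a - x' k| + 1 = |x k - x' k| ∧
        0 ≤ a ∧ a ≤ B := by
      have b1 := hx k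
      have b2 := hx' k
      simp only at b1 b2
      rcases lt_or_gt_of_ne hk with h1 | h1
      · refine ⟨x k + 1, by simp, ?_, by omega, by omega⟩
        rw [abs_of_nonpos (by omega), abs_of_nonpos (by omega)]
        ring
      · refine ⟨x k - 1, by simp, ?_, by omega, by omega⟩
        rw [abs_of_nonneg (by omega), abs_of_nonneg (by omega)]
        ring
    have hy : (s, Function.update x k a) ∈ Box S m B := fun l => by
      by_cases e : l = k
      · subst e
        simpa using a3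
      · simpa [Function.update_of_ne e] using hx l
    have c1 := h x (Function.update x k a) hx (by
      rw [sum_eq_single k (fun l _ e => by simp [Function.update_of_ne e]) (by simp),
        Function.update_self]
      exact_mod_cast a1.le)
    have c2 := ih _ hy (by
      rw [← add_sum_erase _ _ (mem_univ k)] at e ⊢
      rw [Function.update_self, sum_congr rfl fun l hl => by
        rw [Function.update_of_ne (ne_of_mem_erase hl)]]
      push_cast at e
      linarith)
    push_cast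
    linarith

theorem rr_lip (hu : Sgn u) (hτ : 0 < τ) (hη : 0 < η) (hN : 0 < N) (hU : UC u η B ε)
    (h : 40 * S * τ ^ 2 ≤ ε * η) (s : Fin S) {x x' z : Pt m} (hx : (s, x) ∈ Box S m B)
    (hx' : (s, x') ∈ Box S m B) (hz : (s, z) ∈ Box S m B) :
    (sm u th η (s, x) (s, z) - gg u th η s x z) -
      (sm u th η (s, x') (s, z) - gg u th η s x' z) ≤ 2 * ε * ∑ k, |(x k : ℝ) - x' k| := by
  obtain ⟨n, hn⟩ := Int.eq_ofNat_of_zero_le
    (sum_nonneg fun k (_ : k ∈ univ) => abs_nonneg (x k - x' k))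
  have h1 := vr_path (f := fun y => sm u th η (s, y) (s, z) - gg u th η s y z) s
    (fun y y' hy e => vr_step hu hτ hη hN hU h s hy hz e) hx' n x hx hn
  have h2 : ∑ k, |(x k : ℝ) - x' k| = n := by exact_mod_cast hn
  rwa [h2]

end Vale.Agent.P318.N
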